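import Claimed.Agent.R296.Replica.Cen
import Claimed.Agent.R296.Rep.Ratio
import Claimed.Agent.R296.Rep.Schur5
import Claimed.Agent.R296.Rep.TensorB

/-!
# Row 296, replica layer: transfer `tRep → repQ` of the exports of BB_Rep (P1 Section 5)

Architect: helper197.  Package RP-T (one owner).

BB_Rep (helper116) states everything on ONE index type `κ → α` (`Rep.tRep α κ`).  On the
replica system `RCfg io κ ≃ (κ → CfgOn io Q) × (κ → CfgOff io Q)` (`rsplit`) one has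
`repQ Q y = tRep (CfgOn io Q) κ y ⊗ 1` (`repQ_eq_liftQ`), `topow κ (emb Q B) = tpow κ B ⊗ 1`.
`liftQ` is a unital `*`-homomorphism, contractive and positive.  All exports of `Rep/Ratio.lean`,
`Rep/Mixture.lean`, `Rep/Schur5.lean`, `Rep/TensorB.lean` are transported here:
occurrence of labels, tracial states of symmetric vectors, eigenvalue repetition, the measure-free
integral formula of `W`, the marked ratios (Lemma replicas:metric).
-/

set_option autoImplicit false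
set_option linter.unusedSectionVars false

namespace Claimed.Agent.R296

open Matrix
open scoped ComplexOrder MatrixOrder Matrix.Norms.L2Operator Kronecker

variable {s : Type} [DecidableEq s] [Fintype s] {io : s → Type}
  [∀ x, Fintype (io x)] [∀ x, DecidableEq (io x)] {κ : Type} [Fintype κ] [DecidableEq κ]

section Transfer

/-- a replica configuration = (its `Q` parts, its parts off `Q`) -/
def rsplit (Q : Finset s) : RCfg io κ ≃ (κ → CfgOn io Q) × (κ → CfgOff io Q) where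
  toFun c := (fun j => crOn Q (rcopy c j), fun j => crOff Q (rcopy c j))
  invFun p := fun q => cglue Q (p.1 q.1) (p.2 q.1) q.2
  left_inv c := by
    funext q
    exact congrFun ((cfgSplit Q).left_inv (rcopy c q.1)) q.2
  right_inv p := by
    refine Prod.ext ?_ ?_
    · funext j
      exact congrArg Prod.fst ((cfgSplit Q).right_inv (p.1 j, p.2 j))
    · funext j
      exact congrArg Prod.snd ((cfgSplit Q).right_inv (p.1 j, p.2 j))

/-- `M ⊗ 1`: an operator on the copies of `Q`, extended by the identity -/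
def liftQ (Q : Finset s) (M : Matrix (κ → CfgOn io Q) (κ → CfgOn io Q) ℂ) :
    Matrix (RCfg io κ) (RCfg io κ) ℂ :=
  (M ⊗ₖ (1 : Matrix (κ → CfgOff io Q) (κ → CfgOff io Q) ℂ)).submatrix (rsplit Q) (rsplit Q)

theorem liftQ_apply (Q : Finset s) (M : Matrix (κ → CfgOn io Q) (κ → CfgOn io Q) ℂ)
    (c c' : RCfg io κ) :
    liftQ Q M c c' = M (rsplit Q c).1 (rsplit Q c').1 *
      (if (rsplit Q c).2 = (rsplit Q c').2 then 1 else 0) := by
  simp only [liftQ, submatrix_apply, kroneckerMap_apply, Matrix.one_apply]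

theorem liftQ_one (Q : Finset s) : liftQ (io := io) (κ := κ) Q 1 = 1 := by
  rw [liftQ, kroneckerMap_one_one _ (fun _ => zero_mul _) (fun _ => mul_zero _) (one_mul _),
    submatrix_one_equiv]

theorem liftQ_mul (Q : Finset s) (M N : Matrix (κ → CfgOn io Q) (κ → CfgOn io Q) ℂ) :
    liftQ Q (M * N) = liftQ Q M * liftQ Q N := by
  rw [liftQ, liftQ, liftQ, submatrix_mul_equiv, ← mul_kronecker_mul, Matrix.one_mul]

theorem liftQ_add (Q : Finset s) (M N : Matrix (κ → CfgOn io Q) (κ → CfgOn io Q) ℂ) :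
    liftQ Q (M + N) = liftQ Q M + liftQ Q N := by
  rw [liftQ, liftQ, liftQ, add_kronecker, submatrix_add]
  rfl

theorem liftQ_smul (Q : Finset s) (a : ℂ) (M : Matrix (κ → CfgOn io Q) (κ → CfgOn io Q) ℂ) :
    liftQ Q (a • M) = a • liftQ Q M := by
  rw [liftQ, liftQ, smul_kronecker, submatrix_smul]
  rfl

theorem liftQ_zero (Q : Finset s) : liftQ (io := io) (κ := κ) Q 0 = 0 := by
  have := liftQ_smul (io := io) (κ := κ) Q 0 0
  simpa using this

theorem liftQ_sub (Q : Finset s) (M N : Matrix (κ → CfgOn io Q) (κ → CfgOn io Q) ℂ) :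
    liftQ Q (M - N) = liftQ Q M - liftQ Q N := by
  have h : M - N = M + (-1 : ℂ) • N := by rw [neg_one_smul, sub_eq_add_neg]
  rw [h, liftQ_add, liftQ_smul, neg_one_smul, sub_eq_add_neg]

theorem liftQ_sum {ι : Type*} (Q : Finset s) (S : Finset ι)
    (M : ι → Matrix (κ → CfgOn io Q) (κ → CfgOn io Q) ℂ) :
    liftQ Q (∑ a ∈ S, M a) = ∑ a ∈ S, liftQ Q (M a) := by
  classical
  induction S using Finset.induction_on with
  | empty => simp [liftQ_zero]
  | insert a S ha ih => rw [Finset.sum_insert ha, Finset.sum_insert ha, liftQ_add, ih]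

/-- `liftQ` as a linear map -/
def liftQL (Q : Finset s) : Matrix (κ → CfgOn io Q) (κ → CfgOn io Q) ℂ →ₗ[ℂ]
    Matrix (RCfg io κ) (RCfg io κ) ℂ where
  toFun := liftQ Q
  map_add' := liftQ_add Q
  map_smul' := liftQ_smul Q

theorem liftQ_conjTranspose (Q : Finset s) (M : Matrix (κ → CfgOn io Q) (κ → CfgOn io Q) ℂ) :
    (liftQ Q M).conjTranspose = liftQ Q M.conjTranspose := by
  rw [liftQ, liftQ, conjTranspose_submatrix, conjTranspose_kronecker, conjTranspose_one]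

theorem liftQ_posSemidef (Q : Finset s) {M : Matrix (κ → CfgOn io Q) (κ → CfgOn io Q) ℂ}
    (hM : M.PosSemidef) : (liftQ Q M).PosSemidef := by
  obtain ⟨B, rfl⟩ := hs_exists_eq_conjTranspose_mul_self hM
  rw [liftQ_mul, ← liftQ_conjTranspose]
  exact posSemidef_conjTranspose_mul_self _

theorem norm_liftQ_le (Q : Finset s) (M : Matrix (κ → CfgOn io Q) (κ → CfgOn io Q) ℂ) :
    ‖liftQ Q M‖ ≤ ‖M‖ := by
  apply Rep.br_norm_le_of_gram _ _ (norm_nonneg M)
  have h := liftQ_posSemidef Q (posSemidef_of_opNorm_le (le_refl ‖M‖))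
  rwa [liftQ_sub, liftQ_smul, liftQ_one, liftQ_mul, ← liftQ_conjTranspose] at h

/-- polynomials pass through `liftQ` -/
theorem liftQ_aeval (Q : Finset s) (M : Matrix (κ → CfgOn io Q) (κ → CfgOn io Q) ℂ)
    (p : Polynomial ℝ) : liftQ Q (Polynomial.aeval M p) = Polynomial.aeval (liftQ Q M) p := by
  induction p using Polynomial.induction_on with
  | C a =>
    rw [Polynomial.aeval_C, Polynomial.aeval_C, Algebra.algebraMap_eq_smul_one,
      Algebra.algebraMap_eq_smul_one]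
    have h1 : (a • (1 : Matrix (κ → CfgOn io Q) (κ → CfgOn io Q) ℂ))
        = (a : ℂ) • (1 : Matrix (κ → CfgOn io Q) (κ → CfgOn io Q) ℂ) := by
      ext f g
      simp
    have h2 : (a • (1 : Matrix (RCfg io κ) (RCfg io κ) ℂ))
        = (a : ℂ) • (1 : Matrix (RCfg io κ) (RCfg io κ) ℂ) := by
      ext f g
      simp
    rw [h1, h2, liftQ_smul, liftQ_one]
  | add p q hp hq => rw [map_add, map_add, liftQ_add, hp, hq]
  | monomial n a h =>
    rw [pow_succ, ← mul_assoc, map_mul _ (Polynomial.C a * Polynomial.X ^ n),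
      map_mul _ (Polynomial.C a * Polynomial.X ^ n), liftQ_mul, h, Polynomial.aeval_X,
      Polynomial.aeval_X]

theorem rsplit_rperm (Q : Finset s) (π : Equiv.Perm κ) (c : RCfg io κ) :
    rsplit Q (rperm Q π c) = ((rsplit Q c).1 ∘ (π⁻¹ : Equiv.Perm κ), (rsplit Q c).2) := by
  refine Prod.ext ?_ ?_
  · funext j x
    simp only [rsplit, Equiv.coe_fn_mk, crOn, rcopy, rperm_apply, x.2, if_true, Function.comp]
  · funext j x
    simp only [rsplit, Equiv.coe_fn_mk, crOff, rcopy, rperm_apply, x.2, if_false]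

theorem UQ_eq_liftQ (Q : Finset s) (π : Equiv.Perm κ) :
    UQ (io := io) Q π = liftQ Q (Rep.tU (CfgOn io Q) κ π) := by
  ext c c'
  rw [liftQ_apply, Rep.tU_apply]
  simp only [UQ, Matrix.of_apply]
  have h : c = rperm Q π c' ↔
      ((rsplit Q c).1 ∘ π = (rsplit Q c').1 ∧ (rsplit Q c).2 = (rsplit Q c').2) := by
    rw [← (rsplit Q).injective.eq_iff, rsplit_rperm, Prod.ext_iff, Rep.ta_comp_iff]
    simp only
    constructor
    · rintro ⟨h1, h2⟩
      exact ⟨h1.symm, h2⟩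
    · rintro ⟨h1, h2⟩
      exact ⟨h1.symm, h2⟩
  by_cases h1 : (rsplit Q c).1 ∘ π = (rsplit Q c').1
  · by_cases h2 : (rsplit Q c).2 = (rsplit Q c').2
    · rw [if_pos (h.2 ⟨h1, h2⟩), if_pos h1, if_pos h2, mul_one]
    · rw [if_neg (fun hh => h2 (h.1 hh).2), if_neg h2, mul_zero]
  · rw [if_neg (fun hh => h1 (h.1 hh).1), if_neg h1, zero_mul]

/-- **transfer of the permutation representation** -/
theorem repQ_eq_liftQ (Q : Finset s) (y : GA κ) :
    repQ (io := io) Q y = liftQ Q (Rep.tRep (CfgOn io Q) κ y) := by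
  rw [repQ_eq_sum, Rep.tRep, Rep.repAlg_eq_sum, liftQ_sum]
  refine Finset.sum_congr rfl fun π _ => ?_
  rw [liftQ_smul, UQ_eq_liftQ]

/-- transfer of tensor powers -/
theorem topow_emb_eq_liftQ (Q : Finset s) (B : Matrix (CfgOn io Q) (CfgOn io Q) ℂ) :
    topow κ (emb Q B) = liftQ Q (Rep.tpow κ B) := by
  ext c c'
  rw [topow_eq_tpo, tpo_emb_apply, liftQ_apply, Rep.tpow_apply]
  have h : (∀ i, crOff Q (rcopy c i) = crOff Q (rcopy c' i)) ↔
      (rsplit Q c).2 = (rsplit Q c').2 := by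
    constructor
    · intro h
      funext i
      exact h i
    · intro h i
      exact congrFun h i
  by_cases h1 : (rsplit Q c).2 = (rsplit Q c').2
  · rw [if_pos (h.2 h1), if_pos h1, mul_one]
    rfl
  · rw [if_neg (fun hh => h1 (h.1 hh)), if_neg h1, mul_zero]

theorem one_le_dV [∀ x, Nonempty (io x)] : 1 ≤ dV io :=
  Fintype.card_pos

theorem card_cfgOn_le_dV [∀ x, Nonempty (io x)] (Q : Finset s) :
    Fintype.card (CfgOn io Q) ≤ dV io := by
  refine Fintype.card_le_of_surjective (crOn Q) fun a => ?_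
  refine ⟨cglue Q a (fun _ => Classical.arbitrary _), ?_⟩
  exact congrArg Prod.fst ((cfgSplit Q).right_inv (a, fun _ => Classical.arbitrary _))

/-- only blocks with at most `dim 𝒱` rows occur (`Rep.tRep_idem_eq_zero`) -/
theorem labP_eq_zero_of_not_labelled [∀ x, Nonempty (io x)] (Q : Finset s)
    (i : Rep.Irr (Equiv.Perm κ)) (h : ¬ Rep.IsLabelled (dV io) i) :
    labP (io := io) Q i = 0 := by
  rw [labP, repQ_eq_liftQ, Rep.tRep_idem_eq_zero (dV io) (card_cfgOn_le_dV Q) i h, liftQ_zero]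

/-- the functional `y ↦ ⟨z, U_Q(y) z⟩` on the group algebra -/
noncomputable def symFun (Q : Finset s) (z : RCfg io κ → ℂ) : GA κ →ₗ[ℂ] ℂ where
  toFun y := star z ⬝ᵥ (repQ Q y *ᵥ z)
  map_add' y y' := by
    rw [map_add, Matrix.add_mulVec, dotProduct_add]
  map_smul' a y := by
    rw [map_smul, Matrix.smul_mulVec, dotProduct_smul]
    rfl

theorem symFun_apply (Q : Finset s) (z : RCfg io κ → ℂ) (y : GA κ) :
    symFun Q z y = star z ⬝ᵥ (repQ Q y *ᵥ z) := rfl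

theorem repQ_of (Q : Finset s) (π : Equiv.Perm κ) :
    repQ (io := io) Q (MonoidAlgebra.of ℂ (Equiv.Perm κ) π) = UQ Q π := by
  rw [MonoidAlgebra.of_apply, repQ_single, one_smul]

theorem repQ_gstar (Q : Finset s) (y : GA κ) :
    repQ (io := io) Q (Rep.gstar y) = (repQ Q y).conjTranspose :=
  (Rep.repAlg_gstar (UQhom (io := io) Q) (fun g => UQ_conjTranspose Q g) y).symm

/-- on symmetric vectors a permutation of `Q` is the inverse permutation of the complement -/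
theorem UQ_mulVec_of_isSymVec (Q : Finset s) {z : RCfg io κ → ℂ} (hz : IsSymVec z)
    (π : Equiv.Perm κ) : UQ Q π *ᵥ z = UQ Qᶜ π⁻¹ *ᵥ z := by
  have h1 : UQ Qᶜ π *ᵥ (UQ Q π *ᵥ z) = z := by
    have h := hz π
    rw [← Finset.union_compl Q, UQ_union disjoint_compl_right,
      (UQ_commute_disjoint disjoint_compl_right π π).eq, ← Matrix.mulVec_mulVec] at h
    exact h
  calc UQ Q π *ᵥ z = (UQ Qᶜ π⁻¹ * UQ Qᶜ π) *ᵥ (UQ Q π *ᵥ z) := by
        rw [UQ_inv_mul, Matrix.one_mulVec]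
    _ = UQ Qᶜ π⁻¹ *ᵥ z := by rw [← Matrix.mulVec_mulVec, h1]

theorem tr_dot_conjTranspose {n : Type} [Fintype n] (A : Matrix n n ℂ) (v w : n → ℂ) :
    star v ⬝ᵥ (A *ᵥ w) = star (A.conjTranspose *ᵥ v) ⬝ᵥ w := by
  rw [star_mulVec, conjTranspose_conjTranspose, dotProduct_mulVec]

theorem symFun_mul_of (Q : Finset s) {z : RCfg io κ → ℂ} (hz : IsSymVec z) (a : GA κ)
    (π : Equiv.Perm κ) :
    symFun Q z (a * MonoidAlgebra.of ℂ (Equiv.Perm κ) π)
      = symFun Q z (MonoidAlgebra.of ℂ (Equiv.Perm κ) π * a) := by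
  have hc : repQ (io := io) Q a * UQ Qᶜ π⁻¹ = UQ Qᶜ π⁻¹ * repQ Q a := by
    have := (repQ_commute_disjoint (io := io) (Q := Q) (E := Qᶜ) disjoint_compl_right a
      (MonoidAlgebra.of ℂ (Equiv.Perm κ) π⁻¹)).eq
    rwa [repQ_of] at this
  rw [symFun_apply, symFun_apply, map_mul, map_mul, repQ_of, ← Matrix.mulVec_mulVec,
    UQ_mulVec_of_isSymVec Q hz, Matrix.mulVec_mulVec, hc, ← Matrix.mulVec_mulVec,
    tr_dot_conjTranspose, UQ_conjTranspose, inv_inv, ← Matrix.mulVec_mulVec,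
    tr_dot_conjTranspose (UQ Q π), UQ_conjTranspose, UQ_mulVec_of_isSymVec Q hz π⁻¹, inv_inv]

/-- on a symmetric unit vector it is a tracial state carried by the labelled blocks
(`U_Q(σ) z = U_{Qᶜ}(σ⁻¹) z`: `repQ_mirror`) -/
theorem symFun_trState [∀ x, Nonempty (io x)] (Q : Finset s) {z : RCfg io κ → ℂ}
    (hz : IsSymVec z) (h1 : star z ⬝ᵥ z = 1) : Rep.TrState (dV io) (symFun Q z) where
  tracial a b := by
    rw [Rep.ga_eq_sum_coeff b, Finset.mul_sum, Finset.sum_mul, map_sum, map_sum]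
    refine Finset.sum_congr rfl fun π _ => ?_
    rw [mul_smul_comm, smul_mul_assoc, map_smul, map_smul, symFun_mul_of Q hz]
  nonneg i := by
    have h := (Rep.repAlg_idem_posSemidef (UQhom (io := io) Q)
      (fun g => UQ_conjTranspose Q g) i).dotProduct_mulVec_nonneg z
    have h2 := Complex.le_def.mp h
    exact ⟨h2.1, h2.2.symm⟩
  total := by
    rw [symFun_apply, map_one, Matrix.one_mulVec, h1]
  labelled i hi := by
    have := labP_eq_zero_of_not_labelled (io := io) Q i hi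
    rw [labP] at this
    rw [symFun_apply, this, Matrix.zero_mulVec, dotProduct_zero]

theorem nsq_repQ_mulVec (Q : Finset s) (z : RCfg io κ → ℂ) (y : GA κ) :
    l2n (repQ Q y *ᵥ z) ^ 2 = (symFun Q z (Rep.gstar y * y)).re := by
  rw [l2n_sq_eq_re, symFun_apply, map_mul, repQ_gstar, ← Matrix.mulVec_mulVec,
    tr_dot_conjTranspose (repQ Q y).conjTranspose, conjTranspose_conjTranspose]

/-- `F_Q ≤ L_ρ`, multiplicative form (`Rep.inv_density_le`): for a PSD `ρ` on `Q`, `Tr ρ ≤ 1` -/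
theorem labP_mul_topow_le (Q : Finset s) (ρ : Matrix (CfgOn io Q) (CfgOn io Q) ℂ)
    (hρ : ρ.PosSemidef) (htr : ρ.trace.re ≤ 1) (i : Rep.Irr (Equiv.Perm κ)) :
    topow κ (emb Q ρ) * labP Q i ≤ ((Rep.dimI i : ℂ))⁻¹ • labP Q i := by
  rw [Matrix.le_iff, labP, repQ_eq_liftQ, topow_emb_eq_liftQ, ← liftQ_mul, ← liftQ_smul,
    ← liftQ_sub]
  apply liftQ_posSemidef
  have h0 : 0 ≤ ρ.trace := hρ.trace_nonneg
  have h0' := Complex.le_def.mp h0
  have htrace : ρ.trace = ((ρ.trace.re : ℝ) : ℂ) := by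
    apply Complex.ext
    · simp
    · simpa using h0'.2.symm
  refine Rep.inv_density_le (Rep.tU (CfgOn io Q) κ) Rep.tU_conjTranspose (Rep.tpow κ ρ)
    (Rep.tpow_posSemidef ρ hρ) ?_ (fun g => (Rep.tU_mul_tpow g ρ).symm) i
  rw [Rep.trace_tpow, htrace, ← Complex.ofReal_pow, Complex.ofReal_re]
  exact pow_le_one₀ h0'.1 htr

/-- a `PowBall` factor is the `t`-th power of a PSD matrix of trace at most one -/
theorem exists_spow_of_powBall {α : Type} [Fintype α] [DecidableEq α] (t : ℝ) (ht : 0 < t)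
    (B : Matrix α α ℂ) (hB : Rep.PowBall t B) :
    ∃ σ : Matrix α α ℂ, σ.PosSemidef ∧ σ.trace.re ≤ 1 ∧ B = spow σ (t : ℂ) := by
  obtain ⟨hH, hpos, hsum⟩ := hB
  refine ⟨mfun (fun x => ((x ^ (1 / t) : ℝ) : ℂ)) B, ?_, ?_, ?_⟩
  · exact mfun_posSemidef hH _ fun a => Real.rpow_nonneg (hpos a).le _
  · rw [trace_mfun hH, ← Complex.ofReal_sum, Complex.ofReal_re]
    exact hsum
  · rw [spow, mfun_comp _ _ _ hH]
    conv_lhs => rw [← mfun_id hH]
    refine mfun_congr hH fun a => ?_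
    have hx := hpos a
    rw [spowS_ofReal (Real.rpow_pos_of_pos hx _), ← Real.rpow_mul hx.le,
      one_div_mul_cancel ht.ne', Real.rpow_one]

/-- **(replicas:W-integral)**, measure-free, on the replica system (`Rep.W_mixture`) -/
theorem WQ_mixture [∀ x, Nonempty (io x)] (t : ℝ) (ht0 : 0 < t) (ht1 : t ≤ 1) (Q : Finset s)
    (ℓ : Matrix (RCfg io κ) (RCfg io κ) ℂ →ₗ[ℂ] ℂ) (c : ℝ)
    (h : ∀ σ : Matrix (CfgOn io Q) (CfgOn io Q) ℂ, σ.PosSemidef → σ.trace.re ≤ 1 →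
      ‖ℓ (topow κ (emb Q (spow σ (t : ℂ))))‖ ≤ c) :
    ‖ℓ (WQ t Q 1)‖ ≤ c := by
  rw [WQ, repQ_eq_liftQ]
  refine Rep.W_mixture (dV io) one_le_dV (card_cfgOn_le_dV Q) t ht0 ht1 (ℓ ∘ₗ liftQL Q) c ?_
  intro B hB
  obtain ⟨σ, h1, h2, rfl⟩ := exists_spow_of_powBall t ht0 B hB
  have := h σ h1 h2
  rwa [topow_emb_eq_liftQ] at this

/-- vector form, two overlapping factors: the only way the integral formula is consumed -/
theorem WQ_WQ_nsq_le [∀ x, Nonempty (io x)] (t : ℝ) (ht0 : 0 < t) (ht1 : t ≤ 1) (Q Q' : Finset s)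
    (v : RCfg io κ → ℂ) (c : ℝ) (hc : 0 ≤ c)
    (h : ∀ (σ : Matrix (CfgOn io Q) (CfgOn io Q) ℂ) (τ : Matrix (CfgOn io Q') (CfgOn io Q') ℂ),
      σ.PosSemidef → σ.trace.re ≤ 1 → τ.PosSemidef → τ.trace.re ≤ 1 →
      l2n ((topow κ (emb Q (spow σ (t : ℂ))) * topow κ (emb Q' (spow τ (t : ℂ)))) *ᵥ v) ≤ c) :
    l2n ((WQ t Q 1 * WQ t Q' 1) *ᵥ v) ≤ c := by
  set w := (WQ t Q 1 * WQ t Q' 1) *ᵥ v with hw
  -- the bilinear form `(X, Y) ↦ ⟨w, X Y v⟩`
  let ℓ₂ : Matrix (RCfg io κ) (RCfg io κ) ℂ → Matrix (RCfg io κ) (RCfg io κ) ℂ →ₗ[ℂ] ℂ :=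
    fun X =>
    { toFun := fun Y => star w ⬝ᵥ ((X * Y) *ᵥ v)
      map_add' := fun Y Y' => by rw [Matrix.mul_add, Matrix.add_mulVec, dotProduct_add]
      map_smul' := fun a Y => by
        rw [Matrix.mul_smul, Matrix.smul_mulVec, dotProduct_smul]
        rfl }
  let ℓ₁ : Matrix (RCfg io κ) (RCfg io κ) ℂ →ₗ[ℂ] ℂ :=
    { toFun := fun X => star w ⬝ᵥ ((X * WQ t Q' 1) *ᵥ v)
      map_add' := fun Y Y' => by rw [Matrix.add_mul, Matrix.add_mulVec, dotProduct_add]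
      map_smul' := fun a Y => by
        rw [Matrix.smul_mul, Matrix.smul_mulVec, dotProduct_smul]
        rfl }
  have h1 : ‖ℓ₁ (WQ t Q 1)‖ ≤ l2n w * c := by
    refine WQ_mixture t ht0 ht1 Q ℓ₁ _ fun σ hσ hσ1 => ?_
    refine WQ_mixture t ht0 ht1 Q' (ℓ₂ (topow κ (emb Q (spow σ (t : ℂ))))) _ fun τ hτ hτ1 => ?_
    exact (norm_dotProduct_le _ _).trans
      (mul_le_mul_of_nonneg_left (h σ τ hσ hσ1 hτ hτ1) (l2n_nonneg w))
  have h2 : ℓ₁ (WQ t Q 1) = ((l2n w ^ 2 : ℝ) : ℂ) := by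
    rw [l2n_sq_eq_dotProduct]
    rfl
  rw [h2, Complex.norm_real, Real.norm_of_nonneg (sq_nonneg _)] at h1
  by_contra hlt
  rw [not_le] at hlt
  have hpos : 0 < l2n w := lt_of_le_of_lt hc hlt
  nlinarith

/-! #### marked ratios (Lemma replicas:metric, second half), `κ = Fin k` or any finite type -/

theorem RQ_mul_RQinv [∀ x, Nonempty (io x)] (t : ℝ) (ht0 : 0 < t) (Q : Finset s) (j₀ : κ) :
    RQ (io := io) t Q j₀ * RQinv t Q j₀ = 1 := by
  rw [RQ, RQinv, ← map_mul, Rep.Rel_mul_RelInv (dV io) one_le_dV t ht0, map_one]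

theorem RQinv_isHermitian (t : ℝ) (Q : Finset s) (j₀ : κ) :
    (RQinv (io := io) t Q j₀).IsHermitian := by
  rw [IsHermitian, RQinv, ← repQ_gstar, Rep.gstar_RelInv]

theorem tr_gstar_Rel (d : ℕ) (t : ℝ) (j₀ : κ) : Rep.gstar (Rep.Rel d t j₀) = Rep.Rel d t j₀ := by
  rw [Rep.Rel, Rep.gstar_mul, Rep.gstar_Wpow, Rep.gstar_gsub, Rep.gstar_Wpow, Rep.Wpow_comm]

theorem RQ_isHermitian (t : ℝ) (Q : Finset s) (j₀ : κ) : (RQ (io := io) t Q j₀).IsHermitian := by
  rw [IsHermitian, RQ, ← repQ_gstar, tr_gstar_Rel]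

theorem tr_gstar_Jel (j₀ : κ) : Rep.gstar (Rep.Jel j₀) = Rep.Jel j₀ := by
  rw [Rep.Jel, Rep.gstar_smul, Rep.jm, Rep.gstar_sum]
  congr 1
  · simp
  · refine Finset.sum_congr rfl fun j _ => ?_
    split_ifs
    · rw [Rep.gstar_of, Equiv.swap_inv]
    · exact Rep.gstar_zero

theorem JQ_isHermitian (Q : Finset s) (j₀ : κ) : (JQ (io := io) Q j₀).IsHermitian := by
  rw [IsHermitian, JQ, ← repQ_gstar, tr_gstar_Jel]

theorem norm_JQ_le (Q : Finset s) (j₀ : κ) : ‖JQ (io := io) Q j₀‖ ≤ 1 := by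
  rw [JQ, repQ_eq_liftQ]
  refine (norm_liftQ_le Q _).trans ?_
  rw [Rep.tRep_Jel (Fintype.card (CfgOn io Q)) le_rfl j₀]
  refine Rep.norm_tRep_brOp_le _ j₀ _ 1 zero_le_one fun lam i hl hi => ?_
  rw [Complex.norm_real, Real.norm_eq_abs, abs_le]
  exact Rep.star_eigenvalue_mem _ _ lam hl i hi

theorem JQ_eq_liftQ (Q : Finset s) (j₀ : κ) :
    JQ (io := io) Q j₀ = liftQ Q (Rep.tRep (CfgOn io Q) κ (Rep.Jel j₀)) := repQ_eq_liftQ Q _

/-- a bound for the quadratic form of tracial states gives a vector bound on symmetric vectors -/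
theorem l2n_repQ_mulVec_le [∀ x, Nonempty (io x)] (Q : Finset s) (y : GA κ) (C : ℝ) (hC : 0 ≤ C)
    (h : ∀ φ : GA κ →ₗ[ℂ] ℂ, Rep.TrState (dV io) φ → (φ (Rep.gstar y * y)).re ≤ C ^ 2)
    (z : RCfg io κ → ℂ) (hz : IsSymVec z) : l2n (repQ Q y *ᵥ z) ≤ C * l2n z := by
  by_cases h0 : l2n z = 0
  · have hz0 : z = 0 := by
      have h1 := l2n_sq z
      rw [h0] at h1
      funext c
      have h2 : ‖z c‖ ^ 2 ≤ 0 := by
        calc ‖z c‖ ^ 2 ≤ ∑ i, ‖z i‖ ^ 2 :=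
              Finset.single_le_sum (f := fun i => ‖z i‖ ^ 2) (fun i _ => sq_nonneg _)
                (Finset.mem_univ c)
          _ = 0 := by rw [← h1]; norm_num
      have h3 : ‖z c‖ = 0 := by nlinarith [norm_nonneg (z c)]
      simpa using h3
    rw [hz0, Matrix.mulVec_zero, l2n_zero, mul_zero]
  · have hpos : 0 < l2n z := lt_of_le_of_ne (l2n_nonneg z) (Ne.symm h0)
    set z' : RCfg io κ → ℂ := (((l2n z)⁻¹ : ℝ) : ℂ) • z with hz'
    have hsym : IsSymVec z' := by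
      intro π
      rw [hz', Matrix.mulVec_smul, hz π]
    have hn : l2n z' = 1 := by
      rw [hz', l2n_smul, Complex.norm_real, Real.norm_of_nonneg (inv_nonneg.mpr hpos.le),
        inv_mul_cancel₀ h0]
    have h1 := h _ (symFun_trState Q hsym ((l2n_eq_one_iff z').mp hn))
    rw [← nsq_repQ_mulVec] at h1
    have h2 : l2n (repQ Q y *ᵥ z') ≤ C := abs_le_of_sq_le_sq' h1 hC |>.2
    have h3 : z = ((l2n z : ℝ) : ℂ) • z' := by
      rw [hz', smul_smul, ← Complex.ofReal_mul, mul_inv_cancel₀ h0, Complex.ofReal_one, one_smul]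
    calc l2n (repQ Q y *ᵥ z) = l2n z * l2n (repQ Q y *ᵥ z') := by
          conv_lhs => rw [h3]
          rw [Matrix.mulVec_smul, l2n_smul, Complex.norm_real, Real.norm_of_nonneg hpos.le]
      _ ≤ l2n z * C := mul_le_mul_of_nonneg_left h2 hpos.le
      _ = C * l2n z := mul_comm _ _

end Transfer

/-- uniform bound of the forward ratio -/
theorem norm_RQ_le {s : Type} [DecidableEq s] [Fintype s] (io : s → Type)
    [∀ x, Fintype (io x)] [∀ x, DecidableEq (io x)] [∀ x, Nonempty (io x)]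
    (t : ℝ) (ht0 : 0 < t) (ht1 : t < 1) :
    ∃ C : ℝ, ∀ (κ : Type) [Fintype κ] [DecidableEq κ] (j₀ : κ) (Q : Finset s),
      ‖RQ (io := io) t Q j₀‖ ≤ C := by
  obtain ⟨C, hC⟩ := Rep.norm_R_le (dV io) one_le_dV t ht0 ht1
  refine ⟨C, fun κ _ _ j₀ Q => ?_⟩
  rw [RQ, repQ_eq_liftQ]
  exact (norm_liftQ_le Q _).trans (hC κ j₀ _ (card_cfgOn_le_dV Q))

/-- (replicas:R-forward), polynomial form -/
theorem RQ_forward {s : Type} [DecidableEq s] [Fintype s] (io : s → Type)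
    [∀ x, Fintype (io x)] [∀ x, DecidableEq (io x)] [∀ x, Nonempty (io x)]
    (t : ℝ) (ht0 : 0 < t) (ht1 : t < 1) (ε : ℝ) (hε : 0 < ε) :
    ∃ k₀ : ℕ, ∀ (κ : Type) [Fintype κ] [DecidableEq κ] (j₀ : κ) (Q : Finset s),
      k₀ ≤ Fintype.card κ →
      ∀ (p : Polynomial ℝ) (η : ℝ), (∀ u ∈ Set.Icc (-1 : ℝ) 1, |p.eval u - (max u 0) ^ t| ≤ η) →
        ‖RQ (io := io) t Q j₀ - Polynomial.aeval (JQ (io := io) Q j₀) p‖ ≤ η + ε := by
  obtain ⟨k₀, hk⟩ := Rep.R_forward (dV io) one_le_dV t ht0 ht1 ε hε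
  refine ⟨k₀, fun κ _ _ j₀ Q hκ p η hp => ?_⟩
  rw [RQ, repQ_eq_liftQ, JQ_eq_liftQ, ← liftQ_aeval, ← liftQ_sub]
  exact (norm_liftQ_le Q _).trans (hk κ j₀ _ (card_cfgOn_le_dV Q) hκ p η hp)

/-- inverse vector bound on symmetric vectors -/
theorem RQinv_bound {s : Type} [DecidableEq s] [Fintype s] (io : s → Type)
    [∀ x, Fintype (io x)] [∀ x, DecidableEq (io x)] [∀ x, Nonempty (io x)]
    (t : ℝ) (ht0 : 0 < t) (ht1 : t < 1 / 2) :
    ∃ C : ℝ, 0 ≤ C ∧ ∀ (κ : Type) [Fintype κ] [DecidableEq κ] (j₀ : κ) (Q : Finset s)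
      (z : RCfg io κ → ℂ), IsSymVec z → l2n (RQinv t Q j₀ *ᵥ z) ≤ C * l2n z := by
  obtain ⟨C, hC⟩ := Rep.Rinv_bound (dV io) one_le_dV t ht0 ht1
  refine ⟨Real.sqrt (max C 0), Real.sqrt_nonneg _, fun κ _ _ j₀ Q z hz => ?_⟩
  refine l2n_repQ_mulVec_le Q _ _ (Real.sqrt_nonneg _) (fun φ hφ => ?_) z hz
  rw [Rep.gstar_RelInv, Real.sq_sqrt (le_max_right _ _)]
  exact (hC κ j₀ φ hφ).trans (le_max_left _ _)

theorem tr_gstar_clipOp {κ : Type} [Fintype κ] [DecidableEq κ] (d : ℕ) (t δ : ℝ) (j₀ : κ) :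
    Rep.gstar (Rep.clipOp d t δ j₀) = Rep.clipOp d t δ j₀ := by
  rw [Rep.clipOp, Rep.gstar_brOp]
  simp only [Complex.conj_ofReal]

/-- (replicas:R-inverse), polynomial form: `p` approximates `u ↦ max(u,δ)^{-t}` on `[-1,1]` -/
theorem RQinv_clip {s : Type} [DecidableEq s] [Fintype s] (io : s → Type)
    [∀ x, Fintype (io x)] [∀ x, DecidableEq (io x)] [∀ x, Nonempty (io x)]
    (t : ℝ) (ht0 : 0 < t) (ht1 : t < 1 / 2) :
    ∃ C : ℝ, 0 < C ∧ ∀ δ : ℝ, 0 < δ → δ < 1 → ∀ ε : ℝ, 0 < ε →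
      ∃ k₀ : ℕ, ∀ (κ : Type) [Fintype κ] [DecidableEq κ] (j₀ : κ) (Q : Finset s),
        k₀ ≤ Fintype.card κ →
        ∀ (p : Polynomial ℝ) (η : ℝ), 0 ≤ η →
          (∀ u ∈ Set.Icc (-1 : ℝ) 1, |p.eval u - (max u δ) ^ (-t)| ≤ η) →
          ∀ z : RCfg io κ → ℂ, IsSymVec z →
            l2n ((RQinv t Q j₀ - Polynomial.aeval (JQ (io := io) Q j₀) p) *ᵥ z)
              ≤ (C * δ ^ ((1 - 2 * t) / 2) + ε + η) * l2n z := by
  obtain ⟨C, hC0, hC⟩ := Rep.Rinv_clip (dV io) one_le_dV t ht0 ht1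
  refine ⟨Real.sqrt C, Real.sqrt_pos.mpr hC0, fun δ hδ0 hδ1 ε hε => ?_⟩
  obtain ⟨k₀, hk⟩ := hC δ hδ0 hδ1 (ε ^ 2) (by positivity)
  refine ⟨k₀, fun κ _ _ j₀ Q hκ p η hη hp z hz => ?_⟩
  have hB0 : 0 ≤ Real.sqrt C * δ ^ ((1 - 2 * t) / 2) + ε := by positivity
  have h1 : l2n (repQ Q (Rep.RelInv (dV io) t j₀ - Rep.clipOp (dV io) t δ j₀) *ᵥ z)
      ≤ (Real.sqrt C * δ ^ ((1 - 2 * t) / 2) + ε) * l2n z := by
    refine l2n_repQ_mulVec_le Q _ _ hB0 (fun φ hφ => ?_) z hz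
    have hs : Rep.gstar (Rep.RelInv (dV io) t j₀ - Rep.clipOp (dV io) t δ j₀)
        = Rep.RelInv (dV io) t j₀ - Rep.clipOp (dV io) t δ j₀ := by
      rw [sub_eq_add_neg, ← neg_one_smul ℂ, Rep.gstar_add, Rep.gstar_smul, Rep.gstar_RelInv,
        tr_gstar_clipOp]
      simp
    rw [hs]
    refine (hk κ j₀ hκ φ hφ).trans ?_
    have h2 : (Real.sqrt C * δ ^ ((1 - 2 * t) / 2)) ^ 2 = C * δ ^ (1 - 2 * t) := by
      rw [mul_pow, Real.sq_sqrt hC0.le, ← Real.rpow_natCast, ← Real.rpow_mul hδ0.le]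
      congr 2
      push_cast
      ring
    have h3 : 0 ≤ Real.sqrt C * δ ^ ((1 - 2 * t) / 2) := by positivity
    nlinarith
  have h2 : l2n ((repQ Q (Rep.clipOp (dV io) t δ j₀)
      - Polynomial.aeval (JQ (io := io) Q j₀) p) *ᵥ z) ≤ η * l2n z := by
    refine (l2n_mulVec_le _ _).trans (mul_le_mul_of_nonneg_right ?_ (l2n_nonneg z))
    rw [repQ_eq_liftQ, JQ_eq_liftQ, ← liftQ_aeval, ← liftQ_sub]
    exact (norm_liftQ_le Q _).trans
      (Rep.clip_poly (dV io) t δ j₀ (card_cfgOn_le_dV Q) p η hη hp)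
  have h3 : (RQinv t Q j₀ - Polynomial.aeval (JQ (io := io) Q j₀) p) *ᵥ z
      = repQ Q (Rep.RelInv (dV io) t j₀ - Rep.clipOp (dV io) t δ j₀) *ᵥ z
        + (repQ Q (Rep.clipOp (dV io) t δ j₀)
          - Polynomial.aeval (JQ (io := io) Q j₀) p) *ᵥ z := by
    rw [← Matrix.add_mulVec, map_sub, RQinv, sub_add_sub_cancel]
  rw [h3]
  calc _ ≤ _ := l2n_add_le _ _
    _ ≤ (Real.sqrt C * δ ^ ((1 - 2 * t) / 2) + ε) * l2n z + η * l2n z := add_le_add h1 h2
    _ = _ := by ring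

/-- `F_Q ≤ k log dim Q` (`Rep.dimI_le_card_pow`) -/
theorem FQ_le (Q : Finset s) : FQ (io := io) (κ := κ) Q
    ≤ ((Fintype.card κ * Real.log (cd_dim io Q) : ℝ) : ℂ) • 1 := by
  have h1 : FQ (io := io) (κ := κ) Q
      = cenQ Q fun i => ((Real.log (Rep.dimI i) : ℝ) : ℂ) := rfl
  have h2 : ((Fintype.card κ * Real.log (cd_dim io Q) : ℝ) : ℂ) •
      (1 : Matrix (RCfg io κ) (RCfg io κ) ℂ)
      = cenQ Q fun _ => ((Fintype.card κ * Real.log (cd_dim io Q) : ℝ) : ℂ) := by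
    rw [← cenQ_one Q, cenQ_smul]
    simp only [mul_one]
  rw [h1, h2]
  refine cenQ_le_cenQ Q _ _ fun i hi => ?_
  have hne : Rep.tRep (CfgOn io Q) κ (Rep.idem i) ≠ 0 := by
    intro h0
    apply hi
    rw [labP, repQ_eq_liftQ, h0, liftQ_zero]
  have hle := Rep.dimI_le_card_pow i hne
  rw [cd_card_cfgOn] at hle
  have hpos : (0 : ℝ) < Rep.dimI i := by exact_mod_cast Rep.dimI_pos i
  calc Real.log (Rep.dimI i) ≤ Real.log ((cd_dim io Q : ℝ) ^ Fintype.card κ) := by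
        apply Real.log_le_log hpos
        exact_mod_cast hle
    _ = Fintype.card κ * Real.log (cd_dim io Q) := by rw [Real.log_pow]

end Claimed.Agent.R296
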