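import Claimed.Agent.R296.Replica.Transfer
import Claimed.Agent.R296.Means
import Claimed.Agent.R296.MatPDOrd

/-!
# Row 296, replica layer: the metric `W_Q` and the band metrics (P1 Section 5, eqs. W-comparison,
leaf-metric, leaf-floor; Section 6, eq. band-metric; Section 7, cross-band commutation)

Architect: helper197.  Proofs: helper142.  Packages: RP-W (section `WAlg`: algebra of `WQ`, `bandFull`, `bandMz`),
RP-F (section `Floor`: comparison with `e^{-tF}`, floor, logarithm).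

Everything follows from the label calculus `Replica/Cen.lean`, `Replica/Transfer.lean` (`WQ t Q z = cenQ Q (wIrr^z)` by
`rfl`), the compression lemmas `Replica/Sym.lean` and `Rep.wIrr_pos`, `Rep.wIrr_compare`.
EXPORTS for Sections 6-8: `bandMz_posDef`, `bandMz_eq_rpw`, `relM_eq_relm`, `bandMz_commute_nested`
(cross-band commutation), `barOp_commute_bandMz` (unsplit terms), `bandM_floor`, `norm_mlog_bandM`.
-/

set_option autoImplicit false
set_option linter.unusedSectionVars false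

namespace Claimed.Agent.R296

open Matrix
open scoped ComplexOrder MatrixOrder Matrix.Norms.L2Operator

/-- `P, Y, F` partition the sites -/
structure IsPart3 {s : Type} [DecidableEq s] [Fintype s] (P Y F : Finset s) : Prop where
  dPY : Disjoint P Y
  dPF : Disjoint P F
  dYF : Disjoint Y F
  cover : P ∪ Y ∪ F = Finset.univ

variable {s : Type} [DecidableEq s] [Fintype s] {io : s → Type}
  [∀ x, Fintype (io x)] [∀ x, DecidableEq (io x)] [∀ x, Nonempty (io x)]
  {κ : Type} [Fintype κ] [DecidableEq κ]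

/-- `e^{b F_Q} = ∑ d_λ^b π_Q^λ` -/
noncomputable def dimPow (Q : Finset s) (b : ℝ) : Matrix (RCfg io κ) (RCfg io κ) ℂ :=
  cenQ Q fun i => ((((Rep.dimI i : ℕ) : ℝ) ^ b : ℝ) : ℂ)

/-- `WQ` is a label function -/
theorem WQ_eq_cenQ (t : ℝ) (Q : Finset s) (z : ℝ) :
    WQ (io := io) (κ := κ) t Q z = cenQ Q fun i => (((Rep.wIrr (dV io) t i) ^ z : ℝ) : ℂ) := rfl

/-- reordering of a product of two triples -/
theorem band_mul3_mul3 {R : Type*} [Monoid R] {a b c a' b' c' : R} (h1 : Commute b a')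
    (h2 : Commute c a') (h3 : Commute c b') :
    a * b * c * (a' * b' * c') = (a * a') * (b * b') * (c * c') := by
  calc a * b * c * (a' * b' * c') = a * b * (c * a') * b' * c' := by simp only [mul_assoc]
    _ = a * b * (a' * c) * b' * c' := by rw [h2.eq]
    _ = a * (b * a') * (c * b') * c' := by simp only [mul_assoc]
    _ = a * (a' * b) * (b' * c) * c' := by rw [h1.eq, h3.eq]
    _ = _ := by simp only [mul_assoc]

theorem IsPart3.compl_eq {P Y F : Finset s} (h : IsPart3 P Y F) : Fᶜ = P ∪ Y := by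
  ext x
  have hx : x ∈ P ∪ Y ∪ F := by rw [h.cover]; exact Finset.mem_univ x
  simp only [Finset.mem_compl, Finset.mem_union] at hx ⊢
  constructor
  · intro hF
    rcases hx with hx | hx
    · exact hx
    · exact absurd hx hF
  · rintro (hP | hY) hF
    · exact Finset.disjoint_left.1 h.dPF hP hF
    · exact Finset.disjoint_left.1 h.dYF hY hF

theorem IsPart3.swap {P Y F : Finset s} (h : IsPart3 P Y F) : IsPart3 F Y P :=
  ⟨h.dYF.symm, h.dPF.symm, h.dPY.symm, by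
    rw [← h.cover]; ext x; simp only [Finset.mem_union]; tauto⟩

theorem cd_Four.part3 {P x Y₀ F : Finset s} (h : cd_Four P x Y₀ F) : IsPart3 P (x ∪ Y₀) F :=
  ⟨Finset.disjoint_union_right.2 ⟨h.dPx, h.dPU⟩, h.dPF,
    Finset.disjoint_union_left.2 ⟨h.dxF, h.dUF⟩, by
      rw [← h.cover]; ext y; simp only [Finset.mem_union]; tauto⟩

section WAlg

variable (t : ℝ) (ht : 0 < t)
include ht

theorem WQ_zero (Q : Finset s) : WQ (io := io) (κ := κ) t Q 0 = 1 := by
  rw [WQ, Rep.Wpow_zero, map_one]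

theorem WQ_add (Q : Finset s) (z z' : ℝ) :
    WQ (io := io) (κ := κ) t Q z * WQ t Q z' = WQ t Q (z + z') := by
  rw [WQ, WQ, WQ, ← map_mul, Rep.Wpow_add (dV io) one_le_dV t ht]

theorem WQ_isHermitian (Q : Finset s) (z : ℝ) : (WQ (io := io) (κ := κ) t Q z).IsHermitian :=
  cenQ_isHermitian Q _

theorem WQ_posDef (Q : Finset s) (z : ℝ) : (WQ (io := io) (κ := κ) t Q z).PosDef :=
  cenQ_posDef Q _ fun i => Real.rpow_pos_of_pos (Rep.wIrr_pos _ one_le_dV t ht i) z

theorem rpw_WQ (Q : Finset s) (z z' : ℝ) :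
    rpw (WQ (io := io) (κ := κ) t Q z) z' = WQ t Q (z * z') := by
  rw [rpw, hpow, WQ_eq_cenQ, mfun_cenQ, WQ_eq_cenQ]
  congr 1
  funext i
  have hw := Rep.wIrr_pos (dV io) one_le_dV t ht i
  rw [hpowS_ofReal (Real.rpow_pos_of_pos hw z), ← Real.rpow_mul hw.le]

theorem WQ_commute {Q E : Finset s} (h : Q ⊆ E ∨ E ⊆ Q ∨ Disjoint Q E) (z z' : ℝ) :
    Commute (WQ (io := io) (κ := κ) t Q z) (WQ t E z') :=
  cenQ_commute_cenQ _ _ h

theorem WQ_commute_symProj (Q : Finset s) (z : ℝ) :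
    Commute (WQ (io := io) (κ := κ) t Q z) symProj :=
  cenQ_commute_symProj Q _

/-- `W_Q = W_{Qᶜ}` on the symmetric subspace -/
theorem cmp_WQ_compl (Q : Finset s) (z : ℝ) :
    cmp (WQ (io := io) (κ := κ) t Q z) = cmp (WQ t Qᶜ z) :=
  cmp_cenQ_compl Q _

theorem bandFull_zero (P Y F : Finset s) : bandFull (io := io) (κ := κ) t P Y F 0 = 1 := by
  rw [bandFull, mul_zero, neg_zero, WQ_zero t ht, WQ_zero t ht, WQ_zero t ht, Matrix.mul_one,
    Matrix.mul_one]

theorem bandFull_add {P Y F : Finset s} (h : IsPart3 P Y F) (z z' : ℝ) :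
    bandFull (io := io) (κ := κ) t P Y F z * bandFull t P Y F z' = bandFull t P Y F (z + z') := by
  rw [bandFull, bandFull, bandFull,
    band_mul3_mul3 (WQ_commute t ht (Or.inr (Or.inr h.dPF.symm)) _ _)
      (WQ_commute t ht (Or.inr (Or.inr h.dPY.symm)) _ _)
      (WQ_commute t ht (Or.inr (Or.inr h.dYF)) _ _),
    WQ_add t ht, WQ_add t ht, WQ_add t ht]
  have e1 : -(2 * z) + -(2 * z') = -(2 * (z + z')) := by ring
  have e2 : 2 * z + 2 * z' = 2 * (z + z') := by ring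
  rw [e1, e2]

theorem bandFull_posDef {P Y F : Finset s} (h : IsPart3 P Y F) (z : ℝ) :
    (bandFull (io := io) (κ := κ) t P Y F z).PosDef := by
  rw [bandFull]
  refine pd_mul_of_commute (pd_mul_of_commute (WQ_posDef t ht _ _) (WQ_posDef t ht _ _)
    (WQ_commute t ht (Or.inr (Or.inr h.dPF)) _ _)) (WQ_posDef t ht _ _) ?_
  exact (WQ_commute t ht (Or.inr (Or.inr h.dPY)) _ _).mul_left
    (WQ_commute t ht (Or.inr (Or.inr h.dYF.symm)) _ _)

theorem bandFull_commute_UQ_univ (P Y F : Finset s) (z : ℝ) (π : Equiv.Perm κ) :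
    Commute (bandFull (io := io) t P Y F z) (UQ Finset.univ π) := by
  rw [bandFull]
  exact ((cenQ_commute_UQ_univ P _ π).mul_left (cenQ_commute_UQ_univ F _ π)).mul_left
    (cenQ_commute_UQ_univ Y _ π)

theorem bandFull_commute_symProj (P Y F : Finset s) (z : ℝ) :
    Commute (bandFull (io := io) (κ := κ) t P Y F z) symProj :=
  commute_symProj_of_commute_UQ fun π => bandFull_commute_UQ_univ t ht P Y F z π

theorem bandMz_zero (P Y F : Finset s) : bandMz (io := io) κ t P Y F 0 = 1 := by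
  rw [bandMz, bandFull_zero t ht, cmp_one]

theorem bandMz_add {P Y F : Finset s} (h : IsPart3 P Y F) (z z' : ℝ) :
    bandMz (io := io) κ t P Y F z * bandMz κ t P Y F z' = bandMz κ t P Y F (z + z') := by
  rw [bandMz, bandMz, bandMz, ← cmp_mul (bandFull_commute_symProj t ht P Y F z),
    bandFull_add t ht h]

theorem bandMz_posDef {P Y F : Finset s} (h : IsPart3 P Y F) (z : ℝ) :
    (bandMz (io := io) κ t P Y F z).PosDef :=
  cmp_posDef (bandFull_posDef t ht h z)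

theorem bandM_posDef {P Y F : Finset s} (h : IsPart3 P Y F) :
    (bandM (io := io) κ t P Y F).PosDef :=
  bandMz_posDef t ht h 1

/-- real powers of `bandFull` -/
theorem rpw_bandFull {P Y F : Finset s} (h : IsPart3 P Y F) (z z' : ℝ) :
    rpw (bandFull (io := io) (κ := κ) t P Y F z) z' = bandFull t P Y F (z * z') := by
  rw [bandFull, bandFull,
    rpw_mul_of_commute (pd_mul_of_commute (WQ_posDef t ht _ _) (WQ_posDef t ht _ _)
      (WQ_commute t ht (Or.inr (Or.inr h.dPF)) _ _)) (WQ_posDef t ht _ _)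
      ((WQ_commute t ht (Or.inr (Or.inr h.dPY)) _ _).mul_left
        (WQ_commute t ht (Or.inr (Or.inr h.dYF.symm)) _ _)),
    rpw_mul_of_commute (WQ_posDef t ht _ _) (WQ_posDef t ht _ _)
      (WQ_commute t ht (Or.inr (Or.inr h.dPF)) _ _),
    rpw_WQ t ht, rpw_WQ t ht, rpw_WQ t ht]
  have e1 : -(2 * z) * z' = -(2 * (z * z')) := by ring
  have e2 : 2 * z * z' = 2 * (z * z') := by ring
  rw [e1, e2]

/-- `bandMz` is the real power of the band metric -/
theorem bandMz_eq_rpw {P Y F : Finset s} (h : IsPart3 P Y F) (z : ℝ) :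
    bandMz (io := io) κ t P Y F z = rpw (bandM κ t P Y F) z := by
  rw [bandM, bandMz, bandMz, rpw, hpow,
    ← cmp_mfun _ (bandFull_posDef t ht h 1).1 (bandFull_commute_symProj t ht P Y F 1)]
  have := rpw_bandFull (io := io) (κ := κ) t ht h 1 z
  rw [rpw, hpow, one_mul] at this
  rw [this]

theorem relM_eq_relm {P x Y₀ F : Finset s} (h : cd_Four P x Y₀ F) :
    relM (io := io) κ t P x Y₀ F = relm (bandM κ t P (x ∪ Y₀) F) (bandM κ t (x ∪ P) Y₀ F) := by
  rw [relM, relm, bandMz_eq_rpw t ht h.part3]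

theorem relM'_eq_relm {P x Y₀ F : Finset s} (h : cd_Four P x Y₀ F) :
    relM' (io := io) κ t P x Y₀ F = relm (bandM κ t P (x ∪ Y₀) F) (bandM κ t P Y₀ (x ∪ F)) := by
  rw [relM', relm, bandMz_eq_rpw t ht h.part3]

/-- exchange of the two outer parts -/
theorem bandMz_swap (P Y F : Finset s) (h : IsPart3 P Y F) (z : ℝ) :
    bandMz (io := io) κ t P Y F z = bandMz κ t F Y P z := by
  rw [bandMz, bandMz, bandFull, bandFull, (WQ_commute t ht (Or.inr (Or.inr h.dPF)) _ _).eq]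

/-- on the symmetric subspace the far factor is the label function of `P ∪ Y` -/
theorem bandMz_eq_near {P Y F : Finset s} (h : IsPart3 P Y F) (z : ℝ) :
    bandMz (io := io) κ t P Y F z
      = cmp (WQ t P (-(2 * z)) * WQ t (P ∪ Y) (-(2 * z)) * WQ t Y (2 * z)) := by
  rw [bandMz, bandFull, cmp_mul' _ (WQ_commute_symProj t ht _ _),
    cmp_mul' _ (WQ_commute_symProj t ht _ _), cmp_mul' _ (WQ_commute_symProj t ht _ _),
    cmp_mul' _ (WQ_commute_symProj t ht _ _), cmp_WQ_compl t ht F, h.compl_eq]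

/-- **cross-band commutation** (comparator:nesting): `P ∪ Y ⊆ P'` -/
theorem bandMz_commute_nested {P Y F P' Y' F' : Finset s} (h : IsPart3 P Y F)
    (h' : IsPart3 P' Y' F') (hn : P ∪ Y ⊆ P') (z z' : ℝ) :
    Commute (bandMz (io := io) κ t P Y F z) (bandMz κ t P' Y' F' z') := by
  rw [bandMz_eq_near t ht h, bandMz]
  have key : ∀ (Q : Finset s) (w : ℝ), Q ⊆ P' →
      Commute (WQ (io := io) (κ := κ) t Q w) (bandFull t P' Y' F' z') := by
    intro Q w hQ
    rw [bandFull]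
    exact ((WQ_commute t ht (Or.inl hQ) _ _).mul_right
      (WQ_commute t ht (Or.inr (Or.inr (h'.dPF.mono_left hQ))) _ _)).mul_right
      (WQ_commute t ht (Or.inr (Or.inr (h'.dPY.mono_left hQ))) _ _)
  refine cmp_commute ?_ (bandFull_commute_symProj t ht _ _ _ _) ?_
  · exact ((WQ_commute_symProj t ht _ _).mul_left (WQ_commute_symProj t ht _ _)).mul_left
      (WQ_commute_symProj t ht _ _)
  · exact ((key P _ (Finset.union_subset_left hn)).mul_left (key _ _ hn)).mul_left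
      (key Y _ (Finset.union_subset_right hn))

omit ht in
/-- the copy average commutes with the global permutations -/
theorem copyAvg_commute_UQ_univ (h : Matrix (Cfg io) (Cfg io) ℂ) (π : Equiv.Perm κ) :
    Commute (copyAvg (κ := κ) h) (UQ Finset.univ π) := by
  apply commute_UQ_of_conj
  rw [copyAvg, Matrix.mul_smul, Matrix.smul_mul, Finset.mul_sum, Finset.sum_mul]
  congr 1
  simp only [UQ_univ_conj_copyOp]
  exact Equiv.sum_comp π (fun j => copyOp j h)

omit ht in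
theorem copyAvg_commute_symProj (h : Matrix (Cfg io) (Cfg io) ℂ) :
    Commute (copyAvg (κ := κ) h) symProj :=
  commute_symProj_of_commute_UQ fun π => copyAvg_commute_UQ_univ h π

/-- **unsplit terms**: if the support lies in one part, `\bar h` commutes with the band metric -/
theorem barOp_commute_bandMz {P Y F D : Finset s} (h : IsPart3 P Y F)
    (hD : D ⊆ P ∨ D ⊆ Y ∨ D ⊆ F) (K : Matrix (CfgOn io D) (CfgOn io D) ℂ) (z : ℝ) :
    Commute (barOp κ (emb D K)) (bandMz (io := io) κ t P Y F z) := by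
  rw [barOp, bandMz]
  refine cmp_commute (copyAvg_commute_symProj _) (bandFull_commute_symProj t ht _ _ _ _) ?_
  have hP : D ⊆ P ∨ Disjoint D P := by
    rcases hD with hD | hD | hD
    · exact Or.inl hD
    · exact Or.inr (h.dPY.symm.mono_left hD)
    · exact Or.inr (h.dPF.symm.mono_left hD)
  have hY : D ⊆ Y ∨ Disjoint D Y := by
    rcases hD with hD | hD | hD
    · exact Or.inr (h.dPY.mono_left hD)
    · exact Or.inl hD
    · exact Or.inr (h.dYF.symm.mono_left hD)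
  have hF : D ⊆ F ∨ Disjoint D F := by
    rcases hD with hD | hD | hD
    · exact Or.inr (h.dPF.mono_left hD)
    · exact Or.inr (h.dYF.mono_left hD)
    · exact Or.inl hD
  rw [bandFull]
  exact (((cenQ_commute_copyAvg P _ hP K).symm).mul_right
    ((cenQ_commute_copyAvg F _ hF K).symm)).mul_right ((cenQ_commute_copyAvg Y _ hY K).symm)

end WAlg

theorem copyOp_add (j : κ) (g h : Matrix (Cfg io) (Cfg io) ℂ) :
    copyOp j (g + h) = copyOp j g + copyOp j h := by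
  ext c c'
  simp only [copyOp, Matrix.of_apply, Matrix.add_apply]
  split_ifs <;> simp

theorem copyAvg_add (g h : Matrix (Cfg io) (Cfg io) ℂ) :
    copyAvg (κ := κ) (g + h) = copyAvg g + copyAvg h := by
  simp only [copyAvg, copyOp_add, Finset.sum_add_distrib, smul_add]

theorem copyAvg_posSemidef {h : Matrix (Cfg io) (Cfg io) ℂ} (hh : h.PosSemidef) :
    (copyAvg (κ := κ) h).PosSemidef := by
  rw [copyAvg]
  refine PosSemidef.smul (Matrix.posSemidef_sum _ fun j _ => copyOp_posSemidef j hh) ?_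
  rw [inv_nonneg]
  exact_mod_cast Nat.zero_le _

theorem copyAvg_one [Nonempty κ] : copyAvg (κ := κ) (1 : Matrix (Cfg io) (Cfg io) ℂ) = 1 := by
  have hcard : (Fintype.card κ : ℂ) ≠ 0 := by
    exact_mod_cast Fintype.card_ne_zero
  rw [copyAvg]
  simp only [copyOp_one]
  rw [Finset.sum_const, Finset.card_univ, ← Nat.cast_smul_eq_nsmul ℂ, smul_smul,
    inv_mul_cancel₀ hcard, one_smul]

theorem barOp_posSemidef {h : Matrix (Cfg io) (Cfg io) ℂ} (hh : h.PosSemidef) :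
    (barOp κ h).PosSemidef :=
  cmp_posSemidef (copyAvg_posSemidef hh)

theorem barOp_add (g h : Matrix (Cfg io) (Cfg io) ℂ) :
    barOp κ (g + h) = barOp κ g + barOp κ h := by
  rw [barOp, barOp, barOp, copyAvg_add, cmp_add]

theorem barOp_le_one {h : Matrix (Cfg io) (Cfg io) ℂ} (hh : h ≤ 1) : barOp κ h ≤ 1 := by
  rcases isEmpty_or_nonempty κ with hκ | hκ
  · have h0 : barOp κ h = 0 := by
      rw [barOp, copyAvg, Finset.univ_eq_empty, Finset.sum_empty, smul_zero, cmp_eq,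
        Matrix.mul_zero, Matrix.zero_mul]
    rw [h0]
    exact zero_le_one
  · rw [Matrix.le_iff] at hh ⊢
    have h1 := barOp_posSemidef (κ := κ) hh
    have h2 : barOp κ (1 - h) + barOp κ h = 1 := by
      rw [← barOp_add, sub_add_cancel, barOp, copyAvg_one, cmp_one]
    rwa [eq_sub_of_add_eq h2] at h1

/-- one marked factor acting on a product vector of eigenvectors -/
theorem copyOp_mulVec_tpow {h : Matrix (Cfg io) (Cfg io) ℂ} {θ : Cfg io → ℂ} {E : ℂ}
    (hθ : h *ᵥ θ = E • θ) (j : κ) : copyOp j h *ᵥ tpow κ θ = E • tpow κ θ := by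
  rw [copyOp_eq_tpo, tpow_eq_tpv, tpo_mulVec_tpv]
  funext c
  simp only [tpv, Pi.smul_apply, smul_eq_mul]
  have : ∀ i : κ, ((Function.update (fun _ : κ => (1 : Matrix (Cfg io) (Cfg io) ℂ)) j h i) *ᵥ θ)
      (rcopy c i) = (if i = j then E else 1) * θ (rcopy c i) := by
    intro i
    by_cases hi : i = j
    · subst hi
      rw [Function.update_self, hθ, if_pos rfl]
      rfl
    · rw [Function.update_of_ne hi, one_mulVec, if_neg hi, one_mul]
  simp only [this]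
  rw [Finset.prod_mul_distrib, Finset.prod_ite_eq' Finset.univ j, if_pos (Finset.mem_univ j)]

theorem copyAvg_mulVec_tpow [Nonempty κ] {h : Matrix (Cfg io) (Cfg io) ℂ} {θ : Cfg io → ℂ} {E : ℂ}
    (hθ : h *ᵥ θ = E • θ) : copyAvg h *ᵥ tpow κ θ = E • tpow κ θ := by
  have hcard : (Fintype.card κ : ℂ) ≠ 0 := by
    exact_mod_cast Fintype.card_ne_zero
  rw [copyAvg, smul_mulVec, sum_mulVec]
  simp only [copyOp_mulVec_tpow hθ]
  rw [Finset.sum_const, Finset.card_univ, ← Nat.cast_smul_eq_nsmul ℂ, smul_smul,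
    inv_mul_cancel₀ hcard, one_smul]

/-- a product vector of eigenvectors is an eigenvector of the copy average (`κ` nonempty) -/
theorem barOp_mulVec_cohV [Nonempty κ] {h : Matrix (Cfg io) (Cfg io) ℂ} {θ : Cfg io → ℂ} {E : ℂ}
    (hθ : h *ᵥ θ = E • θ) : barOp κ h *ᵥ cohV κ θ = E • cohV κ θ := by
  rw [barOp, cohV, cmp_mulVec_cmpVec (copyAvg_commute_symProj h), copyAvg_mulVec_tpow hθ, cmpVec,
    cmpVec, mulVec_smul]

theorem cohV_dotProduct (θ φ : Cfg io → ℂ) :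
    star (cohV κ θ) ⬝ᵥ cohV κ φ = (star θ ⬝ᵥ φ) ^ Fintype.card κ := by
  rw [cohV, cohV, cmpVec_dotProduct (tpow_isSymVec θ), tpow_dotProduct]

/-- expectation of `\bar h` in a coherent vector -/
theorem cohV_barOp (h : Matrix (Cfg io) (Cfg io) ℂ) [Nonempty κ] {θ : Cfg io → ℂ}
    (hθ : star θ ⬝ᵥ θ = 1) :
    star (cohV κ θ) ⬝ᵥ (barOp κ h *ᵥ cohV κ θ) = star θ ⬝ᵥ (h *ᵥ θ) := by
  have hcard : (Fintype.card κ : ℂ) ≠ 0 := by
    exact_mod_cast Fintype.card_ne_zero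
  rw [barOp, cohV, cmp_mulVec_cmpVec (copyAvg_commute_symProj h),
    cmpVec_dotProduct (tpow_isSymVec θ), copyAvg, smul_mulVec, sum_mulVec, dotProduct_smul,
    dotProduct_sum]
  simp only [copyOp_mulVec_tpow_dot _ h θ hθ]
  rw [Finset.sum_const, Finset.card_univ, nsmul_eq_mul, smul_eq_mul, ← mul_assoc,
    inv_mul_cancel₀ hcard, one_mul]

section Floor

/-! #### spectral lemmas -/

/-- a real symbol with positive semidefinite value is nonnegative on the spectrum -/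
theorem band_mfun_nonneg_of_posSemidef {n : Type*} [Fintype n] [DecidableEq n] {A : Matrix n n ℂ}
    (h : A.IsHermitian) (f : ℝ → ℝ) (hf : (mfun (fun x => (f x : ℂ)) A).PosSemidef) (i : n) :
    0 ≤ f (h.eigenvalues i) := by
  have h1 := hf.conjTranspose_mul_mul_same (h.eigenvectorUnitary : Matrix n n ℂ)
  rw [mfun_eq h] at h1
  have h2 : (h.eigenvectorUnitary : Matrix n n ℂ)ᴴ *
      ((h.eigenvectorUnitary : Matrix n n ℂ) * diagonal (fun i => ((f (h.eigenvalues i) : ℝ) : ℂ)) *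
        (h.eigenvectorUnitary : Matrix n n ℂ)ᴴ) * (h.eigenvectorUnitary : Matrix n n ℂ)
      = diagonal (fun i => ((f (h.eigenvalues i) : ℝ) : ℂ)) := by
    rw [Matrix.mul_assoc, Matrix.mul_assoc, Matrix.mul_assoc, eigU_conjTranspose_mul h,
      Matrix.mul_one, ← Matrix.mul_assoc, eigU_conjTranspose_mul h, Matrix.one_mul]
  rw [h2, posSemidef_diagonal_iff] at h1
  exact_mod_cast h1 i

theorem band_smul_one_le_of_mlog {n : Type*} [Fintype n] [DecidableEq n] {A : Matrix n n ℂ}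
    (hA : A.PosDef) {L : ℝ} (h : (L : ℂ) • (1 : Matrix n n ℂ) ≤ mlog A) :
    ((Real.exp L : ℝ) : ℂ) • (1 : Matrix n n ℂ) ≤ A := by
  rw [Matrix.le_iff] at h ⊢
  have e1 : mlog A - (L : ℂ) • (1 : Matrix n n ℂ)
      = mfun (fun x => ((Real.log x - L : ℝ) : ℂ)) A := by
    rw [mlog, ← mfun_const hA.1, ← mfun_sub]
    congr 1; funext x; push_cast; rfl
  have e2 : A - ((Real.exp L : ℝ) : ℂ) • (1 : Matrix n n ℂ)
      = mfun (fun x => ((x - Real.exp L : ℝ) : ℂ)) A := by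
    conv_lhs => rw [← mfun_id hA.1, ← mfun_const hA.1, ← mfun_sub]
    congr 1; funext x; push_cast; rfl
  rw [e1] at h
  rw [e2]
  refine mfun_posSemidef hA.1 _ fun i => ?_
  have h1 := band_mfun_nonneg_of_posSemidef hA.1 _ h i
  have h2 : L ≤ Real.log (hA.1.eigenvalues i) := by linarith
  have h3 := (Real.le_log_iff_exp_le (hA.eigenvalues_pos i)).1 h2
  linarith

theorem band_le_smul_one_of_mlog {n : Type*} [Fintype n] [DecidableEq n] {A : Matrix n n ℂ}
    (hA : A.PosDef) {L : ℝ} (h : mlog A ≤ (L : ℂ) • (1 : Matrix n n ℂ)) :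
    A ≤ ((Real.exp L : ℝ) : ℂ) • (1 : Matrix n n ℂ) := by
  rw [Matrix.le_iff] at h ⊢
  have e1 : (L : ℂ) • (1 : Matrix n n ℂ) - mlog A
      = mfun (fun x => ((L - Real.log x : ℝ) : ℂ)) A := by
    rw [mlog, ← mfun_const hA.1, ← mfun_sub]
    congr 1; funext x; push_cast; rfl
  have e2 : ((Real.exp L : ℝ) : ℂ) • (1 : Matrix n n ℂ) - A
      = mfun (fun x => ((Real.exp L - x : ℝ) : ℂ)) A := by
    conv_lhs => rw [← mfun_id hA.1, ← mfun_const hA.1, ← mfun_sub]
    congr 1; funext x; push_cast; rfl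
  rw [e1] at h
  rw [e2]
  refine mfun_posSemidef hA.1 _ fun i => ?_
  have h1 := band_mfun_nonneg_of_posSemidef hA.1 _ h i
  have h2 : Real.log (hA.1.eigenvalues i) ≤ L := by linarith
  have h3 := (Real.log_le_iff_le_exp (hA.eigenvalues_pos i)).1 h2
  linarith

theorem band_norm_cmp_le (X : Matrix (RCfg io κ) (RCfg io κ) ℂ) : ‖cmp X‖ ≤ ‖X‖ := by
  have hV : ‖symV (io := io) (κ := κ)‖ ≤ 1 := by
    have h1 := l2_opNorm_conjTranspose_mul_self (symV (io := io) (κ := κ))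
    rw [symV_isometry] at h1
    have h2 : ‖(1 : Matrix (SymIx io κ) (SymIx io κ) ℂ)‖ ≤ 1 := by
      rw [← diagonal_one, l2_opNorm_diagonal]
      exact (pi_norm_le_iff_of_nonneg zero_le_one).2 fun i => by simp
    nlinarith [norm_nonneg (symV (io := io) (κ := κ))]
  have hV' : ‖(symV (io := io) (κ := κ))ᴴ‖ ≤ 1 := by rwa [l2_opNorm_conjTranspose]
  rw [cmp_eq]
  calc _ ≤ ‖(symV (io := io) (κ := κ))ᴴ‖ * ‖X‖ * ‖symV (io := io) (κ := κ)‖ :=
        (l2_opNorm_mul _ _).trans (mul_le_mul_of_nonneg_right (l2_opNorm_mul _ _) (norm_nonneg _))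
    _ ≤ 1 * ‖X‖ * 1 := by gcongr
    _ = ‖X‖ := by ring

/-! #### the scalar comparison -/

/-- `u_λ = log w_λ + t log d_λ` -/
noncomputable def bandU (d : ℕ) (t : ℝ) {κ : Type} [Fintype κ] [DecidableEq κ]
    (i : Rep.Irr (Equiv.Perm κ)) : ℝ :=
  Real.log (Rep.wIrr d t i) + t * Real.log (Rep.dimI i)

/-- (replicas:W-comparison) in logarithmic form -/
theorem abs_bandU_le (d : ℕ) (hd : 1 ≤ d) (t : ℝ) (ht0 : 0 < t) (ht1 : t ≤ 1) :
    ∃ (C : ℝ) (m : ℕ), 1 ≤ C ∧ ∀ (κ : Type) [Fintype κ] [DecidableEq κ]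
      (i : Rep.Irr (Equiv.Perm κ)),
      |bandU d t i| ≤ Real.log (C * ((Fintype.card κ : ℝ) + 1) ^ m) := by
  obtain ⟨C, m, hC, h⟩ := Rep.wIrr_compare d hd t ht0 ht1
  refine ⟨max C 1, m, le_max_right _ _, ?_⟩
  intro κ _ _ i
  obtain ⟨h1, h2⟩ := h κ i
  have hkpos : (0 : ℝ) < ((Fintype.card κ : ℝ) + 1) ^ m := by positivity
  have hA : 0 < C * ((Fintype.card κ : ℝ) + 1) ^ m := mul_pos hC hkpos
  have hAA : Real.log (C * ((Fintype.card κ : ℝ) + 1) ^ m)
      ≤ Real.log (max C 1 * ((Fintype.card κ : ℝ) + 1) ^ m) :=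
    Real.log_le_log hA (mul_le_mul_of_nonneg_right (le_max_left _ _) hkpos.le)
  have hdpos : (0 : ℝ) < (Rep.dimI i : ℝ) := by exact_mod_cast Rep.dimI_pos i
  have hw := Rep.wIrr_pos d hd t ht0 i
  have hx : 0 < (Rep.dimI i : ℝ) ^ (-t) := Real.rpow_pos_of_pos hdpos _
  have l1 := Real.log_le_log (mul_pos (inv_pos.2 hA) hx) h1
  have l2 := Real.log_le_log hw h2
  rw [Real.log_mul (inv_pos.2 hA).ne' hx.ne', Real.log_inv, Real.log_rpow hdpos] at l1
  rw [Real.log_mul hA.ne' hx.ne', Real.log_rpow hdpos] at l2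
  rw [bandU, abs_le]
  constructor <;> linarith

theorem WQ_eq_exp (t : ℝ) (ht : 0 < t) (i : Rep.Irr (Equiv.Perm κ)) (z : ℝ) :
    (Rep.wIrr (dV io) t i) ^ z
      = Real.exp (z * bandU (dV io) t i) * ((Rep.dimI i : ℕ) : ℝ) ^ (-(t * z)) := by
  have hdpos : (0 : ℝ) < (Rep.dimI i : ℝ) := by exact_mod_cast Rep.dimI_pos i
  have hw := Rep.wIrr_pos (dV io) one_le_dV t ht i
  rw [Real.rpow_def_of_pos hw, Real.rpow_def_of_pos hdpos, ← Real.exp_add, bandU]
  congr 1
  ring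

/-- (replicas:W-comparison) for all real powers -/
theorem WQ_compare (io : s → Type) [∀ x, Fintype (io x)] [∀ x, DecidableEq (io x)]
    [∀ x, Nonempty (io x)] (t : ℝ) (ht0 : 0 < t) (ht1 : t ≤ 1) :
    ∃ (C : ℝ) (m : ℕ), 1 ≤ C ∧ ∀ (κ : Type) [Fintype κ] [DecidableEq κ] (Q : Finset s) (z : ℝ),
      WQ (io := io) (κ := κ) t Q z
          ≤ (((C * ((Fintype.card κ : ℝ) + 1) ^ m) ^ |z| : ℝ) : ℂ) • dimPow Q (-(t * z)) ∧
      dimPow (io := io) (κ := κ) Q (-(t * z))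
          ≤ (((C * ((Fintype.card κ : ℝ) + 1) ^ m) ^ |z| : ℝ) : ℂ) • WQ t Q z := by
  obtain ⟨C, m, hC, h⟩ := abs_bandU_le (dV io) one_le_dV t ht0 ht1
  refine ⟨C, m, hC, ?_⟩
  intro κ _ _ Q z
  have hA : 0 < C * ((Fintype.card κ : ℝ) + 1) ^ m := by positivity
  have hAz : (C * ((Fintype.card κ : ℝ) + 1) ^ m) ^ |z|
      = Real.exp (|z| * Real.log (C * ((Fintype.card κ : ℝ) + 1) ^ m)) := by
    rw [Real.rpow_def_of_pos hA, mul_comm]
  have hzu : ∀ i : Rep.Irr (Equiv.Perm κ), |z * bandU (dV io) t i|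
      ≤ |z| * Real.log (C * ((Fintype.card κ : ℝ) + 1) ^ m) := by
    intro i
    rw [abs_mul]
    exact mul_le_mul_of_nonneg_left (h κ i) (abs_nonneg z)
  constructor
  · rw [WQ_eq_cenQ, dimPow, cenQ_smul]
    have e : (fun i : Rep.Irr (Equiv.Perm κ) =>
        (((C * ((Fintype.card κ : ℝ) + 1) ^ m) ^ |z| : ℝ) : ℂ) *
          ((((Rep.dimI i : ℕ) : ℝ) ^ (-(t * z)) : ℝ) : ℂ))
        = fun i => (((C * ((Fintype.card κ : ℝ) + 1) ^ m) ^ |z| *
          ((Rep.dimI i : ℕ) : ℝ) ^ (-(t * z)) : ℝ) : ℂ) := by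
      funext i; push_cast; rfl
    rw [e]
    refine cenQ_le_cenQ Q _ _ fun i _ => ?_
    rw [WQ_eq_exp t ht0, hAz]
    refine mul_le_mul_of_nonneg_right (Real.exp_le_exp.2 ?_) (Real.rpow_nonneg (Nat.cast_nonneg _) _)
    exact (le_abs_self _).trans (hzu i)
  · rw [WQ_eq_cenQ, dimPow, cenQ_smul]
    have e : (fun i : Rep.Irr (Equiv.Perm κ) =>
        (((C * ((Fintype.card κ : ℝ) + 1) ^ m) ^ |z| : ℝ) : ℂ) *
          (((Rep.wIrr (dV io) t i) ^ z : ℝ) : ℂ))
        = fun i => (((C * ((Fintype.card κ : ℝ) + 1) ^ m) ^ |z| *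
          (Rep.wIrr (dV io) t i) ^ z : ℝ) : ℂ) := by
      funext i; push_cast; rfl
    rw [e]
    refine cenQ_le_cenQ Q _ _ fun i _ => ?_
    rw [WQ_eq_exp t ht0, hAz, ← mul_assoc, ← Real.exp_add]
    have h1 : (1 : ℝ) ≤ Real.exp (|z| * Real.log (C * ((Fintype.card κ : ℝ) + 1) ^ m)
        + z * bandU (dV io) t i) := by
      refine Real.one_le_exp ?_
      have := (neg_abs_le (z * bandU (dV io) t i))
      have := hzu i
      linarith
    have h2 : 0 ≤ ((Rep.dimI i : ℕ) : ℝ) ^ (-(t * z)) := Real.rpow_nonneg (Nat.cast_nonneg _) _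
    nlinarith

/-! #### the logarithm of the band metric -/

theorem FQ_eq_cenQ (Q : Finset s) :
    FQ (io := io) (κ := κ) Q = cenQ Q fun i => ((Real.log (Rep.dimI i) : ℝ) : ℂ) := rfl

theorem cenQ_const (Q : Finset s) (c : ℂ) :
    cenQ (io := io) (κ := κ) Q (fun _ => c) = c • 1 := by
  have h := cenQ_smul (io := io) Q (fun _ : Rep.Irr (Equiv.Perm κ) => (1 : ℂ)) c
  rw [cenQ_one] at h
  rw [h]
  simp

theorem band_smul_le_smul {n : Type*} [Fintype n] {X Y : Matrix n n ℂ} (h : X ≤ Y) {c : ℝ}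
    (hc : 0 ≤ c) : (c : ℂ) • X ≤ (c : ℂ) • Y := by
  rw [Matrix.le_iff] at h ⊢
  rw [← smul_sub]
  exact h.smul (by exact_mod_cast hc)

/-- a bounded real label function -/
theorem cenQ_bounds (Q : Finset s) (f : Rep.Irr (Equiv.Perm κ) → ℝ) (M : ℝ)
    (h : ∀ i, |f i| ≤ M) :
    ‖cenQ (io := io) Q fun i => (f i : ℂ)‖ ≤ M ∧
      ((-M : ℝ) : ℂ) • 1 ≤ cenQ (io := io) Q (fun i => (f i : ℂ)) ∧
      cenQ (io := io) Q (fun i => (f i : ℂ)) ≤ ((M : ℝ) : ℂ) • 1 := by
  refine ⟨?_, ?_, ?_⟩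
  · rcases isEmpty_or_nonempty (Rep.Irr (Equiv.Perm κ)) with hE | ⟨⟨i₀⟩⟩
    · have h0 : cenQ (io := io) Q (fun i => (f i : ℂ)) = 0 := by
        rw [cenQ_eq_sum, Finset.univ_eq_empty, Finset.sum_empty]
      have h1 : (1 : Matrix (RCfg io κ) (RCfg io κ) ℂ) = 0 := by
        rw [← sum_labP (io := io) (κ := κ) Q, Finset.univ_eq_empty, Finset.sum_empty]
      exfalso
      have h2 : (1 : Matrix (RCfg io κ) (RCfg io κ) ℂ) (Classical.arbitrary _)
          (Classical.arbitrary _) = 0 := by rw [h1]; rfl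
      simp at h2
    · have hM : 0 ≤ M := (abs_nonneg _).trans (h i₀)
      refine norm_cenQ_le Q _ M hM fun i _ => ?_
      rw [Complex.norm_real]
      exact h i
  · rw [← cenQ_const Q]
    exact cenQ_le_cenQ Q _ _ fun i _ => (abs_le.1 (h i)).1
  · rw [← cenQ_const Q]
    exact cenQ_le_cenQ Q _ _ fun i _ => (abs_le.1 (h i)).2

theorem mlog_WQ (t : ℝ) (ht : 0 < t) (Q : Finset s) (z : ℝ) :
    mlog (WQ (io := io) (κ := κ) t Q z)
      = ((-(t * z) : ℝ) : ℂ) • FQ Q + cenQ Q fun i => ((z * bandU (dV io) t i : ℝ) : ℂ) := by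
  rw [mlog, WQ_eq_cenQ, mfun_cenQ, FQ_eq_cenQ, cenQ_smul, cenQ_add]
  congr 1
  funext i
  rw [Real.log_rpow (Rep.wIrr_pos (dV io) one_le_dV t ht i), bandU]
  push_cast
  ring

/-- the remainder of `log A - 2t (F_P + F_F - F_Y)` -/
noncomputable def bandR (κ : Type) [Fintype κ] [DecidableEq κ] (t : ℝ) (P Y F : Finset s) :
    Matrix (RCfg io κ) (RCfg io κ) ℂ :=
  cenQ P (fun i => ((-2 * bandU (dV io) t i : ℝ) : ℂ))
    + cenQ F (fun i => ((-2 * bandU (dV io) t i : ℝ) : ℂ))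
    + cenQ Y (fun i => ((2 * bandU (dV io) t i : ℝ) : ℂ))

theorem mlog_bandFull_one (t : ℝ) (ht : 0 < t) {P Y F : Finset s} (h : IsPart3 P Y F) :
    mlog (bandFull (io := io) (κ := κ) t P Y F 1)
      = ((2 * t : ℝ) : ℂ) • (FQ P + FQ F - FQ Y) + bandR κ t P Y F := by
  have e1 : -(2 * (1 : ℝ)) = -2 := by norm_num
  have e2 : 2 * (1 : ℝ) = 2 := by norm_num
  rw [bandFull, e1, e2,
    pd_mlog_mul_of_commute (pd_mul_of_commute (WQ_posDef t ht _ _) (WQ_posDef t ht _ _)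
      (WQ_commute t ht (Or.inr (Or.inr h.dPF)) _ _)) (WQ_posDef t ht _ _)
      ((WQ_commute t ht (Or.inr (Or.inr h.dPY)) _ _).mul_left
        (WQ_commute t ht (Or.inr (Or.inr h.dYF.symm)) _ _)),
    pd_mlog_mul_of_commute (WQ_posDef t ht _ _) (WQ_posDef t ht _ _)
      (WQ_commute t ht (Or.inr (Or.inr h.dPF)) _ _),
    mlog_WQ t ht, mlog_WQ t ht, mlog_WQ t ht, bandR]
  have c1 : ((-(t * -2) : ℝ) : ℂ) = ((2 * t : ℝ) : ℂ) := by congr 1; ring
  have c2 : ((-(t * 2) : ℝ) : ℂ) = -((2 * t : ℝ) : ℂ) := by push_cast; ring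
  rw [c1, c2, smul_sub, smul_add, neg_smul]
  abel

theorem mlog_bandM (t : ℝ) (ht : 0 < t) {P Y F : Finset s} (h : IsPart3 P Y F) :
    mlog (bandM (io := io) κ t P Y F)
      = ((2 * t : ℝ) : ℂ) • cmp (FQ P + FQ F - FQ Y) + cmp (bandR κ t P Y F) := by
  rw [bandM, bandMz, mlog,
    ← cmp_mfun _ (bandFull_posDef t ht h 1).1 (bandFull_commute_symProj t ht P Y F 1)]
  have := mlog_bandFull_one (io := io) (κ := κ) t ht h
  rw [mlog] at this
  rw [this, cmp_add, cmp_smul]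

theorem bandR_bounds (t : ℝ) (P Y F : Finset s) (M : ℝ)
    (h : ∀ i : Rep.Irr (Equiv.Perm κ), |bandU (dV io) t i| ≤ M) :
    ‖cmp (bandR (io := io) κ t P Y F)‖ ≤ 6 * M ∧
      ((-(6 * M) : ℝ) : ℂ) • 1 ≤ cmp (bandR (io := io) κ t P Y F) ∧
      cmp (bandR (io := io) κ t P Y F) ≤ ((6 * M : ℝ) : ℂ) • 1 := by
  have h1 : ∀ i : Rep.Irr (Equiv.Perm κ), |-2 * bandU (dV io) t i| ≤ 2 * M := by
    intro i
    rw [abs_mul]
    have := h i
    norm_num
    linarith
  have h2 : ∀ i : Rep.Irr (Equiv.Perm κ), |2 * bandU (dV io) t i| ≤ 2 * M := by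
    intro i
    rw [abs_mul]
    have := h i
    norm_num
    linarith
  obtain ⟨a1, a2, a3⟩ := cenQ_bounds (io := io) P _ _ h1
  obtain ⟨b1, b2, b3⟩ := cenQ_bounds (io := io) F _ _ h1
  obtain ⟨c1, c2, c3⟩ := cenQ_bounds (io := io) Y _ _ h2
  refine ⟨?_, ?_, ?_⟩
  · refine (band_norm_cmp_le _).trans ?_
    rw [bandR]
    refine (norm_add_le _ _).trans ?_
    have := norm_add_le
      (cenQ (io := io) P (fun i : Rep.Irr (Equiv.Perm κ) => ((-2 * bandU (dV io) t i : ℝ) : ℂ)))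
      (cenQ (io := io) F (fun i : Rep.Irr (Equiv.Perm κ) => ((-2 * bandU (dV io) t i : ℝ) : ℂ)))
    linarith
  · have e : ((-(6 * M) : ℝ) : ℂ) • (1 : Matrix (SymIx io κ) (SymIx io κ) ℂ)
        = cmp (((-(2 * M) : ℝ) : ℂ) • 1 + ((-(2 * M) : ℝ) : ℂ) • 1 + ((-(2 * M) : ℝ) : ℂ) • 1) := by
      rw [← add_smul, ← add_smul, cmp_smul, cmp_one]
      congr 1
      push_cast
      ring
    rw [e, bandR]
    exact cmp_le_cmp (add_le_add (add_le_add a2 b2) c2)
  · have e : ((6 * M : ℝ) : ℂ) • (1 : Matrix (SymIx io κ) (SymIx io κ) ℂ)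
        = cmp (((2 * M : ℝ) : ℂ) • 1 + ((2 * M : ℝ) : ℂ) • 1 + ((2 * M : ℝ) : ℂ) • 1) := by
      rw [← add_smul, ← add_smul, cmp_smul, cmp_one]
      congr 1
      push_cast
      ring
    rw [e, bandR]
    exact cmp_le_cmp (add_le_add (add_le_add a3 b3) c3)

/-- the constants of the three estimates below -/
theorem band_consts (io : s → Type) [∀ x, Fintype (io x)] [∀ x, DecidableEq (io x)]
    [∀ x, Nonempty (io x)] (t : ℝ) (ht0 : 0 < t) (ht1 : t ≤ 1) :
    ∃ (C : ℝ) (m : ℕ), 1 ≤ C ∧ ∀ (κ : Type) [Fintype κ] [DecidableEq κ] (P Y F : Finset s),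
      ‖cmp (bandR (io := io) κ t P Y F)‖ ≤ Real.log (C * ((Fintype.card κ : ℝ) + 1) ^ m) ∧
      ((-Real.log (C * ((Fintype.card κ : ℝ) + 1) ^ m) : ℝ) : ℂ) • 1
        ≤ cmp (bandR (io := io) κ t P Y F) ∧
      cmp (bandR (io := io) κ t P Y F)
        ≤ ((Real.log (C * ((Fintype.card κ : ℝ) + 1) ^ m) : ℝ) : ℂ) • 1 := by
  obtain ⟨C, m, hC, h⟩ := abs_bandU_le (dV io) one_le_dV t ht0 ht1
  refine ⟨C ^ 6, m * 6, one_le_pow₀ hC, ?_⟩
  intro κ _ _ P Y F
  have e : Real.log (C ^ 6 * ((Fintype.card κ : ℝ) + 1) ^ (m * 6))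
      = 6 * Real.log (C * ((Fintype.card κ : ℝ) + 1) ^ m) := by
    rw [pow_mul, ← mul_pow, Real.log_pow]
    norm_num
  rw [e]
  exact bandR_bounds t P Y F _ (h κ)

/-- (replicas:leaf-floor), first half -/
theorem norm_mlog_bandM (io : s → Type) [∀ x, Fintype (io x)] [∀ x, DecidableEq (io x)]
    [∀ x, Nonempty (io x)] (t : ℝ) (ht0 : 0 < t) (ht1 : t ≤ 1) :
    ∃ (C : ℝ) (m : ℕ), 1 ≤ C ∧ ∀ (κ : Type) [Fintype κ] [DecidableEq κ] (P Y F : Finset s),
      IsPart3 P Y F →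
      ‖mlog (bandM (io := io) κ t P Y F) - ((2 * t : ℝ) : ℂ) • cmp (FQ P + FQ F - FQ Y)‖
        ≤ Real.log (C * ((Fintype.card κ : ℝ) + 1) ^ m) := by
  obtain ⟨C, m, hC, h⟩ := band_consts io t ht0 ht1
  refine ⟨C, m, hC, ?_⟩
  intro κ _ _ P Y F hp
  rw [mlog_bandM t ht0 hp, add_sub_cancel_left]
  exact (h κ P Y F).1

/-- `F_Y ≤ F_P + F_F` on the symmetric subspace -/
theorem cmp_FQ_le {P Y F : Finset s} (h : IsPart3 P Y F) :
    cmp (FQ (io := io) (κ := κ) Y) ≤ cmp (FQ P + FQ F) := by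
  have h1 := cmp_le_cmp (FQ_le_union_add (io := io) (κ := κ) h.dPY.symm)
  have h2 : cmp (FQ (io := io) (κ := κ) F) = cmp (FQ (Y ∪ P)) := by
    rw [FQ_eq_cenQ, cmp_cenQ_compl, h.compl_eq, Finset.union_comm]
    rfl
  rw [cmp_add, ← h2, add_comm, ← cmp_add] at h1
  exact h1

/-- (replicas:leaf-floor), second half: `A ≥ poly(k)^{-1}` -/
theorem bandM_floor (io : s → Type) [∀ x, Fintype (io x)] [∀ x, DecidableEq (io x)]
    [∀ x, Nonempty (io x)] (t : ℝ) (ht0 : 0 < t) (ht1 : t ≤ 1) :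
    ∃ (C : ℝ) (m : ℕ), 1 ≤ C ∧ ∀ (κ : Type) [Fintype κ] [DecidableEq κ] (P Y F : Finset s),
      IsPart3 P Y F →
      (((C * ((Fintype.card κ : ℝ) + 1) ^ m)⁻¹ : ℝ) : ℂ) • 1 ≤ bandM (io := io) κ t P Y F := by
  obtain ⟨C, m, hC, h⟩ := band_consts io t ht0 ht1
  refine ⟨C, m, hC, ?_⟩
  intro κ _ _ P Y F hp
  have hA : 0 < C * ((Fintype.card κ : ℝ) + 1) ^ m := by positivity
  have h1 : (0 : Matrix (SymIx io κ) (SymIx io κ) ℂ)
      ≤ ((2 * t : ℝ) : ℂ) • cmp (FQ P + FQ F - FQ Y) := by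
    have h2 : (0 : Matrix (SymIx io κ) (SymIx io κ) ℂ) ≤ cmp (FQ P + FQ F - FQ Y) := by
      rw [cmp_sub]
      exact sub_nonneg.2 (cmp_FQ_le hp)
    have h3 := band_smul_le_smul h2 (c := 2 * t) (by positivity)
    rwa [smul_zero] at h3
  have h4 : ((-Real.log (C * ((Fintype.card κ : ℝ) + 1) ^ m) : ℝ) : ℂ) • 1
      ≤ mlog (bandM (io := io) κ t P Y F) := by
    rw [mlog_bandM t ht0 hp]
    have := add_le_add h1 (h κ P Y F).2.1
    rwa [zero_add] at this
  have h5 := band_smul_one_le_of_mlog (bandM_posDef t ht0 hp) h4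
  rwa [Real.exp_neg, Real.exp_log hA] at h5

/-- polynomial upper bound is FALSE in general; the trivial one is exponential in `k` -/
theorem bandM_le (io : s → Type) [∀ x, Fintype (io x)] [∀ x, DecidableEq (io x)]
    [∀ x, Nonempty (io x)] (t : ℝ) (ht0 : 0 < t) (ht1 : t ≤ 1) :
    ∃ (C : ℝ) (m : ℕ), 1 ≤ C ∧ ∀ (κ : Type) [Fintype κ] [DecidableEq κ] (P Y F : Finset s),
      IsPart3 P Y F →
      bandM (io := io) κ t P Y F ≤ ((C * ((Fintype.card κ : ℝ) + 1) ^ m *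
        Real.exp (4 * t * Fintype.card κ * Real.log (dV io)) : ℝ) : ℂ) • 1 := by
  obtain ⟨C, m, hC, h⟩ := band_consts io t ht0 ht1
  refine ⟨C, m, hC, ?_⟩
  intro κ _ _ P Y F hp
  have hA : 0 < C * ((Fintype.card κ : ℝ) + 1) ^ m := by positivity
  have hFQ : ∀ Q : Finset s, FQ (io := io) (κ := κ) Q
      ≤ ((Fintype.card κ * Real.log (dV io) : ℝ) : ℂ) • 1 := by
    intro Q
    refine (FQ_le Q).trans ?_
    have h1 : Real.log (cd_dim io Q) ≤ Real.log (dV io) := by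
      rw [← cd_card_cfgOn]
      refine Real.log_le_log ?_ ?_
      · exact_mod_cast Fintype.card_pos
      · exact_mod_cast card_cfgOn_le_dV Q
    have h2 : (Fintype.card κ : ℝ) * Real.log (cd_dim io Q)
        ≤ Fintype.card κ * Real.log (dV io) :=
      mul_le_mul_of_nonneg_left h1 (Nat.cast_nonneg _)
    rw [Matrix.le_iff, ← sub_smul]
    refine PosSemidef.one.smul ?_
    rw [← Complex.ofReal_sub]
    exact_mod_cast sub_nonneg.2 h2
  have h1 : cmp (FQ (io := io) (κ := κ) P + FQ F - FQ Y)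
      ≤ ((2 * (Fintype.card κ * Real.log (dV io)) : ℝ) : ℂ) • 1 := by
    have e : ((2 * (Fintype.card κ * Real.log (dV io)) : ℝ) : ℂ) •
        (1 : Matrix (SymIx io κ) (SymIx io κ) ℂ)
        = cmp (((Fintype.card κ * Real.log (dV io) : ℝ) : ℂ) • 1
          + ((Fintype.card κ * Real.log (dV io) : ℝ) : ℂ) • 1 - 0) := by
      rw [sub_zero, ← add_smul, cmp_smul, cmp_one]
      congr 1
      push_cast
      ring
    rw [e]
    exact cmp_le_cmp (sub_le_sub (add_le_add (hFQ P) (hFQ F)) (FQ_nonneg Y))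
  have h2 := band_smul_le_smul h1 (c := 2 * t) (by positivity)
  have h3 : mlog (bandM (io := io) κ t P Y F)
      ≤ ((4 * t * Fintype.card κ * Real.log (dV io)
        + Real.log (C * ((Fintype.card κ : ℝ) + 1) ^ m) : ℝ) : ℂ) • 1 := by
    rw [mlog_bandM t ht0 hp]
    have := add_le_add h2 (h κ P Y F).2.2
    rw [smul_smul, ← add_smul] at this
    refine this.trans (le_of_eq ?_)
    congr 1
    push_cast
    ring
  have h4 := band_le_smul_one_of_mlog (bandM_posDef t ht0 hp) h3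
  rwa [Real.exp_add, Real.exp_log hA, mul_comm] at h4

end Floor

end Claimed.Agent.R296
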