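import Claimed.Agent.R296.Replica.Basic
import Claimed.Agent.R296.HS

/-!
# Row 296, replica layer: algebra of the permutation operators `UQ Q π` (P1 Section 5)

Package RP-A (statements: helper197; proofs: helper142).  Every statement is elementary (finite sums over
configurations).  These are all the commutation facts used in
P1 Sections 5-8: disjoint regions, nested regions (central element of the smaller region),
mirror identity on symmetric vectors, fixed-factor identity, tensor powers, copy averages.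

Extra API (not in the skeleton): permutation matrices `rpMat` (`UQ Q π = rpMat (rperm Q π)`), general product
vectors `tpv v = ⊗_j v_j` and product operators `tpo X = ⊗_j X_j` (`topow κ X = tpo (fun _ => X)`,
`copyOp j h = tpo (Function.update (fun _ => 1) j h)`), `rsum_prod`, conjugation lemmas `UQ_univ_conj_tpo`,
`UQ_conj_tpo_emb_subset`, `UQ_conj_tpo_emb_disjoint`.
-/

set_option autoImplicit false
set_option linter.unusedSectionVars false

namespace Claimed.Agent.R296

open Matrix
open scoped ComplexOrder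

variable {s : Type} [DecidableEq s] [Fintype s] {io : s → Type}
  [∀ x, Fintype (io x)] [∀ x, DecidableEq (io x)] {κ : Type} [Fintype κ] [DecidableEq κ]

/-! ### permutation matrices -/

section PermMat

variable {X : Type*} [DecidableEq X]

/-- the permutation matrix of `e`: `e_c' ↦ e_{e c'}` -/
def rpMat (e : Equiv.Perm X) : Matrix X X ℂ := Matrix.of fun c c' => if c = e c' then 1 else 0

theorem rpMat_apply (e : Equiv.Perm X) (c c' : X) : rpMat e c c' = if c = e c' then 1 else 0 := rfl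

theorem rpMat_one : rpMat (1 : Equiv.Perm X) = 1 := by
  ext c c'
  rw [rpMat_apply, Matrix.one_apply]
  rfl

theorem rpMat_conjTranspose (e : Equiv.Perm X) : (rpMat e).conjTranspose = rpMat e⁻¹ := by
  ext c c'
  rw [conjTranspose_apply, rpMat_apply, rpMat_apply]
  by_cases h : c' = e c
  · have h' : c = e⁻¹ c' := by rw [h]; simp
    rw [if_pos h, if_pos h', star_one]
  · have h' : ¬ c = e⁻¹ c' := by
      intro h'; apply h; rw [h']; simp
    rw [if_neg h, if_neg h', star_zero]

variable [Fintype X]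

theorem rpMat_mul_apply {Y : Type*} (e : Equiv.Perm X) (M : Matrix X Y ℂ) (c : X) (c' : Y) :
    (rpMat e * M) c c' = M (e⁻¹ c) c' := by
  simp only [rpMat, Matrix.mul_apply, Matrix.of_apply]
  rw [Finset.sum_eq_single (e⁻¹ c)]
  · simp
  · intro b _ hb
    have : ¬ c = e b := by
      intro h; apply hb; rw [h]; simp
    simp [this]
  · intro h
    exact absurd (Finset.mem_univ _) h

theorem mul_rpMat_apply {Y : Type*} (e : Equiv.Perm X) (M : Matrix Y X ℂ) (c : Y) (c' : X) :
    (M * rpMat e) c c' = M c (e c') := by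
  simp only [rpMat, Matrix.mul_apply, Matrix.of_apply]
  rw [Finset.sum_eq_single (e c')]
  · simp
  · intro b _ hb
    simp [hb]
  · intro h
    exact absurd (Finset.mem_univ _) h

theorem rpMat_mul (e f : Equiv.Perm X) : rpMat (e * f) = rpMat e * rpMat f := by
  ext c c'
  rw [mul_rpMat_apply]
  rfl

theorem rpMat_mulVec (e : Equiv.Perm X) (z : X → ℂ) (c : X) : (rpMat e *ᵥ z) c = z (e⁻¹ c) := by
  simp only [rpMat, Matrix.mulVec, dotProduct, Matrix.of_apply]
  rw [Finset.sum_eq_single (e⁻¹ c)]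
  · simp
  · intro b _ hb
    have : ¬ c = e b := by
      intro h; apply hb; rw [h]; simp
    simp [this]
  · intro h
    exact absurd (Finset.mem_univ _) h

/-- conjugation by a permutation matrix -/
theorem rpMat_conj_apply (e : Equiv.Perm X) (M : Matrix X X ℂ) (c c' : X) :
    (rpMat e * M * rpMat e⁻¹) c c' = M (e⁻¹ c) (e⁻¹ c') := by
  rw [mul_rpMat_apply, rpMat_mul_apply]

theorem rpMat_mul_inv (e : Equiv.Perm X) : rpMat e * rpMat e⁻¹ = 1 := by
  rw [← rpMat_mul, mul_inv_cancel, rpMat_one]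

theorem rpMat_inv_mul (e : Equiv.Perm X) : rpMat e⁻¹ * rpMat e = 1 := by
  rw [← rpMat_mul, inv_mul_cancel, rpMat_one]

/-- `M` commutes with `rpMat e` iff it is invariant under conjugation -/
theorem commute_rpMat_of_conj {e : Equiv.Perm X} {M : Matrix X X ℂ}
    (h : rpMat e * M * rpMat e⁻¹ = M) : Commute M (rpMat e) := by
  have : rpMat e * M = M * rpMat e := by
    calc rpMat e * M = rpMat e * M * (rpMat e⁻¹ * rpMat e) := by rw [rpMat_inv_mul, Matrix.mul_one]
      _ = (rpMat e * M * rpMat e⁻¹) * rpMat e := by simp only [Matrix.mul_assoc]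
      _ = M * rpMat e := by rw [h]
  exact this.symm

end PermMat

/-! ### the permutations `rperm` -/

theorem UQ_eq_rpMat (Q : Finset s) (π : Equiv.Perm κ) : UQ (io := io) Q π = rpMat (rperm Q π) := rfl

theorem rperm_apply (Q : Finset s) (π : Equiv.Perm κ) (c : RCfg io κ) (p : κ × s) :
    rperm Q π c p = if p.2 ∈ Q then c (π⁻¹ p.1, p.2) else c p := rfl

theorem rperm_empty (π : Equiv.Perm κ) : rperm (io := io) (∅ : Finset s) π = 1 := by
  ext c : 1
  funext p
  simp [rperm_apply]

theorem rperm_union {Q E : Finset s} (h : Disjoint Q E) (π : Equiv.Perm κ) :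
    rperm (io := io) (Q ∪ E) π = rperm Q π * rperm E π := by
  ext c : 1
  funext p
  rw [Equiv.Perm.mul_apply]
  simp only [rperm_apply, Finset.mem_union]
  by_cases h1 : p.2 ∈ Q
  · have h2 : p.2 ∉ E := Finset.disjoint_left.1 h h1
    simp [h1, h2]
  · simp [h1]

theorem rperm_commute_disjoint {Q E : Finset s} (h : Disjoint Q E) (π σ : Equiv.Perm κ) :
    Commute (rperm (io := io) Q π) (rperm E σ) := by
  ext c : 1
  funext p
  rw [Equiv.Perm.mul_apply, Equiv.Perm.mul_apply]
  simp only [rperm_apply]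
  by_cases h1 : p.2 ∈ Q
  · have h2 : p.2 ∉ E := Finset.disjoint_left.1 h h1
    simp [h1, h2]
  · simp [h1]

theorem rperm_conj_subset {Q E : Finset s} (h : Q ⊆ E) (π σ : Equiv.Perm κ) :
    rperm (io := io) E π * rperm Q σ * rperm E π⁻¹ = rperm Q (π * σ * π⁻¹) := by
  ext c : 1
  funext p
  rw [Equiv.Perm.mul_apply, Equiv.Perm.mul_apply]
  simp only [rperm_apply]
  by_cases h1 : p.2 ∈ Q
  · have h2 : p.2 ∈ E := h h1
    simp only [h1, h2, if_true]
    have e : (π⁻¹)⁻¹ (σ⁻¹ (π⁻¹ p.1)) = (π * σ * π⁻¹)⁻¹ p.1 := by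
      simp [_root_.mul_inv_rev, mul_assoc]
    rw [e]
  · by_cases h2 : p.2 ∈ E
    · simp only [h1, h2, if_true, if_false]
      have e : (π⁻¹)⁻¹ (π⁻¹ p.1) = p.1 := by simp
      rw [e]
    · simp only [h1, h2, if_false]

/-! ### the operators `UQ` -/

theorem UQ_mulVec (Q : Finset s) (π : Equiv.Perm κ) (z : RCfg io κ → ℂ) (c : RCfg io κ) :
    (UQ Q π *ᵥ z) c = z (rperm Q π⁻¹ c) := by
  rw [UQ_eq_rpMat, rpMat_mulVec, map_inv]

theorem UQ_conjTranspose (Q : Finset s) (π : Equiv.Perm κ) :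
    (UQ (io := io) Q π).conjTranspose = UQ Q π⁻¹ := by
  rw [UQ_eq_rpMat, rpMat_conjTranspose, UQ_eq_rpMat, map_inv]

theorem UQ_empty (π : Equiv.Perm κ) : UQ (io := io) (∅ : Finset s) π = 1 := by
  rw [UQ_eq_rpMat, rperm_empty, rpMat_one]

theorem UQ_union {Q E : Finset s} (h : Disjoint Q E) (π : Equiv.Perm κ) :
    UQ (io := io) (Q ∪ E) π = UQ Q π * UQ E π := by
  rw [UQ_eq_rpMat, rperm_union h, rpMat_mul]
  rfl

theorem UQ_commute_disjoint {Q E : Finset s} (h : Disjoint Q E) (π σ : Equiv.Perm κ) :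
    Commute (UQ (io := io) Q π) (UQ E σ) := by
  show UQ (io := io) Q π * UQ E σ = UQ E σ * UQ Q π
  simp only [UQ_eq_rpMat, ← rpMat_mul]
  rw [(rperm_commute_disjoint h π σ).eq]

/-- conjugation by a permutation of a larger region -/
theorem UQ_conj_subset {Q E : Finset s} (h : Q ⊆ E) (π σ : Equiv.Perm κ) :
    UQ (io := io) E π * UQ Q σ * UQ E π⁻¹ = UQ Q (π * σ * π⁻¹) := by
  simp only [UQ_eq_rpMat, ← rpMat_mul]
  rw [rperm_conj_subset h]

theorem UQ_mul_inv (Q : Finset s) (π : Equiv.Perm κ) : UQ (io := io) Q π * UQ Q π⁻¹ = 1 := by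
  rw [← UQ_mul, mul_inv_cancel, UQ_one]

theorem UQ_inv_mul (Q : Finset s) (π : Equiv.Perm κ) : UQ (io := io) Q π⁻¹ * UQ Q π = 1 := by
  rw [← UQ_mul, inv_mul_cancel, UQ_one]

/-! ### the representations `repQ` -/

theorem repQ_single (Q : Finset s) (π : Equiv.Perm κ) (a : ℂ) :
    repQ (io := io) Q (MonoidAlgebra.single π a) = a • UQ Q π := by
  rw [repQ, MonoidAlgebra.lift_single]
  rfl

theorem ga_eq_sum_single (y : GA κ) :
    y = ∑ π : Equiv.Perm κ, MonoidAlgebra.single π (y.coeff π) := by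
  ext g
  rw [MonoidAlgebra.coeff_sum, Finsupp.finsetSum_apply]
  simp [MonoidAlgebra.coeff_single, Finsupp.single_apply]

theorem repQ_eq_sum (Q : Finset s) (y : GA κ) :
    repQ (io := io) Q y = ∑ π : Equiv.Perm κ, y.coeff π • UQ Q π := by
  conv_lhs => rw [ga_eq_sum_single y]
  rw [map_sum]
  simp only [repQ_single]

/-- the adjoint `∑ a_π π ↦ ∑ conj a_π π⁻¹` on the group algebra -/
noncomputable def gaStar (y : GA κ) : GA κ :=
  ∑ π : Equiv.Perm κ, MonoidAlgebra.single π⁻¹ (star (y.coeff π))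

theorem repQ_conjTranspose (Q : Finset s) (y : GA κ) :
    (repQ (io := io) Q y).conjTranspose = repQ Q (gaStar y) := by
  rw [repQ_eq_sum, gaStar, map_sum, conjTranspose_sum]
  simp only [repQ_single, conjTranspose_smul, UQ_conjTranspose]

theorem repQ_commute_disjoint {Q E : Finset s} (h : Disjoint Q E) (y y' : GA κ) :
    Commute (repQ (io := io) Q y) (repQ E y') := by
  rw [repQ_eq_sum, repQ_eq_sum]
  refine Commute.sum_left _ _ _ fun π _ => Commute.sum_right _ _ _ fun σ _ => ?_
  exact ((UQ_commute_disjoint h π σ).smul_left _).smul_right _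

/-- nested regions: a CENTRAL element on the smaller region commutes with the whole
permutation algebra of the larger region -/
theorem repQ_commute_subset {Q E : Finset s} (h : Q ⊆ E) {z : GA κ} (hz : ∀ x : GA κ, Commute z x)
    (y : GA κ) : Commute (repQ (io := io) Q z) (repQ E y) := by
  rw [repQ_eq_sum E y]
  refine Commute.sum_right _ _ _ fun π _ => Commute.smul_right ?_ _
  -- conjugation by `UQ E π` maps `repQ Q z` to `repQ Q (π z π⁻¹) = repQ Q z`
  have hconj : UQ (io := io) E π * repQ Q z * UQ E π⁻¹ = repQ Q z := by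
    have e1 : UQ (io := io) E π * repQ Q z * UQ E π⁻¹
        = repQ Q (MonoidAlgebra.single π 1 * z * MonoidAlgebra.single π⁻¹ 1) := by
      rw [map_mul, map_mul, repQ_single, repQ_single, one_smul, one_smul, repQ_eq_sum Q z]
      simp only [Finset.mul_sum, Finset.sum_mul, Matrix.mul_smul, Matrix.smul_mul, UQ_conj_subset h,
        ← UQ_mul]
    rw [e1, ← (hz _).eq, mul_assoc, MonoidAlgebra.single_mul_single, mul_inv_cancel, one_mul]
    have : (MonoidAlgebra.single (1 : Equiv.Perm κ) (1 : ℂ)) = 1 := rfl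
    rw [this, mul_one]
  rw [UQ_eq_rpMat] at hconj ⊢
  rw [UQ_eq_rpMat, map_inv] at hconj
  exact commute_rpMat_of_conj hconj

/-- the inversion `π ↦ π⁻¹` on the group algebra -/
noncomputable def gaInv (y : GA κ) : GA κ := ∑ π : Equiv.Perm κ, MonoidAlgebra.single π⁻¹ (y.coeff π)

theorem gaInv_coeff (y : GA κ) (g : Equiv.Perm κ) : (gaInv y).coeff g = y.coeff g⁻¹ := by
  rw [gaInv, MonoidAlgebra.coeff_sum, Finsupp.finsetSum_apply]
  simp only [MonoidAlgebra.coeff_single, Finsupp.single_apply]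
  rw [Finset.sum_eq_single g⁻¹]
  · simp
  · intro b _ hb
    have : ¬ b⁻¹ = g := by
      intro h; apply hb; rw [← h]; simp
    simp [this]
  · intro h
    exact absurd (Finset.mem_univ _) h

/-- the coefficients of a central element are class functions -/
theorem ga_coeff_conj_of_central {z : GA κ} (hz : ∀ x : GA κ, Commute z x) (σ π : Equiv.Perm κ) :
    z.coeff (σ * π * σ⁻¹) = z.coeff π := by
  have h := congrArg (fun w : GA κ => w.coeff (σ * π)) (hz (MonoidAlgebra.single σ 1)).eq
  simp only [MonoidAlgebra.coeff_mul_single_apply, MonoidAlgebra.coeff_single_mul_apply, mul_one,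
    one_mul, inv_mul_cancel_left] at h
  exact h

/-- a central element of `ℂ[Perm κ]` is fixed by the inversion (`π` is conjugate to `π⁻¹`) -/
theorem gaInv_of_central {z : GA κ} (hz : ∀ x : GA κ, Commute z x) : gaInv z = z := by
  ext g
  rw [gaInv_coeff]
  have hc : IsConj g g⁻¹ := by
    rw [Equiv.Perm.isConj_iff_cycleType_eq, Equiv.Perm.cycleType_inv]
  obtain ⟨c, hc⟩ := isConj_iff.1 hc
  rw [← hc, ga_coeff_conj_of_central hz]

theorem repQ_gaInv (E : Finset s) (y : GA κ) :
    repQ (io := io) E (gaInv y) = ∑ π : Equiv.Perm κ, y.coeff π • UQ E π⁻¹ := by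
  rw [gaInv, map_sum]
  simp only [repQ_single]

/-- mirror identity: on a vector fixed by the simultaneous permutations of `Q ∪ E` -/
theorem repQ_mirror {Q E : Finset s} (h : Disjoint Q E) {z : RCfg io κ → ℂ}
    (hz : ∀ π : Equiv.Perm κ, UQ (Q ∪ E) π *ᵥ z = z) (y : GA κ) :
    repQ Q y *ᵥ z = repQ E (gaInv y) *ᵥ z := by
  have key : ∀ π : Equiv.Perm κ, UQ Q π *ᵥ z = UQ E π⁻¹ *ᵥ z := by
    intro π
    conv_rhs => rw [← hz π]
    rw [UQ_union h, (UQ_commute_disjoint h π π).eq, mulVec_mulVec, ← Matrix.mul_assoc, UQ_inv_mul,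
      Matrix.one_mul]
  rw [repQ_eq_sum, repQ_gaInv, sum_mulVec, sum_mulVec]
  refine Finset.sum_congr rfl fun π _ => ?_
  rw [smul_mulVec, smul_mulVec, key]

/-- complementary labels agree on the symmetric subspace (Lemma 5.1 (2)) -/
theorem repQ_compl_of_isSymVec (Q : Finset s) {z : RCfg io κ → ℂ} (hz : IsSymVec z)
    {y : GA κ} (hy : ∀ x : GA κ, Commute y x) : repQ Q y *ᵥ z = repQ Qᶜ y *ᵥ z := by
  have h := repQ_mirror (Q := Q) (E := Qᶜ) disjoint_compl_right (z := z)
    (by intro π; rw [Finset.union_compl]; exact hz π) y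
  rwa [gaInv_of_central hy] at h

/-- fixed-factor identity (eq. replicas:fixed-factor) -/
theorem repQ_union_of_fixed {B Q : Finset s} (h : Disjoint B Q) {z : RCfg io κ → ℂ}
    (hz : ∀ π : Equiv.Perm κ, UQ B π *ᵥ z = z) (y : GA κ) :
    repQ (B ∪ Q) y *ᵥ z = repQ Q y *ᵥ z := by
  rw [repQ_eq_sum, repQ_eq_sum, sum_mulVec, sum_mulVec]
  refine Finset.sum_congr rfl fun π _ => ?_
  rw [smul_mulVec, smul_mulVec, UQ_union h, (UQ_commute_disjoint h π π).eq, ← mulVec_mulVec, hz]

/-! ### general product vectors and product operators -/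

/-- sum over replica configurations of a product over the copies -/
theorem rsum_prod (f : κ → Cfg io → ℂ) :
    ∑ c : RCfg io κ, ∏ j, f j (rcopy c j) = ∏ j, ∑ a, f j a := by
  rw [Finset.prod_univ_sum, Fintype.piFinset_univ]
  exact Fintype.sum_equiv rcfgEquiv _ _ (fun c => rfl)

theorem rcopy_ext {c c' : RCfg io κ} (h : ∀ j, rcopy c j = rcopy c' j) : c = c' := by
  funext p
  exact congrFun (h p.1) p.2

theorem rcopy_ext_iff {c c' : RCfg io κ} : (∀ j, rcopy c j = rcopy c' j) ↔ c = c' :=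
  ⟨rcopy_ext, fun h _ => by rw [h]⟩

/-- the product vector `⊗_j v_j` -/
def tpv (v : κ → Cfg io → ℂ) : RCfg io κ → ℂ := fun c => ∏ j, v j (rcopy c j)

/-- the product operator `⊗_j X_j` -/
def tpo (X : κ → Matrix (Cfg io) (Cfg io) ℂ) : Matrix (RCfg io κ) (RCfg io κ) ℂ :=
  Matrix.of fun c c' => ∏ j, X j (rcopy c j) (rcopy c' j)

theorem tpo_apply (X : κ → Matrix (Cfg io) (Cfg io) ℂ) (c c' : RCfg io κ) :
    tpo X c c' = ∏ j, X j (rcopy c j) (rcopy c' j) := rfl

theorem tpow_eq_tpv (θ : Cfg io → ℂ) : tpow κ θ = tpv (fun _ => θ) := rfl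

theorem topow_eq_tpo (X : Matrix (Cfg io) (Cfg io) ℂ) : topow κ X = tpo (fun _ => X) := rfl

theorem tpo_mulVec_tpv (X : κ → Matrix (Cfg io) (Cfg io) ℂ) (v : κ → Cfg io → ℂ) :
    tpo X *ᵥ tpv v = tpv (fun j => X j *ᵥ v j) := by
  funext c
  simp only [Matrix.mulVec, dotProduct, tpo_apply, tpv, ← Finset.prod_mul_distrib]
  exact rsum_prod (fun j a => X j (rcopy c j) a * v j a)

theorem tpo_mul (X Y : κ → Matrix (Cfg io) (Cfg io) ℂ) :
    tpo (fun j => X j * Y j) = tpo X * tpo Y := by
  ext c c'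
  simp only [Matrix.mul_apply, tpo_apply, ← Finset.prod_mul_distrib]
  exact (rsum_prod (fun j a => X j (rcopy c j) a * Y j a (rcopy c' j))).symm

theorem tpo_one : tpo (fun _ : κ => (1 : Matrix (Cfg io) (Cfg io) ℂ)) = 1 := by
  ext c c'
  simp only [tpo_apply, Matrix.one_apply]
  rw [Finset.prod_ite_zero]
  simp only [Finset.mem_univ, forall_true_left, Finset.prod_const_one, rcopy_ext_iff]

theorem tpo_conjTranspose (X : κ → Matrix (Cfg io) (Cfg io) ℂ) :
    (tpo X).conjTranspose = tpo (fun j => (X j).conjTranspose) := by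
  ext c c'
  simp only [tpo_apply, conjTranspose_apply, star_prod]

theorem tpv_dotProduct (v w : κ → Cfg io → ℂ) :
    star (tpv v) ⬝ᵥ tpv w = ∏ j, star (v j) ⬝ᵥ w j := by
  simp only [dotProduct, tpv, Pi.star_apply, star_prod, ← Finset.prod_mul_distrib]
  exact rsum_prod (fun j a => star (v j a) * w j a)

theorem tpo_posSemidef {X : κ → Matrix (Cfg io) (Cfg io) ℂ} (hX : ∀ j, (X j).PosSemidef) :
    (tpo X).PosSemidef := by
  choose B hB using fun j => hs_exists_eq_conjTranspose_mul_self (hX j)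
  have : tpo X = (tpo B).conjTranspose * tpo B := by
    rw [tpo_conjTranspose, ← tpo_mul]
    congr 1
    funext j
    exact hB j
  rw [this]
  exact posSemidef_conjTranspose_mul_self _

/-! ### tensor powers -/

theorem rcopy_rperm_univ (π : Equiv.Perm κ) (c : RCfg io κ) (j : κ) :
    rcopy (rperm Finset.univ π c) j = rcopy c (π⁻¹ j) := by
  funext x
  simp [rcopy, rperm_apply]

theorem tpow_isSymVec (θ : Cfg io → ℂ) : IsSymVec (tpow κ θ) := by
  intro π
  funext c
  rw [UQ_mulVec]
  simp only [tpow, rcopy_rperm_univ, inv_inv]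
  exact Equiv.prod_comp π (fun j => θ (rcopy c j))

theorem topow_mulVec_tpow (X : Matrix (Cfg io) (Cfg io) ℂ) (θ : Cfg io → ℂ) :
    topow κ X *ᵥ tpow κ θ = tpow κ (X *ᵥ θ) := by
  rw [topow_eq_tpo, tpow_eq_tpv, tpo_mulVec_tpv]
  rfl

theorem topow_one : topow κ (1 : Matrix (Cfg io) (Cfg io) ℂ) = 1 := tpo_one

theorem topow_mul (X Y : Matrix (Cfg io) (Cfg io) ℂ) :
    topow κ (X * Y) = topow κ X * topow κ Y :=
  tpo_mul (fun _ => X) (fun _ => Y)

theorem topow_conjTranspose (X : Matrix (Cfg io) (Cfg io) ℂ) :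
    (topow κ X).conjTranspose = topow κ X.conjTranspose :=
  tpo_conjTranspose (fun _ => X)

theorem tpow_dotProduct (θ φ : Cfg io → ℂ) :
    star (tpow κ θ) ⬝ᵥ tpow κ φ = (star θ ⬝ᵥ φ) ^ Fintype.card κ := by
  rw [tpow_eq_tpv, tpow_eq_tpv, tpv_dotProduct, Finset.prod_const, Finset.card_univ]

theorem topow_posSemidef {X : Matrix (Cfg io) (Cfg io) ℂ} (hX : X.PosSemidef) :
    (topow κ X).PosSemidef :=
  tpo_posSemidef (fun _ => hX)

/-! ### conjugation of product operators by permutations -/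

/-- conjugation of a product operator by a global permutation -/
theorem UQ_univ_conj_tpo (π : Equiv.Perm κ) (X : κ → Matrix (Cfg io) (Cfg io) ℂ) :
    UQ Finset.univ π * tpo X * UQ Finset.univ π⁻¹ = tpo (fun j => X (π⁻¹ j)) := by
  ext c c'
  rw [UQ_eq_rpMat, UQ_eq_rpMat, map_inv, rpMat_conj_apply, ← map_inv]
  simp only [tpo_apply, rcopy_rperm_univ, inv_inv]
  have h := Equiv.prod_comp π (fun j => X (π⁻¹ j) (rcopy c j) (rcopy c' j))
  simpa using h

theorem tpo_emb_apply (D : Finset s) (K : κ → Matrix (CfgOn io D) (CfgOn io D) ℂ)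
    (c c' : RCfg io κ) :
    tpo (fun i => emb D (K i)) c c' =
      if ∀ i, crOff D (rcopy c i) = crOff D (rcopy c' i) then
        ∏ i, K i (crOn D (rcopy c i)) (crOn D (rcopy c' i)) else 0 := by
  simp only [tpo_apply, emb, Matrix.of_apply]
  rw [Finset.prod_ite_zero]
  simp only [Finset.mem_univ, forall_true_left]

/-- the "off `D`" coincidence of two replica configurations is preserved by every `rperm E σ` -/
theorem crOff_rperm_of {D E : Finset s} (σ : Equiv.Perm κ) {c c' : RCfg io κ}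
    (h : ∀ i, crOff D (rcopy c i) = crOff D (rcopy c' i)) (i : κ) :
    crOff D (rcopy (rperm E σ c) i) = crOff D (rcopy (rperm E σ c') i) := by
  funext x
  have h1 : ∀ j, c (j, x.1) = c' (j, x.1) := fun j => congrFun (h j) x
  simp only [crOff, rcopy, rperm_apply]
  by_cases hx : x.1 ∈ E
  · simp only [hx, if_true]; exact h1 _
  · simp only [hx, if_false]; exact h1 _

theorem crOff_rperm_iff {D E : Finset s} (σ : Equiv.Perm κ) {c c' : RCfg io κ} :
    (∀ i, crOff D (rcopy (rperm E σ c) i) = crOff D (rcopy (rperm E σ c') i)) ↔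
      ∀ i, crOff D (rcopy c i) = crOff D (rcopy c' i) := by
  refine ⟨fun h => ?_, fun h => crOff_rperm_of σ h⟩
  have h2 := crOff_rperm_of (E := E) σ⁻¹ h
  simpa [map_inv] using h2

theorem crOn_rperm_of_subset {D E : Finset s} (h : D ⊆ E) (σ : Equiv.Perm κ) (c : RCfg io κ) (i : κ) :
    crOn D (rcopy (rperm E σ c) i) = crOn D (rcopy c (σ⁻¹ i)) := by
  funext x
  have hx : x.1 ∈ E := h x.2
  simp only [crOn, rcopy, rperm_apply, hx, if_true]

theorem crOn_rperm_of_disjoint {D E : Finset s} (h : Disjoint D E) (σ : Equiv.Perm κ) (c : RCfg io κ)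
    (i : κ) : crOn D (rcopy (rperm E σ c) i) = crOn D (rcopy c i) := by
  funext x
  have hx : x.1 ∉ E := Finset.disjoint_left.1 h x.2
  simp only [crOn, rcopy, rperm_apply, hx, if_false]

/-- conjugation by the permutations of a region containing `D` -/
theorem UQ_conj_tpo_emb_subset {D E : Finset s} (h : D ⊆ E)
    (K : κ → Matrix (CfgOn io D) (CfgOn io D) ℂ) (π : Equiv.Perm κ) :
    UQ E π * tpo (fun i => emb D (K i)) * UQ E π⁻¹ = tpo (fun i => emb D (K (π⁻¹ i))) := by
  ext c c'
  rw [UQ_eq_rpMat, UQ_eq_rpMat, map_inv, rpMat_conj_apply, ← map_inv, tpo_emb_apply, tpo_emb_apply]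
  simp only [crOff_rperm_iff, crOn_rperm_of_subset h, inv_inv]
  congr 1
  have h := Equiv.prod_comp π
    (fun j => K (π⁻¹ j) (crOn D (rcopy c j)) (crOn D (rcopy c' j)))
  simpa using h

/-- conjugation by the permutations of a region disjoint from `D` -/
theorem UQ_conj_tpo_emb_disjoint {D E : Finset s} (h : Disjoint D E)
    (K : κ → Matrix (CfgOn io D) (CfgOn io D) ℂ) (π : Equiv.Perm κ) :
    UQ E π * tpo (fun i => emb D (K i)) * UQ E π⁻¹ = tpo (fun i => emb D (K i)) := by
  ext c c'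
  rw [UQ_eq_rpMat, UQ_eq_rpMat, map_inv, rpMat_conj_apply, ← map_inv, tpo_emb_apply, tpo_emb_apply]
  simp only [crOff_rperm_iff, crOn_rperm_of_disjoint h]

theorem commute_UQ_of_conj {E : Finset s} {π : Equiv.Perm κ} {M : Matrix (RCfg io κ) (RCfg io κ) ℂ}
    (h : UQ E π * M * UQ E π⁻¹ = M) : Commute M (UQ E π) := by
  rw [UQ_eq_rpMat, UQ_eq_rpMat, map_inv] at h
  exact commute_rpMat_of_conj h

/-- a tensor power of an operator supported in `D` commutes with the permutations of every
region that contains `D` or is disjoint from `D` -/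
theorem topow_emb_commute_UQ {D E : Finset s} (h : D ⊆ E ∨ Disjoint D E)
    (K : Matrix (CfgOn io D) (CfgOn io D) ℂ) (π : Equiv.Perm κ) :
    Commute (topow κ (emb D K)) (UQ E π) := by
  apply commute_UQ_of_conj
  rw [topow_eq_tpo]
  rcases h with h | h
  · exact UQ_conj_tpo_emb_subset h (fun _ => K) π
  · exact UQ_conj_tpo_emb_disjoint h (fun _ => K) π

/-! ### copy operators -/

theorem copyOp_eq_tpo (j : κ) (h : Matrix (Cfg io) (Cfg io) ℂ) :
    copyOp j h = tpo (Function.update (fun _ => 1) j h) := by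
  ext c c'
  rw [tpo_apply]
  have e : (fun i => (Function.update (fun _ : κ => (1 : Matrix (Cfg io) (Cfg io) ℂ)) j h i)
      (rcopy c i) (rcopy c' i)) =
      Function.update (fun i => (1 : Matrix (Cfg io) (Cfg io) ℂ) (rcopy c i) (rcopy c' i)) j
        (h (rcopy c j) (rcopy c' j)) := by
    funext i
    by_cases hi : i = j
    · subst hi; simp
    · simp [Function.update_of_ne hi]
  rw [e, Finset.prod_update_of_mem (Finset.mem_univ j)]
  simp only [Matrix.one_apply]
  rw [Finset.prod_ite_zero]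
  simp only [copyOp, Matrix.of_apply, Finset.mem_sdiff, Finset.mem_univ, true_and,
    Finset.mem_singleton, Finset.prod_const_one, mul_ite, mul_one, mul_zero]

theorem copyOp_mul (j : κ) (g h : Matrix (Cfg io) (Cfg io) ℂ) :
    copyOp j (g * h) = copyOp j g * copyOp j h := by
  rw [copyOp_eq_tpo, copyOp_eq_tpo, copyOp_eq_tpo, ← tpo_mul]
  congr 1
  funext i
  by_cases hi : i = j
  · subst hi; simp
  · simp [Function.update_of_ne hi]

theorem copyOp_one (j : κ) : copyOp j (1 : Matrix (Cfg io) (Cfg io) ℂ) = 1 := by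
  rw [copyOp_eq_tpo, ← tpo_one]
  congr 1
  funext i
  by_cases hi : i = j
  · subst hi; simp
  · simp [Function.update_of_ne hi]

theorem copyOp_conjTranspose (j : κ) (h : Matrix (Cfg io) (Cfg io) ℂ) :
    (copyOp j h).conjTranspose = copyOp j h.conjTranspose := by
  rw [copyOp_eq_tpo, copyOp_eq_tpo, tpo_conjTranspose]
  congr 1
  funext i
  by_cases hi : i = j
  · subst hi; simp
  · simp [Function.update_of_ne hi]

theorem copyOp_commute {i j : κ} (hij : i ≠ j) (g h : Matrix (Cfg io) (Cfg io) ℂ) :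
    Commute (copyOp i g) (copyOp j h) := by
  show copyOp i g * copyOp j h = copyOp j h * copyOp i g
  rw [copyOp_eq_tpo, copyOp_eq_tpo, ← tpo_mul, ← tpo_mul]
  congr 1
  funext a
  by_cases h1 : a = i
  · subst h1; simp [Function.update_of_ne hij]
  · by_cases h2 : a = j
    · subst h2; simp [Function.update_of_ne h1]
    · simp [Function.update_of_ne h1, Function.update_of_ne h2]

theorem copyOp_posSemidef (j : κ) {h : Matrix (Cfg io) (Cfg io) ℂ} (hh : h.PosSemidef) :
    (copyOp j h).PosSemidef := by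
  rw [copyOp_eq_tpo]
  refine tpo_posSemidef fun i => ?_
  by_cases hi : i = j
  · subst hi; simpa using hh
  · simpa [Function.update_of_ne hi] using PosSemidef.one

theorem update_comp_perm_inv {α : Type*} (π : Equiv.Perm κ) (j : κ) (a b : α) :
    (fun i => Function.update (fun _ : κ => a) j b (π⁻¹ i)) = Function.update (fun _ => a) (π j) b := by
  funext i
  by_cases hi : i = π j
  · subst hi; simp
  · have : π⁻¹ i ≠ j := by
      intro h; apply hi; rw [← h]; simp
    rw [Function.update_of_ne hi, Function.update_of_ne this]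

/-- conjugation of a marked copy by a global permutation -/
theorem UQ_univ_conj_copyOp (π : Equiv.Perm κ) (j : κ) (h : Matrix (Cfg io) (Cfg io) ℂ) :
    UQ Finset.univ π * copyOp j h * UQ Finset.univ π⁻¹ = copyOp (π j) h := by
  rw [copyOp_eq_tpo, copyOp_eq_tpo, UQ_univ_conj_tpo, update_comp_perm_inv]

theorem rp_emb_one (D : Finset s) : emb D (1 : Matrix (CfgOn io D) (CfgOn io D) ℂ) = 1 := by
  ext σ τ
  simp only [emb, Matrix.of_apply, Matrix.one_apply]
  by_cases h : σ = τ
  · subst h; simp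
  · have : ¬ (crOff D σ = crOff D τ ∧ crOn D σ = crOn D τ) := by
      rintro ⟨h1, h2⟩
      apply h
      have := (cfgSplit (io := io) D).injective (a₁ := σ) (a₂ := τ) (Prod.ext h2 h1)
      exact this
    by_cases h1 : crOff D σ = crOff D τ
    · have h2 : ¬ crOn D σ = crOn D τ := fun h2 => this ⟨h1, h2⟩
      simp [h, h1, h2]
    · simp [h, h1]

theorem copyOp_emb_eq_tpo (D : Finset s) (K : Matrix (CfgOn io D) (CfgOn io D) ℂ) (j : κ) :
    copyOp j (emb D K) = tpo (fun i => emb D
      (Function.update (fun _ : κ => (1 : Matrix (CfgOn io D) (CfgOn io D) ℂ)) j K i)) := by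
  rw [copyOp_eq_tpo]
  congr 1
  funext i
  by_cases hi : i = j
  · subst hi; simp
  · simp [Function.update_of_ne hi, rp_emb_one]

/-- conjugation of a marked copy of an operator supported in `D ⊆ E` -/
theorem UQ_conj_copyOp_emb_subset {D E : Finset s} (h : D ⊆ E)
    (K : Matrix (CfgOn io D) (CfgOn io D) ℂ) (π : Equiv.Perm κ) (j : κ) :
    UQ E π * copyOp j (emb D K) * UQ E π⁻¹ = copyOp (π j) (emb D K) := by
  rw [copyOp_emb_eq_tpo, copyOp_emb_eq_tpo, UQ_conj_tpo_emb_subset h]
  congr 1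
  funext i
  exact congrArg (emb D) (congrFun (update_comp_perm_inv π j (1 : Matrix (CfgOn io D) (CfgOn io D) ℂ) K) i)

theorem UQ_conj_copyOp_emb_disjoint {D E : Finset s} (h : Disjoint D E)
    (K : Matrix (CfgOn io D) (CfgOn io D) ℂ) (π : Equiv.Perm κ) (j : κ) :
    UQ E π * copyOp j (emb D K) * UQ E π⁻¹ = copyOp j (emb D K) := by
  rw [copyOp_emb_eq_tpo, UQ_conj_tpo_emb_disjoint h]

/-- the copy average of an operator supported in `D` commutes with the permutations of every
region that contains `D` or is disjoint from `D` -/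
theorem copyAvg_emb_commute_UQ {D E : Finset s} (h : D ⊆ E ∨ Disjoint D E)
    (K : Matrix (CfgOn io D) (CfgOn io D) ℂ) (π : Equiv.Perm κ) :
    Commute (copyAvg (κ := κ) (emb D K)) (UQ E π) := by
  apply commute_UQ_of_conj
  rw [copyAvg, Matrix.mul_smul, Matrix.smul_mul, Finset.mul_sum, Finset.sum_mul]
  congr 1
  rcases h with h | h
  · simp only [UQ_conj_copyOp_emb_subset h]
    exact Equiv.sum_comp π (fun j => copyOp j (emb D K))
  · simp only [UQ_conj_copyOp_emb_disjoint h]

/-- between symmetric vectors a marked copy may replace the copy average -/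
theorem copyAvg_quadratic_form {z w : RCfg io κ → ℂ} (hz : IsSymVec z) (hw : IsSymVec w)
    {X Y : Matrix (RCfg io κ) (RCfg io κ) ℂ}
    (hX : ∀ π : Equiv.Perm κ, Commute X (UQ Finset.univ π))
    (hY : ∀ π : Equiv.Perm κ, Commute Y (UQ Finset.univ π))
    (h : Matrix (Cfg io) (Cfg io) ℂ) (j : κ) :
    star w ⬝ᵥ ((X * copyAvg h * Y) *ᵥ z) = star w ⬝ᵥ ((X * copyOp j h * Y) *ᵥ z) := by
  have key : ∀ i : κ, star w ⬝ᵥ ((X * copyOp i h * Y) *ᵥ z) = star w ⬝ᵥ ((X * copyOp j h * Y) *ᵥ z) := by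
    intro i
    set π : Equiv.Perm κ := Equiv.swap j i with hπ
    have hi : π j = i := Equiv.swap_apply_left j i
    have e : X * copyOp i h * Y
        = UQ Finset.univ π * (X * copyOp j h * Y) * UQ Finset.univ π⁻¹ := by
      rw [← hi, ← UQ_univ_conj_copyOp]
      calc X * (UQ Finset.univ π * copyOp j h * UQ Finset.univ π⁻¹) * Y
          = (X * UQ Finset.univ π) * copyOp j h * (UQ Finset.univ π⁻¹ * Y) := by
            simp only [Matrix.mul_assoc]
        _ = (UQ Finset.univ π * X) * copyOp j h * (Y * UQ Finset.univ π⁻¹) := by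
            rw [(hX π).eq, (hY π⁻¹).eq]
        _ = _ := by simp only [Matrix.mul_assoc]
    rw [e, ← mulVec_mulVec, hz π⁻¹, ← mulVec_mulVec, dotProduct_mulVec]
    congr 1
    have : star w ᵥ* UQ Finset.univ π = star ((UQ Finset.univ π).conjTranspose *ᵥ w) := by
      rw [star_mulVec, conjTranspose_conjTranspose]
    rw [this, UQ_conjTranspose, hw π⁻¹]
  have hcard : (Fintype.card κ : ℂ) ≠ 0 := by
    have : 0 < Fintype.card κ := Fintype.card_pos_iff.2 ⟨j⟩
    exact_mod_cast this.ne'
  rw [copyAvg, Matrix.mul_smul, Matrix.smul_mul, smul_mulVec, dotProduct_smul, Finset.mul_sum,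
    Finset.sum_mul, sum_mulVec, dotProduct_sum]
  simp only [key]
  rw [Finset.sum_const, Finset.card_univ, nsmul_eq_mul, smul_eq_mul, ← mul_assoc,
    inv_mul_cancel₀ hcard, one_mul]

theorem copyOp_mulVec_tpow_dot (j : κ) (h : Matrix (Cfg io) (Cfg io) ℂ) (θ : Cfg io → ℂ)
    (hθ : star θ ⬝ᵥ θ = 1) :
    star (tpow κ θ) ⬝ᵥ (copyOp j h *ᵥ tpow κ θ) = star θ ⬝ᵥ (h *ᵥ θ) := by
  rw [copyOp_eq_tpo, tpow_eq_tpv, tpo_mulVec_tpv, tpv_dotProduct]
  rw [Finset.prod_eq_single j]
  · simp
  · intro i _ hi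
    simp [Function.update_of_ne hi, hθ]
  · intro hj
    exact absurd (Finset.mem_univ _) hj

end Claimed.Agent.R296
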