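import Claimed.Agent.R296.Defs

/-!
# Row 296, replica layer: basic definitions (P1 Section 5, first page)

The copies are indexed by an arbitrary finite type `κ` (`κ = Fin k` for `k` copies; subtypes of
`κ` for the "good" and "bad" copies of Section 7).  The replicas of a system `(s, io)` are the
system with site set `κ × s` and local types `rio io κ p = io p.2`; hence `ptr`, `emb`, `ent`,
`SuppIn` of `Defs.lean` apply to replicas without change.

* `rperm Q π`, `UQ Q π`  : permutation of the copies of the sites in `Q`;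
* `repQ Q`               : the algebra map `ℂ[Perm κ] → operators`, `π ↦ UQ Q π`;
* `tpow κ θ`             : the product vector `θ^{⊗κ}`;  `topow κ X` : the operator `X^{⊗κ}`;
* `copyOp j h`, `copyAvg h` : a one-copy operator on copy `j`, and its average over copies;
* `symProj`, `IsSymVec`  : the symmetric subspace;
* `occ`, `symV`, `cmp`   : occupation-number isometry and the compression to `Sym^k`.
-/

set_option autoImplicit false
set_option linter.unusedSectionVars false

namespace Claimed.Agent.R296

open Matrix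
open scoped ComplexOrder

section Replica

variable {s : Type} [DecidableEq s] (io : s → Type) (κ : Type)

/-- local index types of the replica system -/
abbrev rio : κ × s → Type := fun p => io p.2

/-- configurations of the replicas -/
abbrev RCfg : Type := Cfg (rio io κ)

/-- the group algebra `ℂ[Perm κ]` -/
abbrev GA : Type := MonoidAlgebra ℂ (Equiv.Perm κ)

variable {io κ}

/-- the `j`-th copy of a replica configuration -/
def rcopy (c : RCfg io κ) (j : κ) : Cfg io := fun x => c (j, x)

/-- replica configurations are `κ`-tuples of one-copy configurations -/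
def rcfgEquiv : RCfg io κ ≃ (κ → Cfg io) where
  toFun c := rcopy c
  invFun f := fun p => f p.1 p.2
  left_inv _ := rfl
  right_inv _ := rfl

/-- permute the copies of the sites in `Q`: the content of copy `i` moves to copy `π i` -/
def rpermFun (Q : Finset s) (π : Equiv.Perm κ) (c : RCfg io κ) : RCfg io κ :=
  fun p => if p.2 ∈ Q then c (π.symm p.1, p.2) else c p

theorem rpermFun_mul (Q : Finset s) (π σ : Equiv.Perm κ) (c : RCfg io κ) :
    rpermFun Q (π * σ) c = rpermFun Q π (rpermFun Q σ c) := by
  funext p
  by_cases h : p.2 ∈ Q <;> simp [rpermFun, h, Equiv.Perm.mul_def]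

theorem rpermFun_one (Q : Finset s) (c : RCfg io κ) : rpermFun Q 1 c = c := by
  funext p
  by_cases h : p.2 ∈ Q
  · simp only [rpermFun, h, if_true]
    rfl
  · simp [rpermFun, h]

/-- `rpermFun` as a group homomorphism into the permutations of the configurations -/
def rperm (Q : Finset s) : Equiv.Perm κ →* Equiv.Perm (RCfg io κ) where
  toFun π :=
    { toFun := rpermFun Q π
      invFun := rpermFun Q π⁻¹
      left_inv := fun c => by rw [← rpermFun_mul, inv_mul_cancel, rpermFun_one]
      right_inv := fun c => by rw [← rpermFun_mul, mul_inv_cancel, rpermFun_one] }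
  map_one' := by
    ext c : 1
    exact rpermFun_one Q c
  map_mul' π σ := by
    ext c : 1
    exact rpermFun_mul Q π σ c

variable [Fintype κ] [DecidableEq κ]

/-- the product vector `θ^{⊗κ}` -/
def tpow (κ : Type) [Fintype κ] (θ : Cfg io → ℂ) : RCfg io κ → ℂ := fun c => ∏ j, θ (rcopy c j)

variable [Fintype s] [∀ x, Fintype (io x)] [∀ x, DecidableEq (io x)]

/-- `U_Q(π)`: the permutation operator on the copies of `Q` -/
def UQ (Q : Finset s) (π : Equiv.Perm κ) : Matrix (RCfg io κ) (RCfg io κ) ℂ :=
  Matrix.of fun c c' => if c = rperm Q π c' then 1 else 0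

theorem UQ_one (Q : Finset s) : UQ (io := io) (κ := κ) Q 1 = 1 := by
  ext c c'
  simp [UQ, Matrix.one_apply]

theorem UQ_mul (Q : Finset s) (π σ : Equiv.Perm κ) :
    UQ (io := io) Q (π * σ) = UQ Q π * UQ Q σ := by
  ext c c'
  simp only [UQ, Matrix.of_apply, Matrix.mul_apply, map_mul, Equiv.Perm.mul_apply]
  rw [Finset.sum_eq_single (rperm Q σ c')]
  · simp
  · intro b _ hb
    simp [hb]
  · intro h
    exact absurd (Finset.mem_univ _) h

/-- `π ↦ U_Q(π)` as a monoid homomorphism -/
def UQhom (Q : Finset s) : Equiv.Perm κ →* Matrix (RCfg io κ) (RCfg io κ) ℂ where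
  toFun := UQ Q
  map_one' := UQ_one Q
  map_mul' := UQ_mul Q

/-- the representation of the group algebra `ℂ[Perm κ]` on the copies of `Q` -/
noncomputable def repQ (Q : Finset s) : GA κ →ₐ[ℂ] Matrix (RCfg io κ) (RCfg io κ) ℂ :=
  MonoidAlgebra.lift ℂ (Matrix (RCfg io κ) (RCfg io κ) ℂ) (Equiv.Perm κ) (UQhom Q)

/-- a vector of the symmetric subspace `Sym^κ V` -/
def IsSymVec (z : RCfg io κ → ℂ) : Prop :=
  ∀ π : Equiv.Perm κ, UQ Finset.univ π *ᵥ z = z

/-- the orthogonal projection `Π` onto `Sym^κ V` -/
noncomputable def symProj : Matrix (RCfg io κ) (RCfg io κ) ℂ :=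
  (((Fintype.card κ).factorial : ℂ))⁻¹ • ∑ π : Equiv.Perm κ, UQ Finset.univ π

/-- a one-copy operator acting on copy `j` -/
def copyOp (j : κ) (h : Matrix (Cfg io) (Cfg io) ℂ) : Matrix (RCfg io κ) (RCfg io κ) ℂ :=
  Matrix.of fun c c' =>
    if ∀ i, i ≠ j → rcopy c i = rcopy c' i then h (rcopy c j) (rcopy c' j) else 0

/-- the copy average `\bar h = k^{-1} ∑_j h^{(j)}` -/
noncomputable def copyAvg (h : Matrix (Cfg io) (Cfg io) ℂ) : Matrix (RCfg io κ) (RCfg io κ) ℂ :=
  ((Fintype.card κ : ℂ))⁻¹ • ∑ j : κ, copyOp j h

/-- the tensor power `X^{⊗κ}` of a one-copy operator -/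
def topow (κ : Type) [Fintype κ] (X : Matrix (Cfg io) (Cfg io) ℂ) :
    Matrix (RCfg io κ) (RCfg io κ) ℂ :=
  Matrix.of fun c c' => ∏ j, X (rcopy c j) (rcopy c' j)

/-- index type of the occupation-number basis of `Sym^κ V` -/
abbrev SymIx (io : s → Type) (κ : Type) [Fintype κ] : Type := Sym (Cfg io) (Fintype.card κ)

/-- occupation numbers: the multiset of the copies -/
def occ (c : RCfg io κ) : SymIx io κ :=
  ⟨(Finset.univ : Finset κ).val.map (rcopy c), by simp⟩

/-- the number of configurations with given occupation numbers -/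
def orbCard (m : SymIx io κ) : ℕ :=
  (Finset.univ.filter fun c : RCfg io κ => occ c = m).card

/-- the occupation-number isometry `ℂ^{SymIx} → V^{⊗κ}` with range `Sym^κ V` -/
noncomputable def symV : Matrix (RCfg io κ) (SymIx io κ) ℂ :=
  Matrix.of fun c m => if occ c = m then (((Real.sqrt (orbCard m) : ℝ) : ℂ))⁻¹ else 0

/-- compression of an operator on `V^{⊗κ}` to `Sym^κ V` (in the occupation-number basis) -/
noncomputable def cmp (X : Matrix (RCfg io κ) (RCfg io κ) ℂ) :
    Matrix (SymIx io κ) (SymIx io κ) ℂ :=
  (symV (io := io) (κ := κ)).conjTranspose * X * symV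

/-- coordinates of a vector in the occupation-number basis -/
noncomputable def cmpVec (z : RCfg io κ → ℂ) : SymIx io κ → ℂ :=
  (symV (io := io) (κ := κ)).conjTranspose *ᵥ z

end Replica

end Claimed.Agent.R296
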