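import Claimed.Agent.R296.Replica.Perm
import Claimed.Agent.R296.MatFun
import Claimed.Agent.R296.MatFun2

/-!
# Row 296, replica layer: the symmetric subspace and the compression `cmp` (P1 Section 5)

Package RP-B (statements: helper197; proofs: helper142).  `Sym^κ V` is not a coordinate subspace of `V^{⊗κ}`,
whereas the abstract theory of
matrix means, trees and transport (Sections 6-8) lives on `Matrix n n ℂ`.  We therefore use the
occupation-number isometry `symV` and the compression `cmp X = symVᴴ X symV`, which is a unital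
`*`-homomorphism on the commutant of `symProj` and commutes with the spectral calculus `mfun`.
ALL objects of Sections 6-8 are matrices over `SymIx io κ`.

NOTE: unfold `cmp` with `cmp_eq` (not with `rw [cmp]`), see the docstring of `cmp_eq`.
-/

set_option autoImplicit false
set_option linter.unusedSectionVars false

namespace Claimed.Agent.R296

open Matrix
open scoped ComplexOrder MatrixOrder

variable {s : Type} [DecidableEq s] [Fintype s] {io : s → Type}
  [∀ x, Fintype (io x)] [∀ x, DecidableEq (io x)] {κ : Type} [Fintype κ] [DecidableEq κ]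

/-! ### the projection -/

theorem card_perm_ne_zero : (((Fintype.card κ).factorial : ℕ) : ℂ) ≠ 0 := by
  exact_mod_cast (Nat.factorial_pos _).ne'

theorem symProj_isHermitian : (symProj (io := io) (κ := κ)).IsHermitian := by
  rw [IsHermitian, symProj, conjTranspose_smul, conjTranspose_sum]
  simp only [UQ_conjTranspose]
  congr 1
  · simp
  · exact Equiv.sum_comp (Equiv.inv (Equiv.Perm κ)) (fun π => UQ (io := io) Finset.univ π)

theorem UQ_univ_mul_symProj (π : Equiv.Perm κ) :
    UQ Finset.univ π * symProj (io := io) (κ := κ) = symProj := by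
  rw [symProj, Matrix.mul_smul, Finset.mul_sum]
  simp only [← UQ_mul]
  congr 1
  exact Equiv.sum_comp (Equiv.mulLeft π) (fun σ => UQ (io := io) Finset.univ σ)

theorem symProj_mul_self : symProj (io := io) (κ := κ) * symProj = symProj := by
  have e : symProj (io := io) (κ := κ) * symProj = (((Fintype.card κ).factorial : ℂ))⁻¹ •
      ∑ π : Equiv.Perm κ, UQ Finset.univ π * symProj (io := io) (κ := κ) := by
    rw [← Finset.sum_mul, ← Matrix.smul_mul]
    rfl
  rw [e]
  simp only [UQ_univ_mul_symProj]
  rw [Finset.sum_const, Finset.card_univ, Fintype.card_perm, ← Nat.cast_smul_eq_nsmul ℂ, smul_smul,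
    inv_mul_cancel₀ card_perm_ne_zero, one_smul]

theorem isSymVec_iff (z : RCfg io κ → ℂ) : IsSymVec z ↔ symProj *ᵥ z = z := by
  constructor
  · intro h
    rw [symProj, smul_mulVec, sum_mulVec]
    simp only [h _]
    rw [Finset.sum_const, Finset.card_univ, Fintype.card_perm, ← Nat.cast_smul_eq_nsmul ℂ, smul_smul,
      inv_mul_cancel₀ card_perm_ne_zero, one_smul]
  · intro h π
    conv_lhs => rw [← h]
    rw [mulVec_mulVec, UQ_univ_mul_symProj, h]

theorem isSymVec_iff_apply (z : RCfg io κ → ℂ) :
    IsSymVec z ↔ ∀ (π : Equiv.Perm κ) (c : RCfg io κ), z (rperm Finset.univ π c) = z c := by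
  constructor
  · intro h π c
    have := congrFun (h π⁻¹) c
    rwa [UQ_mulVec, inv_inv] at this
  · intro h π
    funext c
    rw [UQ_mulVec, h]

theorem commute_symProj_of_commute_UQ {X : Matrix (RCfg io κ) (RCfg io κ) ℂ}
    (h : ∀ π : Equiv.Perm κ, Commute X (UQ Finset.univ π)) : Commute X symProj := by
  rw [symProj]
  exact (Commute.sum_right _ _ _ fun π _ => h π).smul_right _

/-- images of central elements commute with the global permutations -/
theorem repQ_central_commute_UQ_univ (Q : Finset s) {z : GA κ} (hz : ∀ x : GA κ, Commute z x)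
    (π : Equiv.Perm κ) : Commute (repQ (io := io) Q z) (UQ Finset.univ π) := by
  have h := repQ_commute_subset (io := io) (Finset.subset_univ Q) hz (MonoidAlgebra.single π 1)
  rwa [repQ_single, one_smul] at h

/-! ### occupation numbers -/

/-- two functions on a finite type with the same multiset of values differ by a permutation -/
theorem exists_perm_of_map_eq {α : Type*} [DecidableEq α] (f g : κ → α)
    (h : (Finset.univ : Finset κ).val.map f = (Finset.univ : Finset κ).val.map g) :
    ∃ π : Equiv.Perm κ, ∀ j, f (π j) = g j := by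
  have hcard : ∀ a : α, Fintype.card {j // g j = a} = Fintype.card {j // f j = a} := by
    intro a
    have h1 := congrArg (Multiset.count a) h
    rw [Multiset.count_map, Multiset.count_map] at h1
    rw [Fintype.card_subtype, Fintype.card_subtype, Finset.card_def, Finset.card_def,
      Finset.filter_val, Finset.filter_val]
    simp only [eq_comm (a := a)] at h1
    exact h1.symm
  let e : ∀ a : α, {j // g j = a} ≃ {j // f j = a} := fun a => Fintype.equivOfCardEq (hcard a)
  refine ⟨(Equiv.sigmaFiberEquiv g).symm.trans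
    ((Equiv.sigmaCongrRight e).trans (Equiv.sigmaFiberEquiv f)), fun j => ?_⟩
  exact (e (g j) ⟨j, rfl⟩).2

theorem occ_rperm (π : Equiv.Perm κ) (c : RCfg io κ) : occ (rperm Finset.univ π c) = occ c := by
  apply Subtype.ext
  show (Finset.univ : Finset κ).val.map (rcopy (rperm Finset.univ π c)) =
    (Finset.univ : Finset κ).val.map (rcopy c)
  have e : rcopy (rperm Finset.univ π c) = rcopy c ∘ (π⁻¹ : Equiv.Perm κ) := by
    funext j
    exact rcopy_rperm_univ π c j
  rw [e, ← Multiset.map_map, Multiset.map_univ_val_equiv]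

/-- two configurations have the same occupation numbers iff they differ by a permutation -/
theorem occ_eq_iff (c c' : RCfg io κ) :
    occ c = occ c' ↔ ∃ π : Equiv.Perm κ, c' = rperm Finset.univ π c := by
  constructor
  · intro h
    have h' : (Finset.univ : Finset κ).val.map (rcopy c) = (Finset.univ : Finset κ).val.map (rcopy c') :=
      congrArg Subtype.val h
    obtain ⟨π, hπ⟩ := exists_perm_of_map_eq _ _ h'
    refine ⟨π⁻¹, rcopy_ext fun j => ?_⟩
    rw [rcopy_rperm_univ, inv_inv, hπ]
  · rintro ⟨π, rfl⟩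
    exact (occ_rperm π c).symm

theorem occ_surjective : Function.Surjective (occ (io := io) (κ := κ)) := by
  rintro ⟨m, hm⟩
  obtain ⟨l, rfl⟩ := Quot.exists_rep m
  have hl : l.length = Fintype.card κ := hm
  let e : κ ≃ Fin l.length := (Fintype.equivFin κ).trans (finCongr hl.symm)
  refine ⟨rcfgEquiv.symm (fun j => l.get (e j)), Subtype.ext ?_⟩
  show (Finset.univ : Finset κ).val.map (fun j => l.get (e j)) = (l : Multiset (Cfg io))
  have : (fun j => l.get (e j)) = l.get ∘ e := rfl
  rw [this, ← Multiset.map_map, Multiset.map_univ_val_equiv, Fin.univ_val_map, List.ofFn_get]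

theorem orbCard_pos (m : SymIx io κ) : 0 < orbCard m := by
  obtain ⟨c, hc⟩ := occ_surjective m
  exact Finset.card_pos.2 ⟨c, by simp [hc]⟩

/-- the set of permutations carrying `c` to `c'` -/
def carrySet (c c' : RCfg io κ) : Finset (Equiv.Perm κ) :=
  Finset.univ.filter fun π : Equiv.Perm κ => c' = rperm Finset.univ π c

theorem card_carrySet_eq (c : RCfg io κ) {c' c'' : RCfg io κ} (h : occ c' = occ c'') :
    (carrySet c c'').card = (carrySet c c').card := by
  obtain ⟨τ, hτ⟩ := (occ_eq_iff c' c'').1 h
  have : carrySet c c'' = (carrySet c c').map (Equiv.mulLeft τ).toEmbedding := by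
    ext π
    simp only [carrySet, Finset.mem_filter, Finset.mem_univ, true_and, Finset.mem_map,
      Equiv.coe_toEmbedding, Equiv.coe_mulLeft]
    constructor
    · intro hπ
      refine ⟨τ⁻¹ * π, ?_, by simp⟩
      rw [map_mul, Equiv.Perm.mul_apply, ← hπ, hτ, map_inv]
      simp
    · rintro ⟨σ, hσ, rfl⟩
      rw [map_mul, Equiv.Perm.mul_apply, ← hσ, hτ]
  rw [this, Finset.card_map]

/-- orbit-stabiliser: the number of permutations carrying `c` to `c'` -/
theorem card_perm_carrying (c c' : RCfg io κ) (h : occ c = occ c') :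
    (Finset.univ.filter fun π : Equiv.Perm κ => c' = rperm Finset.univ π c).card * orbCard (occ c)
      = (Fintype.card κ).factorial := by
  have h1 : (Finset.univ : Finset (Equiv.Perm κ)).card =
      ∑ c'' ∈ Finset.univ.filter (fun c'' : RCfg io κ => occ c'' = occ c),
        (Finset.univ.filter fun π : Equiv.Perm κ => rperm Finset.univ π c = c'').card :=
    Finset.card_eq_sum_card_fiberwise (fun π _ => by simp [occ_rperm])
  have h2 : ∀ c'' ∈ Finset.univ.filter (fun c'' : RCfg io κ => occ c'' = occ c),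
      (Finset.univ.filter fun π : Equiv.Perm κ => rperm Finset.univ π c = c'').card
        = (carrySet c c').card := by
    intro c'' hc''
    have hc : occ c'' = occ c := by simpa using hc''
    have e : (Finset.univ.filter fun π : Equiv.Perm κ => rperm Finset.univ π c = c'') = carrySet c c'' := by
      ext π
      simp [carrySet, eq_comm]
    rw [e]
    exact card_carrySet_eq c (h.symm.trans hc.symm)
  rw [Finset.sum_congr rfl h2, Finset.sum_const, Finset.card_univ, Fintype.card_perm, smul_eq_mul,
    mul_comm] at h1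
  exact h1.symm

theorem card_symIx :
    Fintype.card (SymIx io κ)
      = (Fintype.card (Cfg io) + Fintype.card κ - 1).choose (Fintype.card κ) :=
  Sym.card_sym_eq_choose _

/-! ### the isometry -/

theorem symV_apply (c : RCfg io κ) (m : SymIx io κ) :
    symV c m = if occ c = m then (((Real.sqrt (orbCard m) : ℝ) : ℂ))⁻¹ else 0 := rfl

theorem sqrt_orbCard_mul_self (m : SymIx io κ) :
    ((Real.sqrt (orbCard m) : ℝ) : ℂ) * ((Real.sqrt (orbCard m) : ℝ) : ℂ) = (orbCard m : ℂ) := by
  rw [← Complex.ofReal_mul, Real.mul_self_sqrt (Nat.cast_nonneg _)]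
  simp

theorem orbCard_ne_zero (m : SymIx io κ) : (orbCard m : ℂ) ≠ 0 := by
  exact_mod_cast (orbCard_pos m).ne'

theorem symV_isometry :
    (symV (io := io) (κ := κ)).conjTranspose * symV (io := io) (κ := κ) = 1 := by
  ext m m'
  simp only [Matrix.mul_apply, conjTranspose_apply, symV_apply, Matrix.one_apply]
  by_cases h : m = m'
  · subst h
    have e : ∀ c : RCfg io κ, star (if occ c = m then (((Real.sqrt (orbCard m) : ℝ) : ℂ))⁻¹ else 0) *
        (if occ c = m then (((Real.sqrt (orbCard m) : ℝ) : ℂ))⁻¹ else 0)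
        = if occ c = m then ((orbCard m : ℂ))⁻¹ else 0 := by
      intro c
      by_cases hc : occ c = m
      · simp only [hc, if_true]
        rw [← sqrt_orbCard_mul_self, _root_.mul_inv_rev]
        simp
      · simp [hc]
    simp only [e, if_true]
    rw [← Finset.sum_filter, Finset.sum_const, ← Nat.cast_smul_eq_nsmul ℂ, smul_eq_mul]
    exact mul_inv_cancel₀ (orbCard_ne_zero m)
  · simp only [h, if_false]
    refine Finset.sum_eq_zero fun c _ => ?_
    by_cases hc : occ c = m
    · have : ¬ occ c = m' := fun h' => h (hc.symm.trans h')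
      simp [this]
    · simp [hc]

theorem symProj_apply (c c' : RCfg io κ) :
    symProj c c' = (((Fintype.card κ).factorial : ℂ))⁻¹ * ((carrySet c' c).card : ℂ) := by
  simp only [symProj, Matrix.smul_apply, Matrix.sum_apply, UQ, Matrix.of_apply, smul_eq_mul, carrySet]
  rw [Finset.sum_boole]

theorem symV_range :
    symV (io := io) (κ := κ) * (symV (io := io) (κ := κ)).conjTranspose = symProj := by
  ext c c'
  rw [symProj_apply]
  simp only [Matrix.mul_apply, conjTranspose_apply, symV_apply]
  by_cases h : occ c = occ c'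
  · rw [Finset.sum_eq_single (occ c)]
    · simp only [h, if_true]
      have h1 := card_perm_carrying c' c h.symm
      have h2 : ((carrySet c' c).card : ℂ) * (orbCard (occ c') : ℂ) = ((Fintype.card κ).factorial : ℂ) := by
        exact_mod_cast h1
      rw [← h2, ← sqrt_orbCard_mul_self]
      have h3 : ((Real.sqrt (orbCard (occ c')) : ℝ) : ℂ) ≠ 0 := by
        intro h0
        have := sqrt_orbCard_mul_self (occ c')
        rw [h0, mul_zero] at this
        exact orbCard_ne_zero _ this.symm
      have h4 : ((carrySet c' c).card : ℂ) ≠ 0 := by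
        intro h0
        rw [h0, zero_mul] at h2
        exact card_perm_ne_zero h2.symm
      have h5 : star (((Real.sqrt (orbCard (occ c')) : ℝ) : ℂ))⁻¹ = (((Real.sqrt (orbCard (occ c')) : ℝ) : ℂ))⁻¹ := by
        simp
      rw [h5]
      field_simp
    · intro m _ hm
      have : ¬ occ c = m := fun h' => hm h'.symm
      simp [this]
    · intro h'
      exact absurd (Finset.mem_univ _) h'
  · have h1 : carrySet c' c = ∅ := by
      rw [carrySet, Finset.filter_eq_empty_iff]
      intro π _ hπ
      exact h (((occ_eq_iff c' c).2 ⟨π, hπ⟩).symm)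
    rw [h1, Finset.card_empty, Nat.cast_zero, mul_zero]
    refine Finset.sum_eq_zero fun m _ => ?_
    by_cases hc : occ c = m
    · have : ¬ occ c' = m := fun h' => h (hc.trans h'.symm)
      simp [this]
    · simp [hc]

theorem symV_conjTranspose_mul_symProj :
    (symV (io := io) (κ := κ)).conjTranspose * symProj (io := io) (κ := κ) =
      (symV (io := io) (κ := κ)).conjTranspose := by
  rw [← symV_range, ← Matrix.mul_assoc, symV_isometry, Matrix.one_mul]

theorem symProj_mul_symV :
    symProj (io := io) (κ := κ) * symV (io := io) (κ := κ) = symV (io := io) (κ := κ) := by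
  rw [← symV_range, Matrix.mul_assoc, symV_isometry, Matrix.mul_one]

theorem symV_mulVec_cmpVec {z : RCfg io κ → ℂ} (hz : IsSymVec z) : symV *ᵥ cmpVec z = z := by
  rw [cmpVec, mulVec_mulVec, symV_range]
  exact (isSymVec_iff z).1 hz

theorem isSymVec_symV_mulVec (x : SymIx io κ → ℂ) : IsSymVec (symV (io := io) (κ := κ) *ᵥ x) := by
  rw [isSymVec_iff, mulVec_mulVec, symProj_mul_symV]

theorem cmpVec_symV_mulVec (x : SymIx io κ → ℂ) :
    cmpVec (symV (io := io) (κ := κ) *ᵥ x) = x := by
  rw [cmpVec, mulVec_mulVec, symV_isometry, one_mulVec]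

theorem cmpVec_dotProduct {z : RCfg io κ → ℂ} (hz : IsSymVec z) (w : RCfg io κ → ℂ) :
    star (cmpVec z) ⬝ᵥ cmpVec w = star z ⬝ᵥ w := by
  conv_rhs => rw [← symV_mulVec_cmpVec hz]
  rw [star_mulVec, ← dotProduct_mulVec]
  rfl

/-! ### the compression -/

/-- `cmp` with the multiplication of `Matrix` (in `Basic.lean` the last factor `symV` was elaborated with pending implicit
arguments, so that the default instance of `CStarMatrix` was chosen for `*`; the two are definitionally equal). -/
theorem cmp_eq (X : Matrix (RCfg io κ) (RCfg io κ) ℂ) :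
    cmp X = (symV (io := io) (κ := κ)).conjTranspose * X * symV (io := io) (κ := κ) := rfl

theorem cmp_one : cmp (1 : Matrix (RCfg io κ) (RCfg io κ) ℂ) = 1 := by
  rw [cmp_eq, Matrix.mul_one, symV_isometry]

theorem cmp_symProj : cmp (symProj (io := io) (κ := κ)) = 1 := by
  rw [cmp_eq, symV_conjTranspose_mul_symProj, symV_isometry]

theorem cmp_add (X Y : Matrix (RCfg io κ) (RCfg io κ) ℂ) : cmp (X + Y) = cmp X + cmp Y := by
  simp only [cmp_eq, Matrix.mul_add, Matrix.add_mul]

theorem cmp_sub (X Y : Matrix (RCfg io κ) (RCfg io κ) ℂ) : cmp (X - Y) = cmp X - cmp Y := by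
  simp only [cmp_eq, Matrix.mul_sub, Matrix.sub_mul]

theorem cmp_smul (a : ℂ) (X : Matrix (RCfg io κ) (RCfg io κ) ℂ) : cmp (a • X) = a • cmp X := by
  simp only [cmp_eq, Matrix.mul_smul, Matrix.smul_mul]

theorem cmp_sum {ι : Type} (t : Finset ι) (X : ι → Matrix (RCfg io κ) (RCfg io κ) ℂ) :
    cmp (∑ i ∈ t, X i) = ∑ i ∈ t, cmp (X i) := by
  simp only [cmp_eq, Matrix.mul_sum, Matrix.sum_mul]

theorem cmp_conjTranspose (X : Matrix (RCfg io κ) (RCfg io κ) ℂ) :
    (cmp X).conjTranspose = cmp X.conjTranspose := by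
  simp only [cmp_eq, conjTranspose_mul, conjTranspose_conjTranspose, Matrix.mul_assoc]

theorem cmp_mul {X : Matrix (RCfg io κ) (RCfg io κ) ℂ} (hX : Commute X symProj)
    (Y : Matrix (RCfg io κ) (RCfg io κ) ℂ) : cmp (X * Y) = cmp X * cmp Y := by
  have e : cmp X * cmp Y = (symV (io := io) (κ := κ)).conjTranspose * (X * symProj) * Y *
      symV (io := io) (κ := κ) := by
    rw [← symV_range]
    simp only [cmp_eq, Matrix.mul_assoc]
  rw [e, hX.eq, ← Matrix.mul_assoc, symV_conjTranspose_mul_symProj]
  simp only [cmp_eq, Matrix.mul_assoc]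

theorem cmp_mul' (X : Matrix (RCfg io κ) (RCfg io κ) ℂ)
    {Y : Matrix (RCfg io κ) (RCfg io κ) ℂ} (hY : Commute Y symProj) :
    cmp (X * Y) = cmp X * cmp Y := by
  have e : cmp X * cmp Y = (symV (io := io) (κ := κ)).conjTranspose * X *
      ((symProj * Y) * symV (io := io) (κ := κ)) := by
    rw [← symV_range]
    simp only [cmp_eq, Matrix.mul_assoc]
  rw [e, ← hY.eq, Matrix.mul_assoc Y, symProj_mul_symV]
  simp only [cmp_eq, Matrix.mul_assoc]

theorem cmp_commute {X Y : Matrix (RCfg io κ) (RCfg io κ) ℂ} (hX : Commute X symProj)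
    (hY : Commute Y symProj) (h : Commute X Y) : Commute (cmp X) (cmp Y) := by
  show cmp X * cmp Y = cmp Y * cmp X
  rw [← cmp_mul hX, ← cmp_mul hY, h.eq]

theorem cmp_posSemidef {X : Matrix (RCfg io κ) (RCfg io κ) ℂ} (hX : X.PosSemidef) :
    (cmp X).PosSemidef :=
  hX.conjTranspose_mul_mul_same _

theorem symV_mulVec_injective : Function.Injective (symV (io := io) (κ := κ)).mulVec := by
  intro x y h
  have := congrArg (fun v => (symV (io := io) (κ := κ)).conjTranspose *ᵥ v) h
  simpa [mulVec_mulVec, symV_isometry] using this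

theorem cmp_posDef {X : Matrix (RCfg io κ) (RCfg io κ) ℂ} (hX : X.PosDef) : (cmp X).PosDef :=
  hX.conjTranspose_mul_mul_same symV_mulVec_injective

theorem cmp_le_cmp {X Y : Matrix (RCfg io κ) (RCfg io κ) ℂ} (h : X ≤ Y) : cmp X ≤ cmp Y := by
  rw [Matrix.le_iff] at h ⊢
  rw [← cmp_sub]
  exact cmp_posSemidef h

theorem cmp_inv {X : Matrix (RCfg io κ) (RCfg io κ) ℂ} (hX : Commute X symProj)
    (hdet : IsUnit X) : cmp X⁻¹ = (cmp X)⁻¹ := by
  have h1 : X * X⁻¹ = 1 := Matrix.mul_nonsing_inv X ((Matrix.isUnit_iff_isUnit_det X).1 hdet)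
  have h2 : cmp X * cmp X⁻¹ = 1 := by rw [← cmp_mul hX, h1, cmp_one]
  exact (Matrix.inv_eq_right_inv h2).symm

theorem mul_symV_eq {X : Matrix (RCfg io κ) (RCfg io κ) ℂ} (hX : Commute X symProj) :
    symV (io := io) (κ := κ) * cmp X = X * symV (io := io) (κ := κ) := by
  rw [cmp_eq, ← Matrix.mul_assoc, ← Matrix.mul_assoc, symV_range, ← hX.eq, Matrix.mul_assoc,
    symProj_mul_symV]

/-- the compression commutes with the spectral calculus -/
theorem cmp_mfun (f : ℝ → ℂ) {X : Matrix (RCfg io κ) (RCfg io κ) ℂ} (hX : X.IsHermitian)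
    (hc : Commute X symProj) : cmp (mfun f X) = mfun f (cmp X) := by
  have hcX : (cmp X).IsHermitian := by
    rw [IsHermitian, cmp_conjTranspose, hX.eq]
  have h := mfun_intertwine f hcX hX symV (mul_symV_eq hc)
  rw [cmp_eq, Matrix.mul_assoc, ← h, ← Matrix.mul_assoc, symV_isometry, Matrix.one_mul]

theorem cmp_mulVec_cmpVec {X : Matrix (RCfg io κ) (RCfg io κ) ℂ} (hX : Commute X symProj)
    (z : RCfg io κ → ℂ) : cmp X *ᵥ cmpVec z = cmpVec (X *ᵥ z) := by
  rw [cmpVec, cmpVec, mulVec_mulVec, mulVec_mulVec, cmp_eq, Matrix.mul_assoc, Matrix.mul_assoc,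
    symV_range, hX.eq, ← Matrix.mul_assoc, symV_conjTranspose_mul_symProj]

/-- quadratic forms are computed on the full tensor space -/
theorem cmp_quadratic_form (X : Matrix (RCfg io κ) (RCfg io κ) ℂ) (x y : SymIx io κ → ℂ) :
    star x ⬝ᵥ (cmp X *ᵥ y) = star (symV *ᵥ x) ⬝ᵥ (X *ᵥ (symV *ᵥ y)) := by
  rw [star_mulVec, ← dotProduct_mulVec, mulVec_mulVec, mulVec_mulVec, cmp_eq, Matrix.mul_assoc]

theorem cmp_pureOp (z : RCfg io κ → ℂ) : cmp (pureOp z) = pureOp (cmpVec z) := by
  rw [cmp_eq, pureOp, pureOp, cmpVec, Matrix.mul_vecMulVec, Matrix.vecMulVec_mul, star_mulVec,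
    conjTranspose_conjTranspose]

theorem trace_cmp {X : Matrix (RCfg io κ) (RCfg io κ) ℂ} :
    (cmp X).trace = (symProj * X).trace := by
  rw [cmp_eq, trace_mul_comm, ← Matrix.mul_assoc, symV_range]

/-- an operator inequality that holds on symmetric vectors passes to the compression -/
theorem cmp_le_cmp_of_forall_isSymVec {X Y : Matrix (RCfg io κ) (RCfg io κ) ℂ}
    (hX : X.IsHermitian) (hY : Y.IsHermitian)
    (h : ∀ z : RCfg io κ → ℂ, IsSymVec z →
      (star z ⬝ᵥ (X *ᵥ z)).re ≤ (star z ⬝ᵥ (Y *ᵥ z)).re) : cmp X ≤ cmp Y := by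
  rw [Matrix.le_iff, ← cmp_sub]
  have hH : (cmp (Y - X)).IsHermitian := by
    rw [IsHermitian, cmp_conjTranspose, (hY.sub hX).eq]
  refine PosSemidef.of_dotProduct_mulVec_nonneg hH fun x => ?_
  have him : (star x ⬝ᵥ (cmp (Y - X) *ᵥ x)).im = 0 := by
    have := hH.im_star_dotProduct_mulVec_self x
    simpa using this
  have hre : 0 ≤ (star x ⬝ᵥ (cmp (Y - X) *ᵥ x)).re := by
    rw [cmp_quadratic_form, sub_mulVec, dotProduct_sub, Complex.sub_re]
    exact sub_nonneg.2 (h _ (isSymVec_symV_mulVec x))
  exact Complex.le_def.2 ⟨by simpa using hre, by simpa using him.symm⟩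

/-- an identity that holds on symmetric vectors passes to the compression -/
theorem cmp_eq_cmp_of_forall_isSymVec {X Y : Matrix (RCfg io κ) (RCfg io κ) ℂ}
    (h : ∀ z : RCfg io κ → ℂ, IsSymVec z → X *ᵥ z = Y *ᵥ z) : cmp X = cmp Y := by
  have e : X * symV (io := io) (κ := κ) = Y * symV (io := io) (κ := κ) := by
    ext c m
    have := congrFun (h _ (isSymVec_symV_mulVec (Pi.single m 1))) c
    rw [mulVec_mulVec, mulVec_mulVec, mulVec_single_one, mulVec_single_one] at this
    exact this
  rw [cmp_eq, cmp_eq, Matrix.mul_assoc, e, Matrix.mul_assoc]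

end Claimed.Agent.R296
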