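import Claimed.Agent.R296.Rep.MetricDefs
import Claimed.Agent.R296.Replica.Sym
import Claimed.Agent.R296.CondDefs
import Claimed.Agent.R296.MatPow

/-!
# Row 296, replica layer: labels, the common metric `W`, band metrics (P1 Section 5): DEFINITIONS

Owner: helper197 (design notes: `git show origin/helper197:Claimed/Agent/R296/Notes/P1S05.lean`).
Only definitions (sorry-free).  Blocks/labels and the group algebra elements
`Rep.Wpow κ d t z`, `Rep.Fel κ`, `Rep.Rel`, `Rep.RelInv`, `Rep.Jel` come from `Rep/*` (helper116);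
here they are represented on the copies of a region `Q` of the replica system.

* `cenQ Q φ`      : the central label function `∑_λ φ(λ) π_Q^λ` on the copies of the region `Q`;
* `labP Q i`      : the label projector `π_Q^λ`;   `FQ Q = ∑ (log d_λ) π_Q^λ`;
* `WQ t Q z`      : the real power `W_{Q,k}^z`; the padding dimension is `dV io = dim 𝒱`;
* `JQ Q j₀`, `RQ t Q j₀`, `RQinv t Q j₀` : the star operator, the marked ratio `W_k W_{k-1}^{-1}`
                    and its inverse;
* `bandFull t P Y F z` : `(W_P^{-1} W_F^{-1} W_Y)^{2z}` on the full tensor space;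
* `bandMz`, `bandM`    : its compression to `Sym^κ 𝒱` (a matrix over `SymIx io κ`);
* `relM`               : the relative metric `A^{-1/2} B A^{-1/2}` of a move of `x` from `Y` to `P`;
* `cohV`, `cohP`, `barOp` : coherent vectors/projectors and `\bar h` on `Sym^κ 𝒱`.
-/

set_option autoImplicit false
set_option linter.unusedSectionVars false

namespace Claimed.Agent.R296

open Matrix
open scoped ComplexOrder

section Ops

variable {s : Type} [DecidableEq s] [Fintype s] {io : s → Type}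
  [∀ x, Fintype (io x)] [∀ x, DecidableEq (io x)] {κ : Type} [Fintype κ] [DecidableEq κ]

/-- the one-copy dimension `d = dim 𝒱` -/
def dV (io : s → Type) [∀ x, Fintype (io x)] : ℕ := Fintype.card (Cfg io)

/-- central label function on the copies of `Q` -/
noncomputable def cenQ (Q : Finset s) (φ : Rep.Irr (Equiv.Perm κ) → ℂ) :
    Matrix (RCfg io κ) (RCfg io κ) ℂ :=
  repQ Q (Rep.cfun φ)

/-- the label projector `π_Q^λ` -/
noncomputable def labP (Q : Finset s) (i : Rep.Irr (Equiv.Perm κ)) :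
    Matrix (RCfg io κ) (RCfg io κ) ℂ :=
  repQ Q (Rep.idem i)

/-- the label observable `F_Q = ∑ (log d_λ) π_Q^λ` -/
noncomputable def FQ (Q : Finset s) : Matrix (RCfg io κ) (RCfg io κ) ℂ :=
  repQ Q (Rep.Fel κ)

/-- `W_{Q,k}^z` (padding dimension `dim 𝒱`) -/
noncomputable def WQ (t : ℝ) (Q : Finset s) (z : ℝ) : Matrix (RCfg io κ) (RCfg io κ) ℂ :=
  repQ Q (Rep.Wpow κ (dV io) t z)

/-- the normalised Jucys-Murphy (star) operator with centre `j₀` -/
noncomputable def JQ (Q : Finset s) (j₀ : κ) : Matrix (RCfg io κ) (RCfg io κ) ℂ :=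
  repQ Q (Rep.Jel j₀)

/-- the marked ratio `R_{Q,k} = W_k W_{k-1}^{-1}` -/
noncomputable def RQ (t : ℝ) (Q : Finset s) (j₀ : κ) : Matrix (RCfg io κ) (RCfg io κ) ℂ :=
  repQ Q (Rep.Rel (dV io) t j₀)

/-- the inverse of the marked ratio -/
noncomputable def RQinv (t : ℝ) (Q : Finset s) (j₀ : κ) : Matrix (RCfg io κ) (RCfg io κ) ℂ :=
  repQ Q (Rep.RelInv (dV io) t j₀)

/-- `(W_P^{-1} W_F^{-1} W_Y)^{2z}` on the full tensor space -/
noncomputable def bandFull (t : ℝ) (P Y F : Finset s) (z : ℝ) : Matrix (RCfg io κ) (RCfg io κ) ℂ :=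
  WQ t P (-(2 * z)) * WQ t F (-(2 * z)) * WQ t Y (2 * z)

/-- the power `A^z` of the band metric on `Sym^κ 𝒱` -/
noncomputable def bandMz (κ : Type) [Fintype κ] [DecidableEq κ] (t : ℝ) (P Y F : Finset s) (z : ℝ) :
    Matrix (SymIx io κ) (SymIx io κ) ℂ :=
  cmp (bandFull t P Y F z)

/-- the band metric `A(P,Y,F) = (W_P^{-1} W_F^{-1} W_Y)^2` on `Sym^κ 𝒱` -/
noncomputable def bandM (κ : Type) [Fintype κ] [DecidableEq κ] (t : ℝ) (P Y F : Finset s) :
    Matrix (SymIx io κ) (SymIx io κ) ℂ :=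
  bandMz κ t P Y F 1

/-- relative metric of the move of `x` from the middle part `x ∪ Y₀` to the outer part `P` -/
noncomputable def relM (κ : Type) [Fintype κ] [DecidableEq κ] (t : ℝ) (P x Y₀ F : Finset s) :
    Matrix (SymIx io κ) (SymIx io κ) ℂ :=
  bandMz κ t P (x ∪ Y₀) F (-(1 / 2)) * bandM κ t (x ∪ P) Y₀ F * bandMz κ t P (x ∪ Y₀) F (-(1 / 2))

/-- relative metric of the move of `x` from the middle part `x ∪ Y₀` to the outer part `F` -/
noncomputable def relM' (κ : Type) [Fintype κ] [DecidableEq κ] (t : ℝ) (P x Y₀ F : Finset s) :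
    Matrix (SymIx io κ) (SymIx io κ) ℂ :=
  bandMz κ t P (x ∪ Y₀) F (-(1 / 2)) * bandM κ t P Y₀ (x ∪ F) * bandMz κ t P (x ∪ Y₀) F (-(1 / 2))

/-- the coherent vector `θ^{⊗κ}` in the occupation-number basis -/
noncomputable def cohV (κ : Type) [Fintype κ] [DecidableEq κ] (θ : Cfg io → ℂ) : SymIx io κ → ℂ :=
  cmpVec (tpow κ θ)

/-- the coherent projector `P_{θ,k}` -/
noncomputable def cohP (κ : Type) [Fintype κ] [DecidableEq κ] (θ : Cfg io → ℂ) :
    Matrix (SymIx io κ) (SymIx io κ) ℂ :=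
  pureOp (cohV κ θ)

/-- `\bar h` on `Sym^κ 𝒱` -/
noncomputable def barOp (κ : Type) [Fintype κ] [DecidableEq κ] (h : Matrix (Cfg io) (Cfg io) ℂ) :
    Matrix (SymIx io κ) (SymIx io κ) ℂ :=
  cmp (copyAvg (κ := κ) h)

/-- `D_k = dim Sym^κ 𝒱` -/
def dSym (io : s → Type) [∀ x, Fintype (io x)] [∀ x, DecidableEq (io x)]
    (κ : Type) [Fintype κ] : ℕ := Fintype.card (SymIx io κ)

/-- the entropy gain `η_θ = S(x|P) + S(x|Y₀)` of a move -/
noncomputable def etaMove (θ : Cfg io → ℂ) (x P Y₀ : Finset s) : ℝ :=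
  centr (pureOp θ) x P + centr (pureOp θ) x Y₀

/-- the similarity transform `O = A^{-1/2} \bar h A^{1/2}` -/
noncomputable def simO (κ : Type) [Fintype κ] [DecidableEq κ] (t : ℝ) (P Y F : Finset s)
    (h : Matrix (Cfg io) (Cfg io) ℂ) : Matrix (SymIx io κ) (SymIx io κ) ℂ :=
  bandMz κ t P Y F (-(1 / 2)) * barOp κ h * bandMz κ t P Y F (1 / 2)

end Ops

-- `mabs O = |O|` and `skewD O = |O| + |O^*| - O - O^*` now live in `MatPow.lean` (shared with Sec 6).

end Claimed.Agent.R296
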