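import Claimed.Agent.R296.Replica.MetricDefs
import Claimed.Agent.R296.Rep.BlockC

/-!
# Row 296, replica layer: the label calculus (P1 Section 5, Lemma 5.1 (2), (3))

Architect: helper197.  Package RP-C (one owner).

`cenQ Q φ = ∑_λ φ(λ) π_Q^λ`: a `*`-homomorphism from functions on blocks; order, spectral
calculus, commutation (nested / disjoint regions), complement rule on symmetric vectors, merging.
Note `repQ Q = Rep.repAlg (UQhom Q)` holds by `rfl`.
Proofs: `Rep.cfun_*`, `Rep.gstar_cfun`, `Rep.repAlg_cfun_*`, `Rep.merge_compat`, `Rep.kron_dim_le`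
(BlockA1, A6, B2, C) + `Replica/Perm.lean`, `Replica/Sym.lean`.
-/

set_option autoImplicit false
set_option linter.unusedSectionVars false

namespace Claimed.Agent.R296

open Matrix
open scoped ComplexOrder MatrixOrder Matrix.Norms.L2Operator

variable {s : Type} [DecidableEq s] [Fintype s] {io : s → Type}
  [∀ x, Fintype (io x)] [∀ x, DecidableEq (io x)] {κ : Type} [Fintype κ] [DecidableEq κ]

section Calculus

variable (Q E : Finset s) (φ ψ : Rep.Irr (Equiv.Perm κ) → ℂ)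

/-- the permutation operators are unitary -/
theorem cen_UQhom_conjTranspose (g : Equiv.Perm κ) :
    (UQhom (io := io) Q g)ᴴ = UQhom Q g⁻¹ := UQ_conjTranspose Q g

/-- central label functions are central in the group algebra -/
theorem cen_cfun_central (x : GA κ) : Commute (Rep.cfun φ) x := Rep.cfun_comm φ x

theorem cen_idem_central (i : Rep.Irr (Equiv.Perm κ)) (x : GA κ) : Commute (Rep.idem i) x :=
  Rep.idem_comm i x

theorem cenQ_eq_sum : cenQ (io := io) Q φ = ∑ i, φ i • labP Q i := by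
  simp only [cenQ, labP, Rep.cfun, map_sum, map_smul]

theorem labP_mul_labP (i j : Rep.Irr (Equiv.Perm κ)) :
    labP (io := io) Q i * labP Q j = if i = j then labP Q i else 0 := by
  rw [labP, labP, ← map_mul, Rep.idem_mul_idem]
  split_ifs <;> simp

theorem sum_labP : ∑ i : Rep.Irr (Equiv.Perm κ), labP (io := io) Q i = 1 := by
  simp only [labP]
  rw [← map_sum, Rep.sum_idem, map_one]

theorem labP_isHermitian (i : Rep.Irr (Equiv.Perm κ)) : (labP (io := io) Q i).IsHermitian :=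
  Rep.repAlg_idem_isHermitian (UQhom Q) (cen_UQhom_conjTranspose Q) i

theorem labP_posSemidef (i : Rep.Irr (Equiv.Perm κ)) : (labP (io := io) Q i).PosSemidef :=
  Rep.repAlg_idem_posSemidef (UQhom Q) (cen_UQhom_conjTranspose Q) i

theorem cenQ_one : cenQ (io := io) (κ := κ) Q (fun _ => 1) = 1 := by
  rw [cenQ, Rep.cfun_one, map_one]

theorem cenQ_mul : cenQ (io := io) Q φ * cenQ Q ψ = cenQ Q fun i => φ i * ψ i := by
  rw [cenQ, cenQ, ← map_mul, Rep.cfun_mul]
  rfl

theorem cenQ_add : cenQ (io := io) Q φ + cenQ Q ψ = cenQ Q fun i => φ i + ψ i := by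
  rw [cenQ, cenQ, ← map_add, Rep.cfun_add]
  rfl

theorem cenQ_smul (a : ℂ) : a • cenQ (io := io) Q φ = cenQ Q fun i => a * φ i := by
  rw [cenQ, ← map_smul, Rep.cfun_smul]
  rfl

theorem cenQ_conjTranspose :
    (cenQ (io := io) Q φ).conjTranspose = cenQ Q fun i => star (φ i) := by
  have h := Rep.repAlg_gstar (UQhom (io := io) Q) (cen_UQhom_conjTranspose Q) (Rep.cfun φ)
  rw [Rep.gstar_cfun] at h
  exact h

theorem cenQ_mul_labP (i : Rep.Irr (Equiv.Perm κ)) :
    cenQ (io := io) Q φ * labP Q i = φ i • labP Q i := by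
  rw [cenQ, labP, ← map_mul, Rep.cfun_mul_idem, map_smul]

/-- only the blocks that occur matter -/
theorem cenQ_congr (h : ∀ i, labP (io := io) Q i ≠ 0 → φ i = ψ i) :
    cenQ (io := io) Q φ = cenQ Q ψ := by
  rw [cenQ_eq_sum, cenQ_eq_sum]
  refine Finset.sum_congr rfl fun i _ => ?_
  by_cases h0 : labP (io := io) Q i = 0
  · rw [h0, smul_zero, smul_zero]
  · rw [h i h0]

theorem cenQ_isHermitian (f : Rep.Irr (Equiv.Perm κ) → ℝ) :
    (cenQ (io := io) Q fun i => (f i : ℂ)).IsHermitian :=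
  Rep.repAlg_cfun_isHermitian (UQhom Q) (cen_UQhom_conjTranspose Q) f

theorem cenQ_le_cenQ (f g : Rep.Irr (Equiv.Perm κ) → ℝ)
    (h : ∀ i, labP (io := io) Q i ≠ 0 → f i ≤ g i) :
    cenQ (io := io) Q (fun i => (f i : ℂ)) ≤ cenQ Q fun i => (g i : ℂ) := by
  rw [Matrix.le_iff]
  exact Rep.repAlg_cfun_mono (UQhom Q) (cen_UQhom_conjTranspose Q) f g h

theorem cenQ_posDef (f : Rep.Irr (Equiv.Perm κ) → ℝ) (h : ∀ i, 0 < f i) :
    (cenQ (io := io) Q fun i => (f i : ℂ)).PosDef := by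
  have hps : (cenQ (io := io) Q fun i => (f i : ℂ)).PosSemidef :=
    Rep.repAlg_cfun_posSemidef (UQhom Q) (cen_UQhom_conjTranspose Q) f fun i => (h i).le
  rw [hps.posDef_iff_isUnit]
  refine IsUnit.of_mul_eq_one (cenQ Q fun i => ((f i : ℂ))⁻¹) ?_
  rw [cenQ_mul, ← cenQ_one (io := io) (κ := κ) Q]
  congr 1
  funext i
  exact mul_inv_cancel₀ (by exact_mod_cast (h i).ne')

theorem norm_cenQ_le (M : ℝ) (hM : 0 ≤ M) (h : ∀ i, labP (io := io) Q i ≠ 0 → ‖φ i‖ ≤ M) :
    ‖cenQ (io := io) Q φ‖ ≤ M := by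
  have h1 : (cenQ (io := io) Q φ)ᴴ * cenQ Q φ = cenQ Q fun i => ((‖φ i‖ ^ 2 : ℝ) : ℂ) := by
    rw [cenQ_conjTranspose, cenQ_mul]
    congr 1
    funext i
    rw [Complex.star_def, Complex.conj_mul', Complex.ofReal_pow]
  have h2 : (cenQ (io := io) Q φ)ᴴ * cenQ Q φ ≤ ((M ^ 2 : ℝ) : ℂ) • (1 : Matrix _ _ ℂ) := by
    rw [h1, ← cenQ_one (io := io) (κ := κ) Q, cenQ_smul]
    simp only [mul_one]
    refine cenQ_le_cenQ Q _ _ fun i hi => ?_
    exact pow_le_pow_left₀ (norm_nonneg _) (h i hi) 2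
  have h3 : ‖(cenQ (io := io) Q φ)ᴴ * cenQ Q φ‖ ≤ M ^ 2 := by
    have h0 : (0 : Matrix (RCfg io κ) (RCfg io κ) ℂ) ≤ (cenQ (io := io) Q φ)ᴴ * cenQ Q φ := by
      rw [Matrix.nonneg_iff_posSemidef]
      exact Matrix.posSemidef_conjTranspose_mul_self _
    refine (CStarAlgebra.norm_le_norm_of_nonneg_of_le h0 h2).trans ?_
    rw [norm_smul]
    have : ‖(1 : Matrix (RCfg io κ) (RCfg io κ) ℂ)‖ ≤ 1 := by
      rcases isEmpty_or_nonempty (RCfg io κ) with he | he
      · simp [Subsingleton.elim (1 : Matrix (RCfg io κ) (RCfg io κ) ℂ) 0]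
      · exact norm_one.le
    calc ‖((M ^ 2 : ℝ) : ℂ)‖ * ‖(1 : Matrix (RCfg io κ) (RCfg io κ) ℂ)‖
        ≤ ‖((M ^ 2 : ℝ) : ℂ)‖ * 1 := by gcongr
      _ = M ^ 2 := by rw [mul_one, Complex.norm_real, Real.norm_of_nonneg (by positivity)]
  have h4 : ‖cenQ (io := io) Q φ‖ * ‖cenQ (io := io) Q φ‖ ≤ M ^ 2 := by
    rw [← Matrix.l2_opNorm_conjTranspose_mul_self]
    exact h3
  nlinarith [norm_nonneg (cenQ (io := io) Q φ)]

/-- polynomials of a label function -/
theorem cen_aeval (p : Polynomial ℂ) :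
    Polynomial.aeval (cenQ (io := io) Q φ) p = cenQ Q fun i => p.eval (φ i) := by
  induction p using Polynomial.induction_on' with
  | add p q hp hq => simp only [map_add, hp, hq, cenQ_add, Polynomial.eval_add]
  | monomial k c =>
    have hpow : ∀ k : ℕ, cenQ (io := io) Q φ ^ k = cenQ Q fun i => φ i ^ k := by
      intro k
      induction k with
      | zero => simp only [pow_zero, cenQ_one]
      | succ k ih => rw [pow_succ, ih, cenQ_mul]; simp only [pow_succ]
    rw [Polynomial.aeval_monomial, hpow, Algebra.algebraMap_eq_smul_one, smul_mul_assoc, one_mul,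
      cenQ_smul]
    simp only [Polynomial.eval_monomial]

/-- spectral calculus -/
theorem mfun_cenQ (F : ℝ → ℂ) (f : Rep.Irr (Equiv.Perm κ) → ℝ) :
    mfun F (cenQ (io := io) Q fun i => (f i : ℂ)) = cenQ Q fun i => F (f i) := by
  classical
  have hH := cenQ_isHermitian (io := io) Q f
  obtain ⟨p, hp⟩ := exists_poly_eq_on (eigSet hH ∪ Finset.univ.image f) F
  rw [mfun_eq_aeval hH F p fun i => hp _ (Finset.mem_union_left _ (mem_eigSet hH i)), cen_aeval]
  congr 1
  funext i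
  exact hp _ (Finset.mem_union_right _ (Finset.mem_image_of_mem _ (Finset.mem_univ i)))

variable {Q E}

theorem cenQ_commute_repQ (h : Q ⊆ E ∨ Disjoint Q E) (y : GA κ) :
    Commute (cenQ (io := io) Q φ) (repQ E y) := by
  rcases h with h | h
  · exact repQ_commute_subset h (cen_cfun_central φ) y
  · exact repQ_commute_disjoint h _ y

theorem cenQ_commute_cenQ (h : Q ⊆ E ∨ E ⊆ Q ∨ Disjoint Q E) :
    Commute (cenQ (io := io) Q φ) (cenQ E ψ) := by
  rcases h with h | h | h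
  · exact cenQ_commute_repQ φ (Or.inl h) _
  · exact (cenQ_commute_repQ ψ (Or.inl h) _).symm
  · exact cenQ_commute_repQ φ (Or.inr h) _

variable (Q E)

theorem cenQ_commute_UQ_univ (π : Equiv.Perm κ) :
    Commute (cenQ (io := io) Q φ) (UQ Finset.univ π) :=
  repQ_central_commute_UQ_univ Q (cen_cfun_central φ) π

theorem cenQ_commute_symProj : Commute (cenQ (io := io) Q φ) symProj :=
  commute_symProj_of_commute_UQ (cenQ_commute_UQ_univ Q φ)

/-- complementary labels agree on symmetric vectors -/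
theorem cenQ_compl_mulVec {z : RCfg io κ → ℂ} (hz : IsSymVec z) :
    cenQ Q φ *ᵥ z = cenQ Qᶜ φ *ᵥ z :=
  repQ_compl_of_isSymVec Q hz (cen_cfun_central φ)

theorem cmp_cenQ_compl : cmp (cenQ (io := io) Q φ) = cmp (cenQ Qᶜ φ) :=
  cmp_eq_cmp_of_forall_isSymVec fun _ hz => cenQ_compl_mulVec Q φ hz

/-- (replicas:fixed-factor) -/
theorem cenQ_union_of_fixed {B : Finset s} (h : Disjoint B Q) {z : RCfg io κ → ℂ}
    (hz : ∀ π : Equiv.Perm κ, UQ B π *ᵥ z = z) : cenQ (B ∪ Q) φ *ᵥ z = cenQ Q φ *ᵥ z :=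
  repQ_union_of_fixed h hz _

theorem cenQ_commute_topow {D : Finset s} (h : D ⊆ Q ∨ Disjoint D Q)
    (K : Matrix (CfgOn io D) (CfgOn io D) ℂ) :
    Commute (cenQ (io := io) (κ := κ) Q φ) (topow κ (emb D K)) := by
  rw [cenQ, repQ_eq_sum]
  exact Commute.sum_left _ _ _ fun π _ => ((topow_emb_commute_UQ h K π).symm).smul_left _

theorem cenQ_commute_copyAvg {D : Finset s} (h : D ⊆ Q ∨ Disjoint D Q)
    (K : Matrix (CfgOn io D) (CfgOn io D) ℂ) :
    Commute (cenQ (io := io) (κ := κ) Q φ) (copyAvg (emb D K)) := by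
  rw [cenQ, repQ_eq_sum]
  exact Commute.sum_left _ _ _ fun π _ => ((copyAvg_emb_commute_UQ h K π).symm).smul_left _

/-- a marked-copy operator off `Q` commutes with every permutation operator of `Q` -/
theorem repQ_commute_copyOp {D : Finset s} (h : Disjoint D Q) (y : GA κ) (j : κ)
    (K : Matrix (CfgOn io D) (CfgOn io D) ℂ) :
    Commute (repQ (io := io) Q y) (copyOp j (emb D K)) := by
  rw [repQ_eq_sum]
  exact Commute.sum_left _ _ _ fun π _ =>
    ((commute_UQ_of_conj (UQ_conj_copyOp_emb_disjoint h K π j)).symm).smul_left _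

/-- a permutation that fixes `j₀` leaves the copy `j₀` alone -/
theorem cen_rcopy_rperm_fixed (j₀ : κ) (π : Equiv.Perm κ) (hπ : π j₀ = j₀) (c : RCfg io κ) :
    rcopy (rperm Q π c) j₀ = rcopy c j₀ := by
  funext x
  have h1 : π⁻¹ j₀ = j₀ := by rw [Equiv.Perm.inv_eq_iff_eq, hπ]
  simp only [rcopy, rperm_apply]
  split_ifs
  · rw [h1]
  · rfl

theorem cen_offcopy_rperm (j₀ : κ) (π : Equiv.Perm κ) (hπ : π j₀ = j₀) {c c' : RCfg io κ}
    (h : ∀ i, i ≠ j₀ → rcopy c i = rcopy c' i) :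
    ∀ i, i ≠ j₀ → rcopy (rperm Q π c) i = rcopy (rperm Q π c') i := by
  intro i hi
  funext x
  have h1 : π⁻¹ i ≠ j₀ := by
    intro h2
    apply hi
    rw [Equiv.Perm.inv_eq_iff_eq] at h2
    rw [h2, hπ]
  simp only [rcopy, rperm_apply]
  split_ifs
  · exact congrFun (h _ h1) x
  · exact congrFun (h _ hi) x

theorem cen_UQ_commute_copyOp (j₀ : κ) (π : Equiv.Perm κ) (hπ : π j₀ = j₀)
    (h : Matrix (Cfg io) (Cfg io) ℂ) : Commute (copyOp j₀ h) (UQ (io := io) Q π) := by
  apply commute_UQ_of_conj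
  have hπ' : π⁻¹ j₀ = j₀ := by rw [Equiv.Perm.inv_eq_iff_eq, hπ]
  ext c c'
  rw [UQ_eq_rpMat, UQ_eq_rpMat, map_inv, rpMat_conj_apply, ← map_inv]
  simp only [copyOp, Matrix.of_apply, cen_rcopy_rperm_fixed Q j₀ π⁻¹ hπ']
  have hiff : (∀ i, i ≠ j₀ → rcopy (rperm Q π⁻¹ c) i = rcopy (rperm Q π⁻¹ c') i)
      ↔ ∀ i, i ≠ j₀ → rcopy c i = rcopy c' i := by
    constructor
    · intro h1
      have h2 := cen_offcopy_rperm Q j₀ π hπ h1
      have e : ∀ d : RCfg io κ, rperm Q π (rperm Q π⁻¹ d) = d := by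
        intro d
        rw [← Equiv.Perm.mul_apply, ← map_mul, mul_inv_cancel, map_one, Equiv.Perm.one_apply]
      rwa [e, e] at h2
    · exact cen_offcopy_rperm Q j₀ π⁻¹ hπ'
  simp only [hiff]

/-- permutations of the copies `≠ j₀` commute with the operators on the copy `j₀` -/
theorem repQ_gsub_commute_copyOp (j₀ : κ) (y : GA {j // j ≠ j₀})
    (h : Matrix (Cfg io) (Cfg io) ℂ) :
    Commute (repQ (io := io) Q (Rep.gsub j₀ y)) (copyOp j₀ h) := by
  rw [Rep.gsub, Rep.gmap_eq_sum, map_sum]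
  refine Commute.sum_left _ _ _ fun σ _ => ?_
  rw [map_smul]
  refine Commute.smul_left ?_ _
  have e : repQ (io := io) Q (MonoidAlgebra.of ℂ (Equiv.Perm κ) (Equiv.Perm.ofSubtype σ))
      = UQ Q (Equiv.Perm.ofSubtype σ) := Rep.repAlg_of (UQhom Q) _
  rw [e]
  exact (cen_UQ_commute_copyOp Q j₀ _
    (Equiv.Perm.ofSubtype_apply_of_not_mem σ (by simp)) h).symm

/-- the merged representation is the representation on the union -/
theorem cen_mulRep_eq {Q E : Finset s} (hQE : Disjoint Q E) :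
    Rep.mulRep (UQhom (io := io) (κ := κ) Q) (UQhom E)
      (fun g h => (UQ_commute_disjoint hQE g h).eq) = UQhom (Q ∪ E) := by
  ext1 g
  exact (UQ_union hQE g).symm

/-- the product of the three label projections -/
theorem cen_triple_posSemidef {Q E : Finset s} (hQE : Disjoint Q E)
    (i j l : Rep.Irr (Equiv.Perm κ)) :
    (labP (io := io) Q i * labP E j * labP (Q ∪ E) l).PosSemidef := by
  have c12 : Commute (labP (io := io) Q i) (labP E j) := repQ_commute_disjoint hQE _ _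
  have c13 : Commute (labP (io := io) Q i) (labP (Q ∪ E) l) :=
    repQ_commute_subset Finset.subset_union_left (cen_idem_central i) _
  have c23 : Commute (labP (io := io) E j) (labP (Q ∪ E) l) :=
    repQ_commute_subset Finset.subset_union_right (cen_idem_central j) _
  have h1 := labP_mul_labP (io := io) Q i i
  have h2 := labP_mul_labP (io := io) E j j
  have h3 := labP_mul_labP (io := io) (Q ∪ E) l l
  rw [if_pos rfl] at h1 h2 h3
  set P1 := labP (io := io) Q i
  set P2 := labP (io := io) E j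
  set P3 := labP (io := io) (Q ∪ E) l
  have c123 : Commute (P1 * P2) P3 := c13.mul_left c23
  have hH : (P1 * P2 * P3)ᴴ = P1 * P2 * P3 := by
    rw [conjTranspose_mul, conjTranspose_mul, (labP_isHermitian Q i).eq, (labP_isHermitian E j).eq,
      (labP_isHermitian (Q ∪ E) l).eq]
    change P3 * (P2 * P1) = P1 * P2 * P3
    rw [← c12.eq, c123.eq]
  have hI : (P1 * P2 * P3) * (P1 * P2 * P3) = P1 * P2 * P3 :=
    Rep.idempotent_mul_of_commute (Rep.idempotent_mul_of_commute h1 h2 c12.eq) h3 c123.eq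
  have e : P1 * P2 * P3 = (P1 * P2 * P3)ᴴ * (P1 * P2 * P3) := by rw [hH, hI]
  rw [e]
  exact Matrix.posSemidef_conjTranspose_mul_self _

/-- merging (Lemma 5.1 (3)): an inequality between functions of COMPATIBLE labels is an operator
inequality (`Rep.merge_compat`, `UQ_union`) -/
theorem merge_le {Q E : Finset s} (hQE : Disjoint Q E)
    (f g : Rep.Irr (Equiv.Perm κ) → Rep.Irr (Equiv.Perm κ) → Rep.Irr (Equiv.Perm κ) → ℝ)
    (h : ∀ i j l, Rep.kronMult i j l ≠ 0 → f i j l ≤ g i j l) :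
    ∑ i, ∑ j, ∑ l, (f i j l : ℂ) • (labP (io := io) Q i * labP E j * labP (Q ∪ E) l)
      ≤ ∑ i, ∑ j, ∑ l, (g i j l : ℂ) • (labP (io := io) Q i * labP E j * labP (Q ∪ E) l) := by
  refine Finset.sum_le_sum fun i _ => Finset.sum_le_sum fun j _ => Finset.sum_le_sum fun l _ => ?_
  by_cases h0 : labP (io := io) Q i * labP E j * labP (Q ∪ E) l = 0
  · rw [h0, smul_zero, smul_zero]
  · have hk : Rep.kronMult i j l ≠ 0 := by
      refine Rep.merge_compat (UQhom (io := io) Q) (UQhom E)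
        (fun g h => (UQ_commute_disjoint hQE g h).eq) i j l ?_
      rw [cen_mulRep_eq hQE]
      exact h0
    rw [Matrix.le_iff, ← sub_smul]
    refine (cen_triple_posSemidef hQE i j l).smul ?_
    have := h i j l hk
    rw [← Complex.ofReal_sub]
    exact_mod_cast sub_nonneg.2 this

/-- expansion of a product of three label functions -/
theorem cen_triple_expand (a b c : Rep.Irr (Equiv.Perm κ) → ℂ) :
    cenQ (io := io) Q a * cenQ E b * cenQ (Q ∪ E) c
      = ∑ i, ∑ j, ∑ l, (a i * b j * c l) • (labP (io := io) Q i * labP E j * labP (Q ∪ E) l) := by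
  rw [cenQ_eq_sum, cenQ_eq_sum, cenQ_eq_sum, Finset.sum_mul_sum, Finset.sum_mul]
  refine Finset.sum_congr rfl fun i _ => ?_
  rw [Finset.sum_mul]
  refine Finset.sum_congr rfl fun j _ => ?_
  rw [Finset.mul_sum]
  refine Finset.sum_congr rfl fun l _ => ?_
  rw [smul_mul_smul_comm, smul_mul_smul_comm]

theorem cen_FQ_eq : FQ (io := io) (κ := κ) Q
    = cenQ Q fun i => ((Real.log (Rep.dimI i) : ℝ) : ℂ) := rfl

theorem cen_FQ_left : FQ (io := io) (κ := κ) Q
    = ∑ i, ∑ j, ∑ l : Rep.Irr (Equiv.Perm κ), ((Real.log (Rep.dimI i) : ℝ) : ℂ) •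
        (labP (io := io) Q i * labP E j * labP (Q ∪ E) l) := by
  have h := cen_triple_expand (io := io) (κ := κ) Q E
    (fun i => ((Real.log (Rep.dimI i) : ℝ) : ℂ)) (fun _ => 1) (fun _ => 1)
  rw [cenQ_one, cenQ_one, mul_one, mul_one] at h
  simp only [mul_one] at h
  exact h

theorem cen_FQ_right : FQ (io := io) (κ := κ) E
    = ∑ i, ∑ j, ∑ l : Rep.Irr (Equiv.Perm κ), ((Real.log (Rep.dimI j) : ℝ) : ℂ) •
        (labP (io := io) Q i * labP E j * labP (Q ∪ E) l) := by
  have h := cen_triple_expand (io := io) (κ := κ) Q E (fun _ => 1)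
    (fun i => ((Real.log (Rep.dimI i) : ℝ) : ℂ)) (fun _ => 1)
  rw [cenQ_one, cenQ_one, mul_one, one_mul] at h
  simp only [mul_one, one_mul] at h
  exact h

theorem cen_FQ_union : FQ (io := io) (κ := κ) (Q ∪ E)
    = ∑ i, ∑ j, ∑ l : Rep.Irr (Equiv.Perm κ), ((Real.log (Rep.dimI l) : ℝ) : ℂ) •
        (labP (io := io) Q i * labP E j * labP (Q ∪ E) l) := by
  have h := cen_triple_expand (io := io) (κ := κ) Q E (fun _ => 1) (fun _ => 1)
    (fun i => ((Real.log (Rep.dimI i) : ℝ) : ℂ))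
  rw [cenQ_one, cenQ_one, one_mul, one_mul] at h
  simp only [mul_one, one_mul] at h
  exact h

theorem cen_log_dim_le {a b c : ℕ} (ha : 0 < a) (hb : 0 < b) (hc : 0 < c) (h : a ≤ b * c) :
    Real.log a ≤ Real.log b + Real.log c := by
  rw [← Real.log_mul (by positivity) (by positivity)]
  exact Real.log_le_log (by positivity) (by exact_mod_cast h)

/-- every permutation is conjugate to its inverse -/
theorem cen_perm_ambivalent (g : Equiv.Perm κ) : ∃ h : Equiv.Perm κ, h * g * h⁻¹ = g⁻¹ := by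
  have hc : IsConj g g⁻¹ := by
    rw [Equiv.Perm.isConj_iff_cycleType_eq, Equiv.Perm.cycleType_inv]
  exact isConj_iff.1 hc

/-- `F_{QE} ≤ F_Q + F_E` -/
theorem FQ_union_le {Q E : Finset s} (hQE : Disjoint Q E) :
    FQ (io := io) (κ := κ) (Q ∪ E) ≤ FQ Q + FQ E := by
  rw [cen_FQ_union Q E, cen_FQ_left Q E, cen_FQ_right Q E]
  simp only [← Finset.sum_add_distrib, ← add_smul, ← Complex.ofReal_add]
  refine merge_le hQE (fun _ _ l => Real.log (Rep.dimI l))
    (fun i j _ => Real.log (Rep.dimI i) + Real.log (Rep.dimI j)) fun i j l h => ?_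
  exact cen_log_dim_le (Rep.dimI_pos l) (Rep.dimI_pos i) (Rep.dimI_pos j) (Rep.kron_dim_le i j l h)

/-- `F_Q ≤ F_{QE} + F_E` -/
theorem FQ_le_union_add {Q E : Finset s} (hQE : Disjoint Q E) :
    FQ (io := io) (κ := κ) Q ≤ FQ (Q ∪ E) + FQ E := by
  rw [cen_FQ_union Q E, cen_FQ_left Q E, cen_FQ_right Q E]
  simp only [← Finset.sum_add_distrib, ← add_smul, ← Complex.ofReal_add]
  refine merge_le hQE (fun i _ _ => Real.log (Rep.dimI i))
    (fun _ j l => Real.log (Rep.dimI l) + Real.log (Rep.dimI j)) fun i j l h => ?_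
  exact cen_log_dim_le (Rep.dimI_pos i) (Rep.dimI_pos l) (Rep.dimI_pos j)
    (Rep.kron_dim_le' cen_perm_ambivalent i j l h)

theorem FQ_nonneg : 0 ≤ FQ (io := io) (κ := κ) Q := by
  rw [Matrix.nonneg_iff_posSemidef]
  refine Rep.repAlg_cfun_posSemidef (UQhom Q) (cen_UQhom_conjTranspose Q) _ fun i => ?_
  exact Real.log_nonneg (by exact_mod_cast Rep.dimI_pos i)

end Calculus

end Claimed.Agent.R296
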