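import Claimed.Agent.R296.Replica.Band
import Claimed.Agent.R296.Rep.Twirl
import Claimed.Agent.R296.LogJensen

/-!
# Row 296, replica layer: finite coherent designs (replaces the Haar measure on the unit sphere of
P1 eqs. replicas:resolution, replicas:husimi, transport:coherent-measure)

Architect: helper197.  Package RP-D (proofs: helper46; auxiliary lemmas carry the prefix `rpd`).

DESIGN DECISION (binding for Sections 5-8).  No measure on the sphere is used downstream.  A
*coherent design of level `K`* is a finite family of unit vectors `θ i` with weights `p i > 0` such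
that `∑ i, p i • P_{θ i, k} = D_k⁻¹ • 1` on `Sym^k 𝒱` for every `k ≤ K`.  Every integral
`∫ f(θ) dμ_σ(θ)` of the paper becomes the finite sum `∑ i, 𝒟.w k σ i * f (𝒟.θ i)`; no measurability
or continuity of entropy functionals is ever needed.  For `k` copies one fixes a design of level `2k`
(the finite-copy identity replicas:finite-husimi uses the levels `k + m`, `m ≤ k`).

EXISTENCE (`exists_cohDesign`).  (1) `Rep.twirl_eq` applied to `X = |e^{⊗k}⟩⟨e^{⊗k}|` gives
`∫ |(u e)^{⊗k}⟩⟨(u e)^{⊗k}| du = D_k⁻¹ Π_k` (only the trivial block contributes: `X U(π) = X`);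
(2) the map `u ↦ (P_{u e, k})_{k ≤ K}` is continuous on the compact group `U(d)` with values in a
finite-dimensional space, so its Haar integral lies in the convex hull of its range
(`integral_mem_convexHull_range`: `Convex.integral_mem` + compactness of the convex hull of a
compact set, by Caratheodory); (3) `mem_convexHull_iff_exists_fintype`, drop the zero weights.
-/

set_option autoImplicit false
set_option linter.unusedSectionVars false
set_option linter.unusedVariables false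

namespace Claimed.Agent.R296

open Matrix MeasureTheory
open scoped ComplexOrder MatrixOrder Matrix.Norms.L2Operator

/-! ### two general lemmas (Mathlib only) -/

theorem rpd_sum_extend {ι κ M : Type} [Fintype ι] [Fintype κ] [AddCommMonoid M] (f : ι ↪ κ)
    (g : κ → M) (h0 : ∀ j, (¬ ∃ i, f i = j) → g j = 0) : ∑ j, g j = ∑ i, g (f i) := by
  classical
  rw [← Finset.sum_subset (Finset.subset_univ (Finset.univ.map f)), Finset.sum_map]
  intro j _ hj
  apply h0
  rintro ⟨i, rfl⟩
  exact hj (Finset.mem_map_of_mem f (Finset.mem_univ i))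

/-- the convex hull of a compact set in a finite-dimensional space is compact (Caratheodory) -/
theorem isCompact_convexHull_of_finiteDimensional {E : Type} [NormedAddCommGroup E]
    [NormedSpace ℝ E] [FiniteDimensional ℝ E] {S : Set E} (hS : IsCompact S) :
    IsCompact (convexHull ℝ S) := by
  classical
  set n := Module.finrank ℝ E with hn
  -- the parametrisation
  let F : (Fin (n + 1) → ℝ) × (Fin (n + 1) → E) → E := fun p => ∑ i, p.1 i • p.2 i
  have hF : Continuous F := by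
    refine continuous_finsetSum _ fun i _ => ?_
    exact ((continuous_apply i).comp continuous_fst).smul ((continuous_apply i).comp continuous_snd)
  have hK : IsCompact ((stdSimplex ℝ (Fin (n + 1))) ×ˢ (Set.pi Set.univ fun _ : Fin (n + 1) => S)) :=
    (isCompact_stdSimplex ℝ (Fin (n + 1))).prod (isCompact_univ_pi fun _ => hS)
  have himg : convexHull ℝ S =
      F '' ((stdSimplex ℝ (Fin (n + 1))) ×ˢ (Set.pi Set.univ fun _ : Fin (n + 1) => S)) := by
    apply Set.Subset.antisymm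
    · intro x hx
      obtain ⟨ι, hι, z, w, hz, hai, hw, hw1, hx'⟩ := eq_pos_convex_span_of_mem_convexHull hx
      have hcard : Fintype.card ι ≤ n + 1 :=
        hai.card_le_finrank_succ.trans (Nat.succ_le_succ (Submodule.finrank_le _))
      have hne : Nonempty ι := by
        by_contra h
        rw [not_nonempty_iff] at h
        simp at hw1
      obtain ⟨i₀⟩ := hne
      have hemb : Nonempty (ι ↪ Fin (n + 1)) :=
        Function.Embedding.nonempty_of_card_le (by simpa using hcard)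
      obtain ⟨f⟩ := hemb
      refine ⟨(Function.extend f w 0, Function.extend f z (fun _ => z i₀)), ⟨⟨?_, ?_⟩, ?_⟩, ?_⟩
      · intro j
        show 0 ≤ Function.extend f w 0 j
        by_cases h : ∃ i, f i = j
        · obtain ⟨i, rfl⟩ := h
          rw [f.injective.extend_apply]
          exact (hw i).le
        · rw [Function.extend_apply' _ _ _ h]
          exact le_rfl
      · show ∑ j, Function.extend f w 0 j = 1
        rw [rpd_sum_extend f _ fun j hj => by rw [Function.extend_apply' _ _ _ hj]; rfl]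
        simp only [f.injective.extend_apply]
        exact hw1
      · intro j _
        show Function.extend f z (fun _ => z i₀) j ∈ S
        by_cases h : ∃ i, f i = j
        · obtain ⟨i, rfl⟩ := h
          rw [f.injective.extend_apply]
          exact hz ⟨_, rfl⟩
        · rw [Function.extend_apply' _ _ _ h]
          exact hz ⟨_, rfl⟩
      · show ∑ j, Function.extend f w 0 j • Function.extend f z (fun _ => z i₀) j = x
        rw [rpd_sum_extend f _ fun j hj => by
          rw [Function.extend_apply' _ _ _ hj]; exact zero_smul _ _]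
        simp only [f.injective.extend_apply]
        exact hx'
    · rintro _ ⟨⟨w, z⟩, ⟨hw, hz⟩, rfl⟩
      exact (convex_convexHull ℝ S).sum_mem (fun i _ => hw.1 i) hw.2
        (fun i _ => subset_convexHull ℝ S (hz i (Set.mem_univ i)))
  rw [himg]
  exact hK.image hF

/-- the barycentre of a continuous map on a compact probability space lies in the convex hull of
its range -/
theorem integral_mem_convexHull_range {X E : Type} [TopologicalSpace X] [CompactSpace X]
    [MeasurableSpace X] [BorelSpace X] [NormedAddCommGroup E] [NormedSpace ℝ E]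
    [FiniteDimensional ℝ E] (μ : Measure X) [IsProbabilityMeasure μ] (Φ : X → E)
    (hΦ : Continuous Φ) : ∫ x, Φ x ∂μ ∈ convexHull ℝ (Set.range Φ) := by
  have : CompleteSpace E := FiniteDimensional.complete ℝ E
  have hc : IsCompact (Set.range Φ) := isCompact_range hΦ
  refine Convex.integral_mem (convex_convexHull ℝ _) (isCompact_convexHull_of_finiteDimensional hc).isClosed
    (Filter.Eventually.of_forall fun x => subset_convexHull ℝ _ (Set.mem_range_self x)) ?_
  exact hΦ.integrable_of_hasCompactSupport (HasCompactSupport.of_compactSpace Φ)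

section transport

variable {s : Type} [DecidableEq s] [Fintype s] {io : s → Type}
  [∀ x, Fintype (io x)] [∀ x, DecidableEq (io x)] {κ : Type} [Fintype κ] [DecidableEq κ] {d : ℕ}

/-- replica configurations as `κ`-tuples of elements of `Fin d` -/
def rpdE (e : Cfg io ≃ Fin d) (κ : Type) : RCfg io κ ≃ (κ → Fin d) :=
  rcfgEquiv.trans (Equiv.piCongrRight fun _ => e)

theorem rpdE_apply (e : Cfg io ≃ Fin d) (c : RCfg io κ) (j : κ) : rpdE e κ c j = e (rcopy c j) := rfl

theorem rpd_UQ (e : Cfg io ≃ Fin d) (π : Equiv.Perm κ) :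
    UQ (io := io) Finset.univ π = (Rep.tU (Fin d) κ π).submatrix (rpdE e κ) (rpdE e κ) := by
  ext c c'
  rw [submatrix_apply, Rep.tU_apply]
  simp only [UQ, Matrix.of_apply]
  congr 1
  apply propext
  constructor
  · intro h
    funext j
    rw [Function.comp_apply, rpdE_apply, rpdE_apply, h, rcopy_rperm_univ]
    simp
  · intro h
    refine rcopy_ext fun j => ?_
    rw [rcopy_rperm_univ]
    have := congrFun h (π⁻¹ j)
    rw [Function.comp_apply, rpdE_apply, rpdE_apply] at this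
    simpa using e.injective this

theorem rpd_tpow (e : Cfg io ≃ Fin d) (θ : Fin d → ℂ) :
    tpow κ (θ ∘ e) = Rep.tvec κ θ ∘ rpdE e κ := rfl

/-- the symmetriser on `κ → Fin d` -/
noncomputable def rpdSym (d : ℕ) (κ : Type) [Fintype κ] [DecidableEq κ] :
    Matrix (κ → Fin d) (κ → Fin d) ℂ :=
  (((Fintype.card κ).factorial : ℂ))⁻¹ • ∑ π : Equiv.Perm κ, Rep.tU (Fin d) κ π

theorem rpd_symProj (e : Cfg io ≃ Fin d) :
    symProj (io := io) (κ := κ) = (rpdSym d κ).submatrix (rpdE e κ) (rpdE e κ) := by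
  ext c c'
  simp only [symProj, rpdSym, rpd_UQ e, submatrix_apply, Matrix.smul_apply, Matrix.sum_apply]

theorem rpd_trace_symProj :
    (symProj (io := io) (κ := κ)).trace
      = ((Fintype.card (Cfg io) + Fintype.card κ - 1).choose (Fintype.card κ) : ℂ) := by
  rw [← symV_range, trace_mul_comm, symV_isometry, trace_one, card_symIx]

theorem rpd_trace_sym (d : ℕ) (κ : Type) [Fintype κ] [DecidableEq κ] :
    (rpdSym d κ).trace = ((d + Fintype.card κ - 1).choose (Fintype.card κ) : ℂ) := by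
  let e : Cfg (fun _ : Unit => Fin d) ≃ Fin d := Equiv.funUnique Unit (Fin d)
  have h1 := rpd_trace_symProj (s := Unit) (io := fun _ : Unit => Fin d) (κ := κ)
  rw [rpd_symProj e] at h1
  have h2 : ((rpdSym d κ).submatrix (rpdE e κ) (rpdE e κ)).trace = (rpdSym d κ).trace := by
    simp only [trace, diag_apply, submatrix_apply]
    exact Equiv.sum_comp (rpdE e κ) fun f => rpdSym d κ f f
  rw [h2] at h1
  rw [h1, Fintype.card_congr e, Fintype.card_fin]

theorem rpd_tU_mul_sym (d : ℕ) (π : Equiv.Perm κ) :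
    Rep.tU (Fin d) κ π * rpdSym d κ = rpdSym d κ := by
  rw [rpdSym, Matrix.mul_smul, Finset.mul_sum]
  simp only [← map_mul]
  congr 1
  exact Equiv.sum_comp (Equiv.mulLeft π) (fun σ => Rep.tU (Fin d) κ σ)

end transport

variable {s : Type} [DecidableEq s] [Fintype s]

/-- a finite coherent design of level `K` -/
structure CohDesign (io : s → Type) [∀ x, Fintype (io x)] [∀ x, DecidableEq (io x)] (K : ℕ) where
  /-- number of points -/
  N : ℕ
  /-- the points -/
  θ : Fin N → Cfg io → ℂ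
  /-- the weights -/
  p : Fin N → ℝ
  unit : ∀ i, star (θ i) ⬝ᵥ θ i = 1
  pos : ∀ i, 0 < p i
  res : ∀ k, k ≤ K → ∑ i, (p i : ℂ) • cohP (Fin k) (θ i)
    = ((dSym io (Fin k) : ℂ))⁻¹ • (1 : Matrix (SymIx io (Fin k)) (SymIx io (Fin k)) ℂ)

variable {io : s → Type} [∀ x, Fintype (io x)] [∀ x, DecidableEq (io x)]

/-- Haar resolution of the identity on one index type -/
theorem twirl_pureOp_tvec (d : ℕ) (κ : Type) [Fintype κ] [DecidableEq κ] (e : Fin d) :
    Rep.twirl d (pureOp (Rep.tvec κ (Pi.single e (1 : ℂ))))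
      = (((d + Fintype.card κ - 1).choose (Fintype.card κ) : ℂ))⁻¹ •
          ((((Fintype.card κ).factorial : ℂ))⁻¹ • ∑ π : Equiv.Perm κ, Rep.tU (Fin d) κ π) := by
  set v : (κ → Fin d) → ℂ := Rep.tvec κ (Pi.single e (1 : ℂ)) with hv
  set X := pureOp v with hXdef
  have hl : ∀ π : Equiv.Perm κ, Rep.tU (Fin d) κ π * X = X := by
    intro π
    rw [hXdef, pureOp, Matrix.mul_vecMulVec, hv, Rep.tU_mulVec_tvec]
  have hr : ∀ π : Equiv.Perm κ, X * Rep.tU (Fin d) κ π = X := by
    intro π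
    have h1 : star v ᵥ* Rep.tU (Fin d) κ π = star v := by
      have : star v ᵥ* Rep.tU (Fin d) κ π = star ((Rep.tU (Fin d) κ π)ᴴ *ᵥ v) := by
        rw [star_mulVec, conjTranspose_conjTranspose]
      rw [this, Rep.tU_conjTranspose, hv, Rep.tU_mulVec_tvec]
    rw [hXdef, pureOp, Matrix.vecMulVec_mul, h1]
  have hX : ∀ π, X * Rep.tU (Fin d) κ π = Rep.tU (Fin d) κ π * X := fun π => by rw [hl, hr]
  have hT := Rep.twirl_eq d X hX
  set z := (Rep.cfun fun i => trace (X * Rep.tRep (Fin d) κ (Rep.idem i)) /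
    trace (Rep.tRep (Fin d) κ (Rep.idem i))) with hz
  -- right invariance of the twirl
  have hTr : ∀ π : Equiv.Perm κ, Rep.twirl d X * Rep.tU (Fin d) κ π = Rep.twirl d X := by
    intro π
    ext f g
    have e1 : (Rep.twirl d X * Rep.tU (Fin d) κ π) f g
        = Rep.sandwichEntry 1 (Rep.tU (Fin d) κ π) f g (Rep.twirl d X) := by
      rw [Rep.sandwichEntry_apply, one_mul]
    rw [e1, Rep.linear_twirl, Rep.twirl_apply]
    refine integral_congr_ae (Filter.Eventually.of_forall fun u => ?_)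
    simp only [Rep.sandwichEntry_apply, one_mul]
    rw [Rep.tpow_conjTranspose, mul_assoc, ← Rep.tU_mul_tpow, ← mul_assoc, mul_assoc _ X, hr]
  have hTS : Rep.twirl d X * rpdSym d κ = Rep.twirl d X := by
    rw [rpdSym, Matrix.mul_smul, Finset.mul_sum]
    simp only [hTr]
    rw [Finset.sum_const, Finset.card_univ, Fintype.card_perm, ← Nat.cast_smul_eq_nsmul ℂ, smul_smul,
      inv_mul_cancel₀ card_perm_ne_zero, one_smul]
  have hzS : Rep.tRep (Fin d) κ z * rpdSym d κ = (∑ π, z.coeff π) • rpdSym d κ := by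
    rw [Rep.tRep, Rep.repAlg_eq_sum, Finset.sum_mul, Finset.sum_smul]
    refine Finset.sum_congr rfl fun π _ => ?_
    rw [smul_mul_assoc, rpd_tU_mul_sym]
  have hT2 : Rep.twirl d X = (∑ π, z.coeff π) • rpdSym d κ := by
    rw [← hzS, ← hT, hTS]
  have htr : trace (Rep.twirl d X) = 1 := by
    have := Rep.trace_twirl_mul d X 1 (fun u => by rw [one_mul, mul_one])
    rw [mul_one, mul_one] at this
    rw [this, hXdef, pureOp, trace_vecMulVec, dotProduct_comm, hv, Rep.tvec_dotProduct]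
    simp
  rw [hT2, trace_smul, rpd_trace_sym, smul_eq_mul] at htr
  have hc : (∑ π, z.coeff π)
      = (((d + Fintype.card κ - 1).choose (Fintype.card κ) : ℂ))⁻¹ := eq_inv_of_mul_eq_one_left htr
  rw [hT2, hc]
  rfl

section design

variable {s : Type} [DecidableEq s] [Fintype s] {io : s → Type}
  [∀ x, Fintype (io x)] [∀ x, DecidableEq (io x)] {d : ℕ}

/-- the unit vector `u e₀`, read on `Cfg io` -/
noncomputable def rpdTheta (e : Cfg io ≃ Fin d) (e₀ : Fin d) (u : Rep.UG d) : Cfg io → ℂ :=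
  ((u : Matrix (Fin d) (Fin d) ℂ) *ᵥ Pi.single e₀ (1 : ℂ)) ∘ e

theorem rpdTheta_unit (e : Cfg io ≃ Fin d) (e₀ : Fin d) (u : Rep.UG d) :
    star (rpdTheta e e₀ u) ⬝ᵥ rpdTheta e e₀ u = 1 := by
  have h1 : star (rpdTheta e e₀ u) ⬝ᵥ rpdTheta e e₀ u
      = star ((u : Matrix (Fin d) (Fin d) ℂ) *ᵥ Pi.single e₀ (1 : ℂ)) ⬝ᵥ
        ((u : Matrix (Fin d) (Fin d) ℂ) *ᵥ Pi.single e₀ (1 : ℂ)) := by
    simp only [dotProduct, rpdTheta, Pi.star_apply, Function.comp_apply]
    exact Equiv.sum_comp e fun i => star (((u : Matrix (Fin d) (Fin d) ℂ) *ᵥ Pi.single e₀ (1 : ℂ)) i) *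
      (((u : Matrix (Fin d) (Fin d) ℂ) *ᵥ Pi.single e₀ (1 : ℂ)) i)
  rw [h1, star_mulVec, ← dotProduct_mulVec, mulVec_mulVec, ← star_eq_conjTranspose,
    Unitary.star_mul_self_of_mem u.2, one_mulVec]
  simp

/-- the linear functional `M ↦ (cmp (M read on the replicas)) m m'` -/
noncomputable def rpdEll (e : Cfg io ≃ Fin d) (κ : Type) [Fintype κ] [DecidableEq κ]
    (m m' : SymIx io κ) : Matrix (κ → Fin d) (κ → Fin d) ℂ →ₗ[ℂ] ℂ where
  toFun M := cmp (M.submatrix (rpdE e κ) (rpdE e κ)) m m'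
  map_add' M N := by
    have h : (M + N).submatrix (rpdE e κ) (rpdE e κ)
        = M.submatrix (rpdE e κ) (rpdE e κ) + N.submatrix (rpdE e κ) (rpdE e κ) := rfl
    rw [h, cmp_add]
    rfl
  map_smul' a M := by
    have h : (a • M).submatrix (rpdE e κ) (rpdE e κ) = a • M.submatrix (rpdE e κ) (rpdE e κ) := rfl
    rw [h, cmp_smul]
    rfl

theorem rpdEll_apply (e : Cfg io ≃ Fin d) (κ : Type) [Fintype κ] [DecidableEq κ]
    (m m' : SymIx io κ) (M : Matrix (κ → Fin d) (κ → Fin d) ℂ) :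
    rpdEll e κ m m' M = cmp (M.submatrix (rpdE e κ) (rpdE e κ)) m m' := rfl

theorem rpd_cohP (e : Cfg io ≃ Fin d) (e₀ : Fin d) (κ : Type) [Fintype κ] [DecidableEq κ]
    (u : Rep.UG d) (m m' : SymIx io κ) :
    cohP κ (rpdTheta e e₀ u) m m' = rpdEll e κ m m'
      (Rep.tpow κ (u : Matrix (Fin d) (Fin d) ℂ) * pureOp (Rep.tvec κ (Pi.single e₀ (1 : ℂ))) *
        (Rep.tpow κ (u : Matrix (Fin d) (Fin d) ℂ))ᴴ) := by
  rw [rpdEll_apply, ← pureOp_mulVec, Rep.tpow_mulVec_tvec, pureOp_submatrix, ← rpd_tpow, cmp_pureOp]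
  rfl

theorem rpd_continuous (e : Cfg io ≃ Fin d) (e₀ : Fin d) (κ : Type) [Fintype κ] [DecidableEq κ]
    (m m' : SymIx io κ) : Continuous fun u : Rep.UG d => cohP κ (rpdTheta e e₀ u) m m' := by
  simp only [rpd_cohP, Rep.linear_eq_sum_entries (rpdEll e κ m m') (_ * _ * _)]
  refine continuous_finsetSum _ fun f _ => continuous_finsetSum _ fun g _ => ?_
  exact (Rep.continuous_conj_tpow_entry d κ _ f g).mul continuous_const

theorem rpd_integral (e : Cfg io ≃ Fin d) (e₀ : Fin d) (κ : Type) [Fintype κ] [DecidableEq κ]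
    (m m' : SymIx io κ) :
    ∫ u : Rep.UG d, cohP κ (rpdTheta e e₀ u) m m' ∂(Rep.haarU d)
      = (((dSym io κ : ℂ))⁻¹ • (1 : Matrix (SymIx io κ) (SymIx io κ) ℂ)) m m' := by
  simp only [rpd_cohP]
  rw [← Rep.linear_twirl, twirl_pureOp_tvec, map_smul, rpdEll_apply]
  have h1 : ((((Fintype.card κ).factorial : ℂ))⁻¹ • ∑ π : Equiv.Perm κ, Rep.tU (Fin d) κ π)
      = rpdSym d κ := rfl
  rw [h1, ← rpd_symProj e, cmp_symProj, Matrix.smul_apply, dSym, card_symIx,
    Fintype.card_congr e, Fintype.card_fin]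

end design

/-- **existence of coherent designs** -/
theorem exists_cohDesign (io : s → Type) [∀ x, Fintype (io x)] [∀ x, DecidableEq (io x)]
    [∀ x, Nonempty (io x)] (K : ℕ) : Nonempty (CohDesign io K) := by
  classical
  let d := Fintype.card (Cfg io)
  let e : Cfg io ≃ Fin d := Fintype.equivFin (Cfg io)
  let e₀ : Fin d := e (Classical.arbitrary (Cfg io))
  let Ix : Type := Σ k : Fin (K + 1), SymIx io (Fin k) × SymIx io (Fin k)
  let Φ : Rep.UG d → (Ix → ℂ) := fun u x => cohP (Fin x.1) (rpdTheta e e₀ u) x.2.1 x.2.2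
  have hΦ : Continuous Φ := continuous_pi fun x => rpd_continuous e e₀ (Fin x.1) x.2.1 x.2.2
  have hmem := integral_mem_convexHull_range (Rep.haarU d) Φ hΦ
  have hint : Integrable Φ (Rep.haarU d) :=
    hΦ.integrable_of_hasCompactSupport (HasCompactSupport.of_compactSpace Φ)
  have hval : ∀ x : Ix, (∫ u, Φ u ∂(Rep.haarU d)) x
      = (((dSym io (Fin x.1) : ℂ))⁻¹ •
          (1 : Matrix (SymIx io (Fin x.1)) (SymIx io (Fin x.1)) ℂ)) x.2.1 x.2.2 := by
    intro x
    have h1 := ContinuousLinearMap.integral_comp_comm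
      (ContinuousLinearMap.proj (R := ℝ) (φ := fun _ : Ix => ℂ) x) hint
    rw [← rpd_integral e e₀ (Fin x.1) x.2.1 x.2.2]
    exact h1.symm
  obtain ⟨ι, hι, z, w, hz, -, hw, hw1, hx⟩ := eq_pos_convex_span_of_mem_convexHull hmem
  have hz' : ∀ i, ∃ u, Φ u = z i := fun i => hz ⟨i, rfl⟩
  choose u hu using hz'
  let q : ι ≃ Fin (Fintype.card ι) := Fintype.equivFin ι
  refine ⟨⟨Fintype.card ι, fun j => rpdTheta e e₀ (u (q.symm j)), fun j => w (q.symm j),
    fun j => rpdTheta_unit e e₀ _, fun j => hw _, ?_⟩⟩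
  intro k hk
  ext m m'
  have h1 := hval ⟨⟨k, Nat.lt_succ_of_le hk⟩, (m, m')⟩
  rw [← hx] at h1
  rw [← h1, Equiv.sum_comp q.symm
    (fun i => ((w i : ℝ) : ℂ) • cohP (Fin k) (rpdTheta e e₀ (u i)))]
  rw [Matrix.sum_apply, Finset.sum_apply]
  refine Finset.sum_congr rfl fun i _ => ?_
  rw [← hu i, Matrix.smul_apply, Pi.smul_apply]
  simp only [Φ, Complex.real_smul, smul_eq_mul]

namespace CohDesign

variable {K : ℕ} (𝒟 : CohDesign io K)

/-- a design of level `K` is a design of every lower level -/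
def restrict {K' : ℕ} (h : K' ≤ K) : CohDesign io K' where
  N := 𝒟.N
  θ := 𝒟.θ
  p := 𝒟.p
  unit := 𝒟.unit
  pos := 𝒟.pos
  res k hk := 𝒟.res k (hk.trans h)

/-- coherent weights of `σ`: the finite version of `dμ_σ(θ) = D_k Tr(σ P_{θ,k}) dθ` -/
noncomputable def w (k : ℕ) (σ : Matrix (SymIx io (Fin k)) (SymIx io (Fin k)) ℂ)
    (i : Fin 𝒟.N) : ℝ :=
  dSym io (Fin k) * 𝒟.p i *
    (star (cohV (Fin k) (𝒟.θ i)) ⬝ᵥ (σ *ᵥ cohV (Fin k) (𝒟.θ i))).re

/-- the elements `D_k p_i P_{θ_i,k}` of the coherent POVM -/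
noncomputable def P (k : ℕ) (i : Fin 𝒟.N) : Matrix (SymIx io (Fin k)) (SymIx io (Fin k)) ℂ :=
  ((dSym io (Fin k) * 𝒟.p i : ℝ) : ℂ) • cohP (Fin k) (𝒟.θ i)

/-- the unital positive map `𝒬_k(f) = D_k ∫ f(θ) P_{θ,k} dθ`; all lemmas on `povm`
(`LogJensen.lean`, in particular `lj_log_jensen`) apply -/
noncomputable def Q (k : ℕ) (f : Fin 𝒟.N → ℝ) : Matrix (SymIx io (Fin k)) (SymIx io (Fin k)) ℂ :=
  povm Finset.univ (𝒟.P k) f

theorem P_posSemidef (k : ℕ) (i : Fin 𝒟.N) : (𝒟.P k i).PosSemidef := by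
  unfold P cohP
  refine (pureOp_posSemidef _).smul ?_
  have : (0 : ℝ) ≤ dSym io (Fin k) * 𝒟.p i := mul_nonneg (Nat.cast_nonneg _) (𝒟.pos i).le
  exact_mod_cast this

/-- if `D_k = 0` all matrices over `SymIx` coincide -/
theorem rpd_subsingleton {k : ℕ} (h : dSym io (Fin k) = 0) :
    Subsingleton (Matrix (SymIx io (Fin k)) (SymIx io (Fin k)) ℂ) := by
  have : IsEmpty (SymIx io (Fin k)) := Fintype.card_eq_zero_iff.1 h
  exact ⟨fun A B => by ext m; exact isEmptyElim m⟩

theorem rpd_P_eq (k : ℕ) (i : Fin 𝒟.N) :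
    𝒟.P k i = (dSym io (Fin k) : ℂ) • ((𝒟.p i : ℂ) • cohP (Fin k) (𝒟.θ i)) := by
  rw [P, smul_smul]
  push_cast
  rfl

theorem rpd_trace_mul_cohP (k : ℕ) (σ : Matrix (SymIx io (Fin k)) (SymIx io (Fin k)) ℂ)
    (θ : Cfg io → ℂ) :
    (σ * cohP (Fin k) θ).trace = star (cohV (Fin k) θ) ⬝ᵥ (σ *ᵥ cohV (Fin k) θ) := by
  rw [cohP, pureOp, Matrix.mul_vecMulVec, trace_vecMulVec, dotProduct_comm]

theorem rpd_w_eq (k : ℕ) (σ : Matrix (SymIx io (Fin k)) (SymIx io (Fin k)) ℂ) (i : Fin 𝒟.N) :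
    𝒟.w k σ i = (σ * 𝒟.P k i).trace.re := by
  rw [w, P, Matrix.mul_smul, trace_smul, rpd_trace_mul_cohP, smul_eq_mul, Complex.re_ofReal_mul]

theorem sum_P {k : ℕ} (hk : k ≤ K) : ∑ i, 𝒟.P k i = 1 := by
  by_cases h0 : dSym io (Fin k) = 0
  · have := rpd_subsingleton (io := io) h0
    exact Subsingleton.elim _ _
  · have h0' : (dSym io (Fin k) : ℂ) ≠ 0 := by exact_mod_cast h0
    simp only [rpd_P_eq]
    rw [← Finset.smul_sum, 𝒟.res k hk, smul_smul, mul_inv_cancel₀ h0', one_smul]

theorem sum_p : ∑ i, 𝒟.p i = 1 := by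
  have h := congrArg Matrix.trace (𝒟.res 0 (Nat.zero_le K))
  have h1 : ∀ i, (cohP (Fin 0) (𝒟.θ i)).trace = 1 := by
    intro i
    have := rpd_trace_mul_cohP 0 1 (𝒟.θ i)
    rw [Matrix.one_mul, one_mulVec, cohV, cmpVec_dotProduct (tpow_isSymVec _), tpow_dotProduct] at this
    simpa using this
  have h2 : (dSym io (Fin 0) : ℂ) ≠ 0 := by
    have : dSym io (Fin 0) = 1 := by
      rw [dSym, card_symIx]
      simp
    rw [this]
    simp
  rw [trace_sum, trace_smul, trace_one] at h
  simp only [trace_smul, h1, smul_eq_mul, mul_one] at h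
  have h3 : ((Fintype.card (SymIx io (Fin 0)) : ℕ) : ℂ) = (dSym io (Fin 0) : ℂ) := rfl
  rw [h3, inv_mul_cancel₀ h2] at h
  exact_mod_cast h

theorem w_nonneg (k : ℕ) {σ : Matrix (SymIx io (Fin k)) (SymIx io (Fin k)) ℂ}
    (hσ : σ.PosSemidef) (i : Fin 𝒟.N) : 0 ≤ 𝒟.w k σ i := by
  unfold w
  refine mul_nonneg (mul_nonneg (Nat.cast_nonneg _) (𝒟.pos i).le) ?_
  exact (Complex.le_def.1 (hσ.dotProduct_mulVec_nonneg _)).1

theorem sum_w {k : ℕ} (hk : k ≤ K) (σ : Matrix (SymIx io (Fin k)) (SymIx io (Fin k)) ℂ) :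
    ∑ i, 𝒟.w k σ i = σ.trace.re := by
  simp only [rpd_w_eq]
  rw [← Complex.re_sum, ← trace_sum, ← Finset.mul_sum, 𝒟.sum_P hk, Matrix.mul_one]

theorem trace_mul_Q (k : ℕ) (σ : Matrix (SymIx io (Fin k)) (SymIx io (Fin k)) ℂ)
    (hσ : σ.IsHermitian) (f : Fin 𝒟.N → ℝ) :
    (σ * 𝒟.Q k f).trace.re = ∑ i, 𝒟.w k σ i * f i := by
  simp only [rpd_w_eq]
  rw [Q, povm, Finset.mul_sum, trace_sum, Complex.re_sum]
  refine Finset.sum_congr rfl fun i _ => ?_
  rw [Matrix.mul_smul, trace_smul, smul_eq_mul, Complex.re_ofReal_mul, mul_comm]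

/-- integration of a pointwise rank-one lower bound (used for transport:log-relative) -/
theorem le_of_forall_cohP_le {k : ℕ} (hk : k ≤ K) {C : Matrix (SymIx io (Fin k)) (SymIx io (Fin k)) ℂ}
    (f : Fin 𝒟.N → ℝ) (h : ∀ i, (f i : ℂ) • cohP (Fin k) (𝒟.θ i) ≤ C) :
    (((dSym io (Fin k) : ℝ)⁻¹ : ℝ) : ℂ) • 𝒟.Q k f ≤ C := by
  by_cases h0 : dSym io (Fin k) = 0
  · have := rpd_subsingleton (io := io) h0
    exact le_of_eq (Subsingleton.elim _ _)
  · have h0' : (dSym io (Fin k) : ℂ) ≠ 0 := by exact_mod_cast h0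
    have e1 : (((dSym io (Fin k) : ℝ)⁻¹ : ℝ) : ℂ) • 𝒟.Q k f
        = ∑ i, (𝒟.p i : ℂ) • ((f i : ℂ) • cohP (Fin k) (𝒟.θ i)) := by
      rw [Q, povm, Finset.smul_sum]
      refine Finset.sum_congr rfl fun i _ => ?_
      rw [rpd_P_eq, smul_smul, smul_smul, smul_smul, smul_smul]
      congr 1
      push_cast
      field_simp
    have e2 : C = ∑ i, (𝒟.p i : ℂ) • C := by
      rw [← Finset.sum_smul]
      have : (∑ i, (𝒟.p i : ℂ)) = 1 := by exact_mod_cast 𝒟.sum_p
      rw [this, one_smul]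
    rw [e1, e2]
    refine Finset.sum_le_sum fun i _ => ?_
    have hp : (0 : ℂ) ≤ (𝒟.p i : ℂ) := by exact_mod_cast (𝒟.pos i).le
    rw [Matrix.le_iff, ← smul_sub]
    exact (Matrix.le_iff.1 (h i)).smul hp

end CohDesign

theorem dSym_eq (io : s → Type) [∀ x, Fintype (io x)] [∀ x, DecidableEq (io x)] (k : ℕ) :
    dSym io (Fin k) = (dV io + k - 1).choose k := by
  rw [dSym, card_symIx, Fintype.card_fin]
  rfl

theorem dSym_pos (io : s → Type) [∀ x, Fintype (io x)] [∀ x, DecidableEq (io x)]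
    [∀ x, Nonempty (io x)] (k : ℕ) : 0 < dSym io (Fin k) := by
  rw [dSym_eq]
  have h1 : 0 < dV io := Fintype.card_pos
  exact Nat.choose_pos (by omega)

/-- `D_k ≤ (k+1)^{d}` -/
theorem dSym_le (io : s → Type) [∀ x, Fintype (io x)] [∀ x, DecidableEq (io x)] (k : ℕ) :
    dSym io (Fin k) ≤ (k + 1) ^ dV io := by
  classical
  have hk : Fintype.card (Fin k) = k := Fintype.card_fin k
  let F : SymIx io (Fin k) → (Cfg io → Fin (k + 1)) := fun m a =>
    ⟨Multiset.count a m.1, by
      have h1 := Multiset.count_le_card a m.1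
      have h2 : Multiset.card m.1 = Fintype.card (Fin k) := m.2
      omega⟩
  have hF : Function.Injective F := by
    intro m m' h
    apply Subtype.ext
    ext a
    exact congrArg Fin.val (congrFun h a)
  have := Fintype.card_le_of_injective F hF
  rw [Fintype.card_fun, Fintype.card_fin (k + 1)] at this
  exact this

end Claimed.Agent.R296
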