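import Claimed.Agent.R296.Replica.Inj

/-!
# Row 296, P1 Section 5, proof of `lem:symbol`: the coherent weights on a fixed number of copies
(eqs. replicas:finite-husimi, replicas:uniform-husimi), in DESIGN form

Architect: helper197.  Package RP-I2.  Proofs: helper167 (auxiliary lemmas carry the prefix `hus`).
FINAL: `husimi_norm` (+ `trace_mul_Qc`, `norm_trace_density_mul_le`).

Let `z` be a symmetric unit vector on the copies `κ`, `G` an operator on the copies `μ`, and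
`X = place inl |z⟩⟨z| * place inr G` on `κ ⊕ μ`.
* `husimi_identity`: by `CohDesign.res_full` at the level `k + m`,
  `∑_i D_k p_i |⟨θ_i^{⊗κ}, z⟩|² symb G θ_i = (D_k / D_{k+m}) Tr (X Π_{κ ⊕ μ})`;
* `trace_good_perm`: if `π` maps every `inr b` into `inl κ`, then `Tr (X U(π)) = ⟨z, 𝒯(G) z⟩`
  (move `G` through `U(π)` with `UQ_univ_conj_place`; then `hus_trace_place_mul_UQ`: the partial trace of `U(π)` over `μ`
  is the permutation of `κ` given by the first-return map, which a symmetric `z` does not see);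
* `hus_card_bad_perm_le`: union bound, the other permutations are a fraction `≤ m²/(k+m)` of all
  (this replaces the exact count `(k)_m k!` of the good ones, which is not needed);
* `norm_trace_perm_le`: every other term is bounded by `d^m ‖G‖`;
* scalar estimate `1 - D_k/D_{k+m} ≤ m d/k` (`dSym_ratio`).
CHANGE w.r.t. the skeleton: `norm_le_two_numerical_radius` needs `0 ≤ r` (false for an empty index type otherwise);
`card_good_perm`, `descFactorial_ratio_ge` dropped (unused).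
-/

set_option autoImplicit false
set_option linter.unusedSectionVars false

namespace Claimed.Agent.R296

open Matrix
open scoped ComplexOrder MatrixOrder Matrix.Norms.L2Operator

variable {s : Type} [DecidableEq s] [Fintype s] {io : s → Type}
  [∀ x, Fintype (io x)] [∀ x, DecidableEq (io x)]
  {κ : Type} [Fintype κ] [DecidableEq κ] {μ : Type} [Fintype μ] [DecidableEq μ]

/-! ### splitting the configurations on `κ ⊕ μ` -/

/-- join two configurations -/
def husJoin (a : RCfg io κ) (g : RCfg io μ) : RCfg io (κ ⊕ μ) :=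
  fun p => match p with
    | (Sum.inl i, x) => a (i, x)
    | (Sum.inr j, x) => g (j, x)

theorem husJoin_inl (a : RCfg io κ) (g : RCfg io μ) (i : κ) (x : s) :
    husJoin a g (Sum.inl i, x) = a (i, x) := rfl

theorem husJoin_inr (a : RCfg io κ) (g : RCfg io μ) (j : μ) (x : s) :
    husJoin a g (Sum.inr j, x) = g (j, x) := rfl

/-- configurations on `κ ⊕ μ` are pairs of configurations -/
def husSplit : RCfg io (κ ⊕ μ) ≃ RCfg io κ × RCfg io μ where
  toFun c := (rpull Sum.inl c, rpull Sum.inr c)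
  invFun ag := husJoin ag.1 ag.2
  left_inv c := by
    funext ⟨j, x⟩
    cases j <;> rfl
  right_inv ag := rfl

theorem hus_sum_split {M : Type} [AddCommMonoid M] (f : RCfg io (κ ⊕ μ) → M) :
    ∑ c, f c = ∑ a : RCfg io κ, ∑ g : RCfg io μ, f (husJoin a g) := by
  rw [← Fintype.sum_prod_type']
  exact Fintype.sum_equiv husSplit _ _ fun c => by
    conv_lhs => rw [← husSplit.left_inv c]
    rfl

theorem hus_rpull_inl_join (a : RCfg io κ) (g : RCfg io μ) : rpull Sum.inl (husJoin a g) = a := rfl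

theorem hus_rpull_inr_join (a : RCfg io κ) (g : RCfg io μ) : rpull Sum.inr (husJoin a g) = g := rfl

theorem hus_rcopy_join_inl (a : RCfg io κ) (g : RCfg io μ) (i : κ) :
    rcopy (husJoin a g) (Sum.inl i) = rcopy a i := rfl

theorem hus_rcopy_join_inr (a : RCfg io κ) (g : RCfg io μ) (j : μ) :
    rcopy (husJoin a g) (Sum.inr j) = rcopy g j := rfl

theorem hus_card_rcfg : Fintype.card (RCfg io μ) = dV io ^ Fintype.card μ := by
  rw [Fintype.card_congr (rcfgEquiv (io := io) (κ := μ)), Fintype.card_fun]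
  rfl

/-- a symmetric vector does not see a relabelling of the copies -/
theorem hus_sym_rpull {z : RCfg io κ → ℂ} (hz : IsSymVec z) {τ : κ → κ}
    (hτ : Function.Injective τ) (a : RCfg io κ) : z (rpull τ a) = z a := by
  have hb : Function.Bijective τ := Finite.injective_iff_bijective.1 hτ
  have h := (isSymVec_iff_apply z).1 hz (Equiv.ofBijective τ hb)⁻¹ a
  rw [← h]
  congr 1
  funext p
  rw [rperm_apply, if_pos (Finset.mem_univ _), inv_inv]
  rfl

theorem hus_place_apply (ι : μ ↪ κ) (G : Matrix (RCfg io μ) (RCfg io μ) ℂ) (c c' : RCfg io κ) :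
    place ι G c c' =
      if ∀ j, (∀ i, ι i ≠ j) → rcopy c j = rcopy c' j then G (rpull ι c) (rpull ι c') else 0 := rfl

theorem hus_trace_place_inl (Y : Matrix (RCfg io κ) (RCfg io κ) ℂ) :
    (place (μ := κ) (κ := κ ⊕ μ) Function.Embedding.inl Y).trace
      = (Fintype.card (RCfg io μ) : ℂ) * Y.trace := by
  rw [Matrix.trace, hus_sum_split]
  have : ∀ (a : RCfg io κ) (g : RCfg io μ),
      (place (μ := κ) (κ := κ ⊕ μ) Function.Embedding.inl Y).diag (husJoin a g) = Y a a := by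
    intro a g
    rw [Matrix.diag_apply, hus_place_apply, if_pos (fun _ _ => rfl)]
    rfl
  simp only [this]
  rw [Finset.sum_comm, Finset.sum_const, Finset.card_univ, nsmul_eq_mul]
  rfl

theorem hus_rcopy_join (a : RCfg io κ) (g : RCfg io μ) (j : κ ⊕ μ) :
    rcopy (husJoin a g) j = Sum.elim (rcopy a) (rcopy g) j := by
  cases j <;> rfl

theorem hus_rcopy_rpull (ι : μ → κ) (c : RCfg io κ) (i : μ) : rcopy (rpull ι c) i = rcopy c (ι i) := rfl

/-- `|z⟩⟨z| ⊗ G` on `κ ⊕ μ` -/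
def huX (z : RCfg io κ → ℂ) (G : Matrix (RCfg io μ) (RCfg io μ) ℂ) :
    Matrix (RCfg io (κ ⊕ μ)) (RCfg io (κ ⊕ μ)) ℂ :=
  tens (pureOp z) G

/-- a permutation of `κ ⊕ μ` is good if it maps the last copies into the first ones -/
def GoodPerm (π : Equiv.Perm (κ ⊕ μ)) : Prop := ∀ b : μ, ∃ a : κ, π (Sum.inr b) = Sum.inl a

theorem hus_good_inv {π : Equiv.Perm (κ ⊕ μ)} (hπ : GoodPerm π) (b : μ) :
    ∃ a : κ, π⁻¹ (Sum.inr b) = Sum.inl a := by
  rcases h : π⁻¹ (Sum.inr b) with a | b'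
  · exact ⟨a, rfl⟩
  · exfalso
    obtain ⟨a, ha⟩ := hπ b'
    have h2 : π (Sum.inr b') = Sum.inr b := by rw [← h]; simp
    rw [h2] at ha
    cases ha

/-- the first-return map of `π⁻¹` to `κ` -/
def husRet (π : Equiv.Perm (κ ⊕ μ)) (β : μ → κ) (i : κ) : κ := Sum.elim id β (π⁻¹ (Sum.inl i))

theorem husRet_injective {π : Equiv.Perm (κ ⊕ μ)} {β : μ → κ}
    (hβ : ∀ b, π⁻¹ (Sum.inr b) = Sum.inl (β b)) : Function.Injective (husRet π β) := by
  intro i j hij
  unfold husRet at hij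
  rcases hi : π⁻¹ (Sum.inl i) with i' | b <;> rcases hj : π⁻¹ (Sum.inl j) with j' | b'
  · rw [hi, hj] at hij
    simp only [Sum.elim_inl, id] at hij
    rw [hij, ← hj] at hi
    exact Sum.inl_injective (π⁻¹.injective hi)
  · rw [hi, hj] at hij
    simp only [Sum.elim_inl, Sum.elim_inr, id] at hij
    rw [hij, ← hβ] at hi
    cases π⁻¹.injective hi
  · rw [hi, hj] at hij
    simp only [Sum.elim_inl, Sum.elim_inr, id] at hij
    rw [← hij, ← hβ] at hj
    cases π⁻¹.injective hj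
  · rw [hi, hj] at hij
    simp only [Sum.elim_inr] at hij
    have h1 : π⁻¹ (Sum.inr b) = π⁻¹ (Sum.inr b') := by rw [hβ, hβ, hij]
    have h2 : b = b' := Sum.inr_injective (π⁻¹.injective h1)
    rw [h2, ← hj] at hi
    exact Sum.inl_injective (π⁻¹.injective hi)

theorem hus_trace_place_mul_UQ {π : Equiv.Perm (κ ⊕ μ)} {β : μ → κ}
    (hβ : ∀ b, π⁻¹ (Sum.inr b) = Sum.inl (β b)) (Y : Matrix (RCfg io κ) (RCfg io κ) ℂ) :
    (place (μ := κ) (κ := κ ⊕ μ) Function.Embedding.inl Y * UQ Finset.univ π).trace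
      = ∑ a, Y a (rpull (husRet π β) a) := by
  rw [Matrix.trace, hus_sum_split]
  have key : ∀ (a : RCfg io κ) (g : RCfg io μ),
      (place (μ := κ) (κ := κ ⊕ μ) Function.Embedding.inl Y * UQ Finset.univ π).diag (husJoin a g)
        = if g = rpull β a then Y a (rpull (husRet π β) a) else 0 := by
    intro a g
    rw [Matrix.diag_apply, UQ_eq_rpMat, mul_rpMat_apply, hus_place_apply]
    by_cases hg : g = rpull β a
    · subst hg
      rw [if_pos rfl, if_pos]
      · congr 1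
        refine rcopy_ext fun i => ?_
        rw [hus_rcopy_rpull, hus_rcopy_rpull, rcopy_rperm_univ, hus_rcopy_join]
        show Sum.elim (rcopy a) (rcopy (rpull β a)) (π⁻¹ (Sum.inl i))
          = rcopy a (Sum.elim id β (π⁻¹ (Sum.inl i)))
        rcases π⁻¹ (Sum.inl i) with i' | b <;> rfl
      · intro j hj
        rcases j with i | b
        · exact absurd rfl (hj i)
        · rw [rcopy_rperm_univ, hβ]
          rfl
    · rw [if_neg hg, if_neg]
      intro hcond
      apply hg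
      refine rcopy_ext fun b => ?_
      have := hcond (Sum.inr b) (fun i => by simp)
      rw [rcopy_rperm_univ, hβ] at this
      exact this
  simp only [key]
  refine Finset.sum_congr rfl fun a _ => ?_
  rw [Finset.sum_ite_eq' Finset.univ (rpull β a) (fun _ => Y a (rpull (husRet π β) a)),
    if_pos (Finset.mem_univ _)]

theorem hus_quad_eq_injAvg {z : RCfg io κ → ℂ} (hz : IsSymVec z) (ι : μ ↪ κ)
    (G : Matrix (RCfg io μ) (RCfg io μ) ℂ) :
    star z ⬝ᵥ (place ι G *ᵥ z) = star z ⬝ᵥ (injAvg κ G *ᵥ z) := by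
  have h1 := cmp_quadratic_form (place ι G) (cmpVec z) (cmpVec z)
  have h2 := cmp_quadratic_form (injAvg κ G) (cmpVec z) (cmpVec z)
  rw [symV_mulVec_cmpVec hz] at h1 h2
  rw [← h1, ← h2, cmp_place]

theorem trace_good_perm {z : RCfg io κ → ℂ} (hz : IsSymVec z)
    (G : Matrix (RCfg io μ) (RCfg io μ) ℂ) {π : Equiv.Perm (κ ⊕ μ)} (hπ : GoodPerm π) :
    (huX z G * UQ Finset.univ π).trace = star z ⬝ᵥ (injAvg κ G *ᵥ z) := by
  choose β hβ using hus_good_inv hπ
  have hβinj : Function.Injective β := by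
    intro b b' h
    have h1 : π⁻¹ (Sum.inr b) = π⁻¹ (Sum.inr b') := by rw [hβ, hβ, h]
    exact Sum.inr_injective (π⁻¹.injective h1)
  set βe : μ ↪ κ := ⟨β, hβinj⟩ with hβe
  have e1 : (Function.Embedding.inr : μ ↪ κ ⊕ μ).trans π⁻¹.toEmbedding
      = βe.trans Function.Embedding.inl := by
    ext b
    exact hβ b
  have e2 : place (io := io) (Function.Embedding.inr : μ ↪ κ ⊕ μ) G * UQ Finset.univ π
      = UQ Finset.univ π * place Function.Embedding.inl (place βe G) := by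
    have h := UQ_univ_conj_place (io := io) π⁻¹ (Function.Embedding.inr : μ ↪ κ ⊕ μ) G
    rw [inv_inv, e1, ← place_trans] at h
    rw [← h, ← Matrix.mul_assoc, ← Matrix.mul_assoc, UQ_mul_inv, Matrix.one_mul]
  rw [huX, tens, Matrix.mul_assoc, e2, ← Matrix.mul_assoc, Matrix.trace_mul_comm, ← Matrix.mul_assoc,
    ← place_mul, pureOp, Matrix.mul_vecMulVec, hus_trace_place_mul_UQ hβ, ← hus_quad_eq_injAvg hz βe]
  simp only [Matrix.vecMulVec_apply, Pi.star_apply, hus_sym_rpull hz (husRet_injective hβ)]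
  rw [dotProduct]
  exact Finset.sum_congr rfl fun a _ => mul_comm _ _

theorem hus_norm_UQ_le (Q : Finset s) (π : Equiv.Perm κ) : ‖UQ (io := io) Q π‖ ≤ 1 := by
  refine opNorm_le_of_l2n zero_le_one fun v => ?_
  rw [one_mul, l2n_isometry_mulVec _ (by rw [UQ_conjTranspose, UQ_inv_mul])]

theorem hus_place_posSemidef (ι : μ ↪ κ) {G : Matrix (RCfg io μ) (RCfg io μ) ℂ}
    (hG : G.PosSemidef) : (place ι G).PosSemidef := by
  obtain ⟨B, rfl⟩ := hs_exists_eq_conjTranspose_mul_self hG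
  rw [place_mul, ← place_conjTranspose]
  exact Matrix.posSemidef_conjTranspose_mul_self _

theorem hus_trace_pureOp {n : Type} [Fintype n] (z : n → ℂ) : (pureOp z).trace = star z ⬝ᵥ z := by
  rw [pureOp, Matrix.trace_vecMulVec, dotProduct_comm]

theorem norm_trace_perm_le {z : RCfg io κ → ℂ} (hz : star z ⬝ᵥ z = 1)
    (G : Matrix (RCfg io μ) (RCfg io μ) ℂ) (π : Equiv.Perm (κ ⊕ μ)) :
    ‖(huX z G * UQ Finset.univ π).trace‖ ≤ (dV io : ℝ) ^ Fintype.card μ * ‖G‖ := by
  rw [huX, tens, Matrix.mul_assoc, Matrix.trace_mul_comm]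
  refine (norm_trace_mul_le_of_posSemidef _
    (hus_place_posSemidef Function.Embedding.inl (pureOp_posSemidef z))).trans ?_
  rw [hus_trace_place_inl, hus_trace_pureOp, hz, mul_one, Complex.natCast_re, hus_card_rcfg, mul_comm]
  push_cast
  refine mul_le_mul_of_nonneg_left ?_ (by positivity)
  calc ‖place Function.Embedding.inr G * UQ Finset.univ π‖
      ≤ ‖place (io := io) (Function.Embedding.inr : μ ↪ κ ⊕ μ) G‖ * ‖UQ (io := io) Finset.univ π‖ :=
        Matrix.l2_opNorm_mul _ _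
    _ ≤ ‖G‖ * 1 := mul_le_mul (norm_place_le _ _) (hus_norm_UQ_le _ _) (norm_nonneg _) (norm_nonneg _)
    _ = ‖G‖ := mul_one _

theorem hus_quad_pureOp {n : Type} [Fintype n] (z v : n → ℂ) :
    star v ⬝ᵥ (pureOp z *ᵥ v) = ((‖star v ⬝ᵥ z‖ ^ 2 : ℝ) : ℂ) := by
  rw [pureOp, Matrix.vecMulVec_mulVec, op_smul_eq_smul, dotProduct_smul, smul_eq_mul]
  have h : star z ⬝ᵥ v = star (star v ⬝ᵥ z) := by
    rw [Matrix.star_dotProduct]
  rw [h, Complex.star_def, ← Complex.normSq_eq_conj_mul_self, Complex.normSq_eq_norm_sq]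

theorem trace_huX_pureOp (z : RCfg io κ → ℂ) (G : Matrix (RCfg io μ) (RCfg io μ) ℂ)
    (θ : Cfg io → ℂ) :
    (huX z G * pureOp (tpow (κ ⊕ μ) θ)).trace
      = ((‖star (tpow κ θ) ⬝ᵥ z‖ ^ 2 : ℝ) : ℂ) * symb G θ := by
  rw [pureOp, Matrix.mul_vecMulVec, Matrix.trace_vecMulVec, dotProduct_comm]
  have h := symb_tens (pureOp z) G θ
  rw [symb, symb] at h
  rw [huX, h, hus_quad_pureOp]

/-! ### the resolution of the identity on the full tensor space -/

theorem hus_conj_pureOp {m n : Type} [Fintype m] [Fintype n] (M : Matrix m n ℂ) (v : n → ℂ) :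
    M * pureOp v * Mᴴ = pureOp (M *ᵥ v) := by
  rw [pureOp, pureOp, Matrix.mul_vecMulVec, Matrix.vecMulVec_mul, star_mulVec]

theorem hus_res_fin {K : ℕ} (𝒟 : CohDesign io K) (k : ℕ) (h : k ≤ K) :
    ∑ i, (𝒟.p i : ℂ) • pureOp (tpow (Fin k) (𝒟.θ i))
      = ((dSym io (Fin k) : ℂ))⁻¹ • (symProj : Matrix (RCfg io (Fin k)) (RCfg io (Fin k)) ℂ) := by
  have h1 := congrArg (fun M => symV (io := io) (κ := Fin k) * M * (symV (io := io) (κ := Fin k))ᴴ)
    (𝒟.res k h)
  simp only [Matrix.mul_sum, Matrix.sum_mul, Matrix.mul_smul, Matrix.smul_mul, Matrix.mul_one,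
    symV_range] at h1
  rw [← h1]
  refine Finset.sum_congr rfl fun i _ => ?_
  rw [cohP, hus_conj_pureOp, cohV, symV_mulVec_cmpVec (tpow_isSymVec _)]

theorem hus_tpow_rpull (e : μ ≃ κ) (θ : Cfg io → ℂ) (c : RCfg io κ) :
    tpow μ θ (rpull e c) = tpow κ θ c := by
  unfold tpow
  exact Fintype.prod_equiv e _ _ (fun i => rfl)

theorem hus_rpull_injective (e : μ ≃ κ) : Function.Injective (rpull (io := io) e) := by
  intro c c' h
  refine rcopy_ext fun j => ?_
  have := congrArg (fun d => rcopy d (e.symm j)) h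
  simp only [hus_rcopy_rpull, Equiv.apply_symm_apply] at this
  exact this

theorem hus_rperm_rpull (e : μ ≃ κ) (π : Equiv.Perm μ) (c : RCfg io κ) :
    rperm Finset.univ π (rpull e c) = rpull e (rperm Finset.univ (e.permCongr π) c) := by
  refine rcopy_ext fun i => ?_
  rw [rcopy_rperm_univ, hus_rcopy_rpull, hus_rcopy_rpull, rcopy_rperm_univ]
  congr 1
  symm
  rw [Equiv.Perm.inv_eq_iff_eq, Equiv.permCongr_apply]
  simp

theorem hus_symProj_rpull (e : μ ≃ κ) (c c' : RCfg io κ) :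
    symProj (rpull e c) (rpull e c') = symProj c c' := by
  simp only [symProj, Matrix.smul_apply, Matrix.sum_apply, Fintype.card_congr e]
  congr 1
  refine Fintype.sum_equiv e.permCongr _ _ fun π => ?_
  simp only [UQ, Matrix.of_apply, hus_rperm_rpull, (hus_rpull_injective e).eq_iff]

theorem hus_dSym_congr (e : μ ≃ κ) : dSym io μ = dSym io κ := by
  rw [dSym, dSym, card_symIx, card_symIx, Fintype.card_congr e]

/-- the resolution of the identity on the full tensor space, for an arbitrary type of copies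
(transport `CohDesign.res` along `κ ≃ Fin (card κ)` and use `symV_range`, `cmp_pureOp`) -/
theorem CohDesign.res_full {K : ℕ} (𝒟 : CohDesign io K) (κ : Type) [Fintype κ] [DecidableEq κ]
    (h : Fintype.card κ ≤ K) :
    ∑ i, (𝒟.p i : ℂ) • pureOp (tpow κ (𝒟.θ i))
      = ((dSym io κ : ℂ))⁻¹ • (symProj : Matrix (RCfg io κ) (RCfg io κ) ℂ) := by
  set e : Fin (Fintype.card κ) ≃ κ := (Fintype.equivFin κ).symm with he
  ext c c'
  have h1 := congrFun (congrFun (hus_res_fin 𝒟 (Fintype.card κ) h) (rpull e c)) (rpull e c')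
  simp only [Matrix.sum_apply, Matrix.smul_apply, pureOp, Matrix.vecMulVec_apply, Pi.star_apply,
    hus_tpow_rpull, hus_symProj_rpull, hus_dSym_congr e] at h1 ⊢
  exact h1

/-- (replicas:finite-husimi) -/
theorem husimi_identity {K : ℕ} (𝒟 : CohDesign io K)
    (h : Fintype.card κ + Fintype.card μ ≤ K) (z : RCfg io κ → ℂ)
    (G : Matrix (RCfg io μ) (RCfg io μ) ℂ) :
    ∑ i, ((dSym io κ * 𝒟.p i : ℝ) : ℂ) *
        (((‖star (tpow κ (𝒟.θ i)) ⬝ᵥ z‖ ^ 2 : ℝ) : ℂ) * symb G (𝒟.θ i))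
      = ((dSym io κ : ℂ) / (dSym io (κ ⊕ μ) : ℂ)) * (huX z G * symProj).trace := by
  have h1 := 𝒟.res_full (κ ⊕ μ) (by rw [Fintype.card_sum]; exact h)
  have h2 := congrArg (fun M => (huX z G * M).trace) h1
  simp only [Matrix.mul_sum, Matrix.mul_smul, Matrix.trace_sum, Matrix.trace_smul,
    trace_huX_pureOp, smul_eq_mul] at h2
  rw [div_eq_mul_inv, mul_assoc, ← h2, Finset.mul_sum]
  refine Finset.sum_congr rfl fun i _ => ?_
  push_cast
  ring

/-! ### counting -/

theorem hus_card_perm_apply_eq {α : Type} [Fintype α] [DecidableEq α] (x y : α) :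
    (Finset.univ.filter fun π : Equiv.Perm α => π x = y).card * Fintype.card α
      = (Fintype.card α).factorial := by
  have h1 : (Finset.univ : Finset (Equiv.Perm α)).card =
      ∑ y' ∈ (Finset.univ : Finset α), (Finset.univ.filter fun π : Equiv.Perm α => π x = y').card :=
    Finset.card_eq_sum_card_fiberwise (fun π _ => Finset.mem_univ _)
  have h2 : ∀ y' ∈ (Finset.univ : Finset α),
      (Finset.univ.filter fun π : Equiv.Perm α => π x = y').card
        = (Finset.univ.filter fun π : Equiv.Perm α => π x = y).card := by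
    intro y' _
    refine Finset.card_bij (fun π _ => Equiv.swap y y' * π) ?_ ?_ ?_
    · intro π hπ
      simp only [Finset.mem_filter, Finset.mem_univ, true_and] at hπ ⊢
      rw [Equiv.Perm.mul_apply, hπ, Equiv.swap_apply_right]
    · intro π _ π' _ h
      exact mul_left_cancel h
    · intro π hπ
      simp only [Finset.mem_filter, Finset.mem_univ, true_and] at hπ
      refine ⟨Equiv.swap y y' * π, ?_, ?_⟩
      · simp only [Finset.mem_filter, Finset.mem_univ, true_and]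
        rw [Equiv.Perm.mul_apply, hπ, Equiv.swap_apply_left]
      · rw [← mul_assoc, Equiv.swap_mul_self, one_mul]
  rw [Finset.sum_congr rfl h2, Finset.sum_const, Finset.card_univ, Finset.card_univ,
    Fintype.card_perm, smul_eq_mul, mul_comm] at h1
  exact h1.symm

open Classical in
/-- union bound for the permutations which are not good -/
theorem hus_card_bad_perm_le :
    (Finset.univ.filter fun π : Equiv.Perm (κ ⊕ μ) => ¬ GoodPerm π).card
        * (Fintype.card κ + Fintype.card μ)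
      ≤ Fintype.card μ ^ 2 * (Fintype.card κ + Fintype.card μ).factorial := by
  have hsub : (Finset.univ.filter fun π : Equiv.Perm (κ ⊕ μ) => ¬ GoodPerm π) ⊆
      (Finset.univ : Finset (μ × μ)).biUnion fun p =>
        Finset.univ.filter fun π : Equiv.Perm (κ ⊕ μ) => π (Sum.inr p.1) = Sum.inr p.2 := by
    intro π hπ
    simp only [Finset.mem_filter, Finset.mem_univ, true_and, GoodPerm, not_forall, not_exists] at hπ
    obtain ⟨b, hb⟩ := hπ
    simp only [Finset.mem_biUnion, Finset.mem_univ, true_and, Finset.mem_filter]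
    rcases h : π (Sum.inr b) with a | b'
    · exact absurd h (hb a)
    · exact ⟨(b, b'), h⟩
  have h1 := (Finset.card_le_card hsub).trans Finset.card_biUnion_le
  calc _ ≤ (∑ p : μ × μ, (Finset.univ.filter fun π : Equiv.Perm (κ ⊕ μ) =>
        π (Sum.inr p.1) = Sum.inr p.2).card) * (Fintype.card κ + Fintype.card μ) :=
        Nat.mul_le_mul_right _ h1
    _ = ∑ p : μ × μ, (Fintype.card κ + Fintype.card μ).factorial := by
        rw [Finset.sum_mul]
        refine Finset.sum_congr rfl fun p _ => ?_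
        have := hus_card_perm_apply_eq (α := κ ⊕ μ) (Sum.inr p.1) (Sum.inr p.2)
        rw [Fintype.card_sum] at this
        convert this
    _ = _ := by
        rw [Finset.sum_const, Finset.card_univ, Fintype.card_prod, smul_eq_mul, sq]

theorem hus_choose_ratio (d' k : ℕ) (hk : 0 < k) (m : ℕ) :
    1 - (m * ((d' + 1 : ℕ) : ℝ)) / k ≤ ((d' + k).choose k : ℝ) / ((d' + (k + m)).choose (k + m)) ∧
      ((d' + k).choose k : ℝ) / ((d' + (k + m)).choose (k + m)) ≤ 1 := by
  have hk' : (0 : ℝ) < k := by exact_mod_cast hk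
  have hpos : ∀ n : ℕ, (0 : ℝ) < ((d' + n).choose n : ℝ) := fun n => by
    exact_mod_cast Nat.choose_pos (Nat.le_add_left n d')
  induction m with
  | zero =>
    simp only [Nat.cast_zero, zero_mul, zero_div, sub_zero, add_zero]
    rw [div_self (hpos k).ne']
    exact ⟨le_rfl, le_rfl⟩
  | succ m ih =>
    obtain ⟨ih1, ih2⟩ := ih
    set A := ((d' + k).choose k : ℝ) with hA
    set B := ((d' + (k + m)).choose (k + m) : ℝ) with hB
    set C := ((d' + (k + (m + 1))).choose (k + (m + 1)) : ℝ) with hC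
    have hA0 : 0 < A := hpos k
    have hB0 : 0 < B := hpos (k + m)
    have hC0 : 0 < C := hpos (k + (m + 1))
    have hrec : ((d' + (k + m) + 1 : ℕ) : ℝ) * B = C * ((k + m + 1 : ℕ) : ℝ) := by
      have := Nat.add_one_mul_choose_eq (d' + (k + m)) (k + m)
      rw [hB, hC]
      exact_mod_cast this
    set N1 : ℝ := ((d' + (k + m) + 1 : ℕ) : ℝ) with hN1
    set N2 : ℝ := ((k + m + 1 : ℕ) : ℝ) with hN2
    have hN1pos : 0 < N1 := by rw [hN1]; positivity
    have hN2pos : 0 < N2 := by rw [hN2]; positivity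
    have hq : B / C = N2 / N1 := by
      rw [div_eq_div_iff hC0.ne' hN1pos.ne']
      linarith
    have hAC : A / C = (A / B) * (N2 / N1) := by
      rw [← hq]; field_simp
    have hq1 : N2 / N1 ≤ 1 := by
      rw [div_le_one hN1pos, hN1, hN2]
      exact_mod_cast (by omega : k + m + 1 ≤ d' + (k + m) + 1)
    have hq0 : 0 ≤ N2 / N1 := by positivity
    have hq2 : 1 - ((d' + 1 : ℕ) : ℝ) / k ≤ N2 / N1 := by
      rw [sub_le_iff_le_add, ← sub_le_iff_le_add', one_sub_div hN1pos.ne',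
        div_le_div_iff₀ hN1pos hk']
      have e1 : N1 - N2 = (d' : ℝ) := by rw [hN1, hN2]; push_cast; ring
      rw [e1, hN1]
      push_cast
      have : (0 : ℝ) ≤ d' := by positivity
      have : (0 : ℝ) ≤ m := by positivity
      nlinarith
    have hr0 : 0 ≤ A / B := by positivity
    rw [hAC]
    refine ⟨?_, ?_⟩
    · have e2 : ((m + 1 : ℕ) : ℝ) * ((d' + 1 : ℕ) : ℝ) / k
          = (m * ((d' + 1 : ℕ) : ℝ)) / k + ((d' + 1 : ℕ) : ℝ) / k := by
        push_cast; ring
      rw [e2]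
      nlinarith
    · nlinarith

theorem dSym_ratio (io : s → Type) [∀ x, Fintype (io x)] [∀ x, DecidableEq (io x)]
    [∀ x, Nonempty (io x)] (κ μ : Type) [Fintype κ] [Fintype μ] (hk : 0 < Fintype.card κ) :
    1 - (Fintype.card μ * dV io : ℝ) / Fintype.card κ ≤ (dSym io κ : ℝ) / dSym io (κ ⊕ μ) ∧
      (dSym io κ : ℝ) / dSym io (κ ⊕ μ) ≤ 1 := by
  have h1 : 0 < dV io := Fintype.card_pos
  obtain ⟨d', hd'⟩ : ∃ d', dV io = d' + 1 := ⟨dV io - 1, by omega⟩
  have e1 : dSym io κ = (d' + Fintype.card κ).choose (Fintype.card κ) := by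
    classical
    rw [dSym, card_symIx]
    have : Fintype.card (Cfg io) = d' + 1 := hd'
    rw [this]
    congr 1
    omega
  have e2 : dSym io (κ ⊕ μ)
      = (d' + (Fintype.card κ + Fintype.card μ)).choose (Fintype.card κ + Fintype.card μ) := by
    classical
    rw [dSym, card_symIx, Fintype.card_sum]
    have : Fintype.card (Cfg io) = d' + 1 := hd'
    rw [this]
    congr 1
    omega
  rw [e1, e2, hd']
  exact hus_choose_ratio d' _ hk _

theorem hus_final_scalar {g Dm R δ k m d tn En : ℝ} (hg : 0 ≤ g) (hDm : 0 ≤ Dm) (hR0 : 0 ≤ R)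
    (hR1 : R ≤ 1) (hR2 : 1 - m * d / k ≤ R) (hδ0 : 0 ≤ δ) (hδ : δ ≤ m ^ 2 / k) (hk : 0 < k)
    (hm : 0 ≤ m) (hd : 0 ≤ d) (htn : tn ≤ g) (hEn : En ≤ δ * (Dm * g)) :
    tn * (1 - R * (1 - δ)) + R * En ≤ (m * d + 2 * m ^ 2) * (1 + Dm) * g / k := by
  have hX0 : 0 ≤ 1 - R * (1 - δ) := by nlinarith [mul_nonneg hR0 hδ0]
  have hX1 : 1 - R * (1 - δ) ≤ m * d / k + m ^ 2 / k := by nlinarith [mul_nonneg (sub_nonneg.2 hR1) hδ0]
  have h1 : tn * (1 - R * (1 - δ)) ≤ g * (m * d / k + m ^ 2 / k) :=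
    (mul_le_mul_of_nonneg_right htn hX0).trans (mul_le_mul_of_nonneg_left hX1 hg)
  have hDg : 0 ≤ Dm * g := mul_nonneg hDm hg
  have h2 : R * En ≤ m ^ 2 / k * (Dm * g) := by
    calc R * En ≤ R * (δ * (Dm * g)) := mul_le_mul_of_nonneg_left hEn hR0
      _ ≤ 1 * (δ * (Dm * g)) := mul_le_mul_of_nonneg_right hR1 (mul_nonneg hδ0 hDg)
      _ ≤ 1 * (m ^ 2 / k * (Dm * g)) := by gcongr
      _ = _ := one_mul _
  have h3 : g * (m * d / k + m ^ 2 / k) + m ^ 2 / k * (Dm * g)
      = (m * d + m ^ 2 + m ^ 2 * Dm) * g / k := by field_simp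
  have h4 : (m * d + m ^ 2 + m ^ 2 * Dm) * g / k ≤ (m * d + 2 * m ^ 2) * (1 + Dm) * g / k := by
    have : m * d + m ^ 2 + m ^ 2 * Dm ≤ (m * d + 2 * m ^ 2) * (1 + Dm) := by
      have h5 : 0 ≤ m * d * Dm := by positivity
      have h6 : 0 ≤ m ^ 2 * Dm := by positivity
      have h7 : 0 ≤ m ^ 2 := by positivity
      nlinarith
    gcongr
  linarith

theorem hus_norm_quad_le {n : Type} [Fintype n] [DecidableEq n] (A : Matrix n n ℂ) {z : n → ℂ}
    (hz : star z ⬝ᵥ z = 1) : ‖star z ⬝ᵥ (A *ᵥ z)‖ ≤ ‖A‖ := by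
  have h1 : l2n z = 1 := (l2n_eq_one_iff z).2 hz
  calc ‖star z ⬝ᵥ (A *ᵥ z)‖ ≤ l2n z * l2n (A *ᵥ z) := norm_dotProduct_le _ _
    _ ≤ 1 * (‖A‖ * 1) := by
        rw [h1]
        exact mul_le_mul_of_nonneg_left (by simpa [h1] using l2n_mulVec_le A z) zero_le_one
    _ = ‖A‖ := by ring

/-- (replicas:uniform-husimi) for pure symmetric states -/
theorem husimi_pure [∀ x, Nonempty (io x)] {K : ℕ} (𝒟 : CohDesign io K)
    (h : Fintype.card κ + Fintype.card μ ≤ K) (hk : 0 < Fintype.card κ)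
    {z : RCfg io κ → ℂ} (hz : IsSymVec z) (h1 : star z ⬝ᵥ z = 1)
    (G : Matrix (RCfg io μ) (RCfg io μ) ℂ) :
    ‖star z ⬝ᵥ (injAvg κ G *ᵥ z) - ∑ i, ((dSym io κ * 𝒟.p i : ℝ) : ℂ) *
        (((‖star (tpow κ (𝒟.θ i)) ⬝ᵥ z‖ ^ 2 : ℝ) : ℂ) * symb G (𝒟.θ i))‖
      ≤ (Fintype.card μ * dV io + 2 * (Fintype.card μ : ℝ) ^ 2) *
          (1 + (dV io : ℝ) ^ Fintype.card μ) * ‖G‖ / Fintype.card κ := by
  classical
  rw [husimi_identity 𝒟 h z G]
  set t := star z ⬝ᵥ (injAvg κ G *ᵥ z) with ht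
  obtain ⟨hR2, hR1⟩ := dSym_ratio io κ μ hk
  set R : ℝ := (dSym io κ : ℝ) / dSym io (κ ⊕ μ) with hR
  have hR0 : 0 ≤ R := by positivity
  have hRc : ((dSym io κ : ℂ) / (dSym io (κ ⊕ μ) : ℂ)) = (R : ℂ) := by
    rw [hR]; push_cast; rfl
  set F : ℝ := ((Fintype.card κ + Fintype.card μ).factorial : ℝ) with hF
  have hF0 : 0 < F := by rw [hF]; positivity
  set good := Finset.univ.filter fun π : Equiv.Perm (κ ⊕ μ) => GoodPerm π with hgood
  set bad := Finset.univ.filter fun π : Equiv.Perm (κ ⊕ μ) => ¬ GoodPerm π with hbad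
  set E := ∑ π ∈ bad, (huX z G * UQ Finset.univ π).trace with hE
  have hsum : ∑ π : Equiv.Perm (κ ⊕ μ), (huX z G * UQ Finset.univ π).trace
      = (good.card : ℂ) * t + E := by
    rw [← Finset.sum_filter_add_sum_filter_not Finset.univ (fun π : Equiv.Perm (κ ⊕ μ) => GoodPerm π)]
    congr 1
    rw [Finset.sum_congr rfl fun π hπ => trace_good_perm hz G (Finset.mem_filter.1 hπ).2,
      Finset.sum_const, nsmul_eq_mul]
  have hS : (huX z G * symProj).trace = ((F : ℂ))⁻¹ * ((good.card : ℂ) * t + E) := by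
    rw [symProj, Matrix.mul_smul, Matrix.trace_smul, Matrix.mul_sum, Matrix.trace_sum, smul_eq_mul,
      hsum, Fintype.card_sum, hF]
    push_cast
    rfl
  have hcard : (good.card : ℝ) + bad.card = F := by
    have := Finset.card_filter_add_card_filter_not (s := (Finset.univ : Finset (Equiv.Perm (κ ⊕ μ))))
      (fun π => GoodPerm π)
    rw [Finset.card_univ, Fintype.card_perm, Fintype.card_sum] at this
    rw [hF]
    exact_mod_cast this
  set δ : ℝ := bad.card / F with hδ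
  have hδ0 : 0 ≤ δ := by positivity
  have hk' : (0 : ℝ) < Fintype.card κ := by exact_mod_cast hk
  have hδ1 : δ ≤ (Fintype.card μ : ℝ) ^ 2 / Fintype.card κ := by
    have h2 : (bad.card : ℝ) * ((Fintype.card κ : ℝ) + Fintype.card μ)
        ≤ (Fintype.card μ : ℝ) ^ 2 * F := by
      rw [hF]
      exact_mod_cast hus_card_bad_perm_le (κ := κ) (μ := μ)
    rw [hδ, div_le_div_iff₀ hF0 hk']
    have h3 : (bad.card : ℝ) * Fintype.card κ
        ≤ (bad.card : ℝ) * ((Fintype.card κ : ℝ) + Fintype.card μ) := by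
      have : (0 : ℝ) ≤ Fintype.card μ := by positivity
      gcongr
      linarith
    linarith
  have hgoodF : (good.card : ℝ) / F = 1 - δ := by
    rw [hδ, eq_sub_iff_add_eq, ← add_div, hcard, div_self hF0.ne']
  have hEn : ‖E‖ / F ≤ δ * ((dV io : ℝ) ^ Fintype.card μ * ‖G‖) := by
    have : ‖E‖ ≤ bad.card * ((dV io : ℝ) ^ Fintype.card μ * ‖G‖) := by
      rw [hE]
      refine (norm_sum_le _ _).trans ?_
      rw [← nsmul_eq_mul]
      exact Finset.sum_le_card_nsmul _ _ _ fun π _ => norm_trace_perm_le h1 G π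
    rw [hδ, div_mul_eq_mul_div]
    gcongr
  have htn : ‖t‖ ≤ ‖G‖ := (hus_norm_quad_le _ h1).trans (norm_injAvg_le G)
  have hFc : (F : ℂ) ≠ 0 := by exact_mod_cast hF0.ne'
  have e1 : t - (R : ℂ) * (((F : ℂ))⁻¹ * ((good.card : ℂ) * t + E))
      = t * ((1 - R * (1 - δ) : ℝ) : ℂ) - (R : ℂ) * (E / F) := by
    rw [← hgoodF]
    push_cast
    field_simp
    ring
  rw [hRc, hS, e1]
  have hX0 : 0 ≤ 1 - R * (1 - δ) := by nlinarith [mul_nonneg hR0 hδ0]
  calc ‖t * ((1 - R * (1 - δ) : ℝ) : ℂ) - (R : ℂ) * (E / F)‖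
      ≤ ‖t * ((1 - R * (1 - δ) : ℝ) : ℂ)‖ + ‖(R : ℂ) * (E / F)‖ := norm_sub_le _ _
    _ = ‖t‖ * (1 - R * (1 - δ)) + R * (‖E‖ / F) := by
        rw [norm_mul, norm_mul, norm_div, Complex.norm_real, Complex.norm_real, Complex.norm_real,
          Real.norm_of_nonneg hX0, Real.norm_of_nonneg hR0, Real.norm_of_nonneg hF0.le]
    _ ≤ _ := hus_final_scalar (norm_nonneg _) (by positivity) hR0 hR1 hR2 hδ0 hδ1 hk'
        (by positivity) (by positivity) htn hEn

/-! ### the numerical radius -/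

section NumRad

variable {n : Type} [Fintype n] [DecidableEq n]

theorem hus_quad_expand (T : Matrix n n ℂ) (x y : n → ℂ) (c : ℂ) :
    star (x + c • y) ⬝ᵥ (T *ᵥ (x + c • y))
      = star x ⬝ᵥ (T *ᵥ x) + c * (star x ⬝ᵥ (T *ᵥ y)) + star c * (star y ⬝ᵥ (T *ᵥ x))
        + star c * c * (star y ⬝ᵥ (T *ᵥ y)) := by
  simp only [star_add, star_smul, Matrix.mulVec_add, Matrix.mulVec_smul, add_dotProduct,
    dotProduct_add, smul_dotProduct, dotProduct_smul, smul_eq_mul]
  ring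

theorem hus_quad_le (T : Matrix n n ℂ) {r : ℝ}
    (h : ∀ x : n → ℂ, star x ⬝ᵥ x = 1 → ‖star x ⬝ᵥ (T *ᵥ x)‖ ≤ r) (w : n → ℂ) :
    ‖star w ⬝ᵥ (T *ᵥ w)‖ ≤ r * l2n w ^ 2 := by
  by_cases hw : l2n w = 0
  · have hw0 : w = 0 := by
      have h2 := l2n_sq w
      rw [hw] at h2
      funext i
      have h3 : ∑ i, ‖w i‖ ^ 2 = 0 := by rw [← h2]; norm_num
      have h4 := (Finset.sum_eq_zero_iff_of_nonneg (fun i _ => by positivity)).1 h3 i
        (Finset.mem_univ i)
      simpa using h4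
    rw [hw0]
    simp [l2n_zero]
  · have hpos : 0 < l2n w := lt_of_le_of_ne (l2n_nonneg w) (Ne.symm hw)
    set a : ℂ := ((l2n w : ℝ) : ℂ) with ha
    have ha0 : a ≠ 0 := by rw [ha]; exact_mod_cast hw
    set u : n → ℂ := a⁻¹ • w with hu
    have hwu : w = a • u := by rw [hu, smul_smul, mul_inv_cancel₀ ha0, one_smul]
    have hu1 : star u ⬝ᵥ u = 1 := by
      rw [← l2n_eq_one_iff, hu, l2n_smul, norm_inv, ha, Complex.norm_real,
        Real.norm_of_nonneg hpos.le, inv_mul_cancel₀ hw]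
    have e : star w ⬝ᵥ (T *ᵥ w) = (a * a) * (star u ⬝ᵥ (T *ᵥ u)) := by
      conv_lhs => rw [hwu]
      rw [star_smul, Matrix.mulVec_smul, smul_dotProduct, dotProduct_smul, smul_eq_mul, smul_eq_mul,
        ha, Complex.star_def, Complex.conj_ofReal]
      ring
    rw [e, norm_mul, norm_mul, ha, Complex.norm_real, Real.norm_of_nonneg hpos.le, mul_comm, sq]
    exact mul_le_mul_of_nonneg_right (h u hu1) (by positivity)

theorem hus_l2n_sq_expand (x y : n → ℂ) (c : ℂ) :
    l2n (x + c • y) ^ 2 = l2n x ^ 2 + (c * (star x ⬝ᵥ y)).re + (star c * (star y ⬝ᵥ x)).re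
      + (star c * c).re * l2n y ^ 2 := by
  have h := hus_quad_expand (1 : Matrix n n ℂ) x y c
  simp only [Matrix.one_mulVec] at h
  rw [l2n_sq_eq_re, h, l2n_sq_eq_re, l2n_sq_eq_re]
  have h2 : (star c * c * (star y ⬝ᵥ y)).re = (star c * c).re * (star y ⬝ᵥ y).re := by
    rw [Complex.mul_re]
    have : (star c * c).im = 0 := by
      rw [Complex.star_def, ← Complex.normSq_eq_conj_mul_self]
      simp
    rw [this, zero_mul, sub_zero]
  simp only [Complex.add_re, h2]

/-- polarisation -/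
theorem hus_polar_le (T : Matrix n n ℂ) {r : ℝ}
    (h : ∀ x : n → ℂ, star x ⬝ᵥ x = 1 → ‖star x ⬝ᵥ (T *ᵥ x)‖ ≤ r) (x y : n → ℂ) :
    ‖star y ⬝ᵥ (T *ᵥ x)‖ ≤ r * (l2n x ^ 2 + l2n y ^ 2) := by
  have e : 4 * (star y ⬝ᵥ (T *ᵥ x))
      = star (x + (1 : ℂ) • y) ⬝ᵥ (T *ᵥ (x + (1 : ℂ) • y))
        - star (x + (-1 : ℂ) • y) ⬝ᵥ (T *ᵥ (x + (-1 : ℂ) • y))
        + Complex.I * (star (x + Complex.I • y) ⬝ᵥ (T *ᵥ (x + Complex.I • y)))
        - Complex.I * (star (x + (-Complex.I) • y) ⬝ᵥ (T *ᵥ (x + (-Complex.I) • y))) := by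
    simp only [hus_quad_expand, star_one, star_neg, Complex.star_def, Complex.conj_I]
    ring_nf
    simp only [Complex.I_sq]
    ring
  have hs : l2n (x + (1 : ℂ) • y) ^ 2 + l2n (x + (-1 : ℂ) • y) ^ 2 + l2n (x + Complex.I • y) ^ 2
      + l2n (x + (-Complex.I) • y) ^ 2 = 4 * (l2n x ^ 2 + l2n y ^ 2) := by
    simp only [hus_l2n_sq_expand, star_one, star_neg, Complex.star_def, Complex.conj_I]
    simp only [one_mul, neg_mul, Complex.neg_re, mul_neg, neg_neg, Complex.I_mul_I, Complex.one_re]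
    ring
  have h4 : ‖4 * (star y ⬝ᵥ (T *ᵥ x))‖ ≤ r * (4 * (l2n x ^ 2 + l2n y ^ 2)) := by
    rw [e, ← hs]
    refine (norm_sub_le _ _).trans ?_
    refine (add_le_add (norm_add_le _ _) le_rfl).trans ?_
    refine (add_le_add (add_le_add (norm_sub_le _ _) le_rfl) le_rfl).trans ?_
    rw [norm_mul, norm_mul, Complex.norm_I, one_mul, one_mul]
    have := hus_quad_le T h (x + (1 : ℂ) • y)
    have := hus_quad_le T h (x + (-1 : ℂ) • y)
    have := hus_quad_le T h (x + Complex.I • y)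
    have := hus_quad_le T h (x + (-Complex.I) • y)
    linarith
  rw [norm_mul] at h4
  have : ‖(4 : ℂ)‖ = 4 := by simp
  rw [this] at h4
  linarith

/-- `‖T‖ ≤ 2 sup |⟨x, T x⟩|` -/
theorem norm_le_two_numerical_radius (T : Matrix n n ℂ)
    (r : ℝ) (hr : 0 ≤ r) (h : ∀ x : n → ℂ, star x ⬝ᵥ x = 1 → ‖star x ⬝ᵥ (T *ᵥ x)‖ ≤ r) :
    ‖T‖ ≤ 2 * r := by
  refine opNorm_le_of_l2n (by positivity) fun v => ?_
  set a := l2n v with ha
  set b := l2n (T *ᵥ v) with hb
  have ha0 : 0 ≤ a := l2n_nonneg _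
  have hb0 : 0 ≤ b := l2n_nonneg _
  by_cases hb' : b = 0
  · rw [hb']; positivity
  by_cases ha' : a = 0
  · -- `v = 0`
    have : b ≤ ‖T‖ * a := l2n_mulVec_le T v
    rw [ha', mul_zero] at this
    exact absurd (le_antisymm this hb0) hb'
  have hapos : 0 < a := lt_of_le_of_ne ha0 (Ne.symm ha')
  have hbpos : 0 < b := lt_of_le_of_ne hb0 (Ne.symm hb')
  -- apply the polarised bound to `x = v / a`, `y = T v / b`
  have key := hus_polar_le T h (((a : ℂ))⁻¹ • v) (((b : ℂ))⁻¹ • (T *ᵥ v))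
  have e1 : l2n (((a : ℂ))⁻¹ • v) = 1 := by
    rw [l2n_smul, norm_inv, Complex.norm_real, Real.norm_of_nonneg ha0, ← ha, inv_mul_cancel₀ ha']
  have e2 : l2n (((b : ℂ))⁻¹ • (T *ᵥ v)) = 1 := by
    rw [l2n_smul, norm_inv, Complex.norm_real, Real.norm_of_nonneg hb0, ← hb, inv_mul_cancel₀ hb']
  have e3 : star (((b : ℂ))⁻¹ • (T *ᵥ v)) ⬝ᵥ (T *ᵥ (((a : ℂ))⁻¹ • v)) = ((b / a : ℝ) : ℂ) := by
    rw [star_smul, Matrix.mulVec_smul, smul_dotProduct, dotProduct_smul, smul_eq_mul, smul_eq_mul,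
      ← l2n_sq_eq_dotProduct, ← hb, star_inv₀, Complex.star_def, Complex.conj_ofReal]
    have hbc : (b : ℂ) ≠ 0 := by exact_mod_cast hb'
    have hac : (a : ℂ) ≠ 0 := by exact_mod_cast ha'
    push_cast
    field_simp
  rw [e1, e2, e3, Complex.norm_real, Real.norm_of_nonneg (by positivity), div_le_iff₀ hapos] at key
  linarith

end NumRad

/-- the anti-Wick quantisation of a complex function on the design -/
noncomputable def CohDesign.Qc {K : ℕ} (𝒟 : CohDesign io K) (k : ℕ) (f : Fin 𝒟.N → ℂ) :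
    Matrix (SymIx io (Fin k)) (SymIx io (Fin k)) ℂ :=
  ∑ i, f i • 𝒟.P k i

/-- **(replicas:uniform-husimi)**, operator norm form -/
theorem husimi_norm [∀ x, Nonempty (io x)] {K : ℕ} (𝒟 : CohDesign io K) {k : ℕ}
    (h : k + Fintype.card μ ≤ K) (hk : 0 < k) (G : Matrix (RCfg io μ) (RCfg io μ) ℂ) :
    ‖cmp (injAvg (Fin k) G) - 𝒟.Qc k fun i => symb G (𝒟.θ i)‖
      ≤ 2 * ((Fintype.card μ * dV io + 2 * (Fintype.card μ : ℝ) ^ 2) *
          (1 + (dV io : ℝ) ^ Fintype.card μ) * ‖G‖ / k) := by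
  refine norm_le_two_numerical_radius _ _ (by positivity) fun x hx => ?_
  set z : RCfg io (Fin k) → ℂ := symV *ᵥ x with hz
  have hzs : IsSymVec z := isSymVec_symV_mulVec x
  have hx' : cmpVec z = x := cmpVec_symV_mulVec x
  have hz1 : star z ⬝ᵥ z = 1 := by
    rw [← cmpVec_dotProduct hzs, hx', hx]
  have key := husimi_pure (κ := Fin k) 𝒟 (by rw [Fintype.card_fin]; exact h)
    (by rw [Fintype.card_fin]; exact hk) hzs hz1 G
  rw [Fintype.card_fin] at key
  refine le_trans (le_of_eq ?_) key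
  congr 1
  rw [Matrix.sub_mulVec, dotProduct_sub, cmp_quadratic_form, CohDesign.Qc, Matrix.sum_mulVec,
    dotProduct_sum]
  congr 1
  refine Finset.sum_congr rfl fun i _ => ?_
  rw [CohDesign.P, smul_smul, Matrix.smul_mulVec, dotProduct_smul, cohP, hus_quad_pureOp, smul_eq_mul]
  have e : star x ⬝ᵥ cohV (Fin k) (𝒟.θ i) = star z ⬝ᵥ tpow (Fin k) (𝒟.θ i) := by
    rw [cohV, ← cmpVec_dotProduct hzs, hx']
  have e2 : ‖star z ⬝ᵥ tpow (Fin k) (𝒟.θ i)‖ = ‖star (tpow (Fin k) (𝒟.θ i)) ⬝ᵥ z‖ := by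
    rw [← norm_star, Matrix.star_dotProduct, star_star]
  rw [e, e2]
  ring

/-- expectation of the anti-Wick quantisation -/
theorem trace_mul_Qc {K : ℕ} (𝒟 : CohDesign io K) (k : ℕ)
    (σ : Matrix (SymIx io (Fin k)) (SymIx io (Fin k)) ℂ) (hσ : σ.PosSemidef)
    (f : Fin 𝒟.N → ℂ) : (σ * 𝒟.Qc k f).trace = ∑ i, (𝒟.w k σ i : ℂ) * f i := by
  rw [CohDesign.Qc, Matrix.mul_sum, Matrix.trace_sum]
  refine Finset.sum_congr rfl fun i _ => ?_
  rw [Matrix.mul_smul, Matrix.trace_smul, smul_eq_mul, mul_comm, CohDesign.rpd_w_eq]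
  congr 1
  have h0 : 0 ≤ (σ * 𝒟.P k i).trace := trace_mul_posSemidef_nonneg hσ (𝒟.P_posSemidef k i)
  have him : (σ * 𝒟.P k i).trace.im = 0 := (Complex.le_def.1 h0).2.symm
  apply Complex.ext
  · simp
  · simp [him]

/-- `|Tr σ T| ≤ ‖T‖` for a density matrix -/
theorem norm_trace_density_mul_le {n : Type} [Fintype n] [DecidableEq n] {σ : Matrix n n ℂ}
    (hσ : IsDensity σ) (T : Matrix n n ℂ) : ‖(σ * T).trace‖ ≤ ‖T‖ := by
  rw [Matrix.trace_mul_comm]
  refine (norm_trace_mul_le_of_posSemidef T hσ.1).trans ?_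
  rw [hσ.2]
  simp

end Claimed.Agent.R296
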