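import Claimed.Agent.R296.Replica.Design

/-!
# Row 296, P1 Section 5, proof of `lem:symbol`: injection averages and the coherent weights

Architect: helper197.  Proofs: helper142.  Two packages: RP-I1 (sections `Place`, `Avg`: placements, injection averages,
product rule replicas:injection-product) and RP-I2 (section `Husimi`: replicas:finite-husimi,
replicas:uniform-husimi in DESIGN form); this file is RP-I1, `Husimi.lean` is RP-I2.

* `place ι G`  : an operator `G` on the copies `μ`, placed on the copies `ι(μ) ⊆ κ`;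
* `injAvg κ G` : `𝒯_{k,m}(G)`, the average of `place ι G` over all injections `ι : μ ↪ κ`;
* `symb G θ`   : `⟨θ^{⊗μ}, G θ^{⊗μ}⟩`;
* `tens G H`   : `G ⊗ H` on the copies `μ ⊕ ν`.
KEY FACT `cmp_place`: the compression of `place ι G` to `Sym^κ` does not depend on `ι`.
-/

set_option autoImplicit false
set_option linter.unusedSectionVars false

namespace Claimed.Agent.R296

open Matrix
open scoped ComplexOrder MatrixOrder Matrix.Norms.L2Operator

variable {s : Type} [DecidableEq s] [Fintype s] {io : s → Type}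
  [∀ x, Fintype (io x)] [∀ x, DecidableEq (io x)]
  {κ : Type} [Fintype κ] [DecidableEq κ] {μ : Type} [Fintype μ] [DecidableEq μ]
  {ν : Type} [Fintype ν] [DecidableEq ν]

/-! ### Kronecker products reindexed along an equivalence -/

section Kron

open scoped Kronecker

variable {α β γ : Type} [Fintype α] [Fintype β] [Fintype γ] [DecidableEq α] [DecidableEq β]
  [DecidableEq γ]

/-- `G ⊗ H` in the coordinates `e : γ ≃ α × β` -/
def injK (e : γ ≃ α × β) (G : Matrix α α ℂ) (H : Matrix β β ℂ) : Matrix γ γ ℂ :=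
  (G ⊗ₖ H).submatrix e e

theorem injK_apply (e : γ ≃ α × β) (G : Matrix α α ℂ) (H : Matrix β β ℂ) (c c' : γ) :
    injK e G H c c' = G (e c).1 (e c').1 * H (e c).2 (e c').2 := rfl

theorem injK_one (e : γ ≃ α × β) : injK e (1 : Matrix α α ℂ) (1 : Matrix β β ℂ) = 1 := by
  rw [injK, kroneckerMap_one_one _ (fun _ => zero_mul _) (fun _ => mul_zero _) (one_mul _),
    submatrix_one_equiv]

theorem injK_mul (e : γ ≃ α × β) (G G' : Matrix α α ℂ) (H H' : Matrix β β ℂ) :
    injK e (G * G') (H * H') = injK e G H * injK e G' H' := by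
  rw [injK, injK, injK, mul_kronecker_mul, submatrix_mul_equiv]

theorem injK_add_left (e : γ ≃ α × β) (G G' : Matrix α α ℂ) (H : Matrix β β ℂ) :
    injK e (G + G') H = injK e G H + injK e G' H := by
  rw [injK, injK, injK, add_kronecker, submatrix_add]
  rfl

theorem injK_smul_left (e : γ ≃ α × β) (a : ℂ) (G : Matrix α α ℂ) (H : Matrix β β ℂ) :
    injK e (a • G) H = a • injK e G H := by
  rw [injK, injK, smul_kronecker, submatrix_smul]
  rfl

theorem injK_conjTranspose (e : γ ≃ α × β) (G : Matrix α α ℂ) (H : Matrix β β ℂ) :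
    (injK e G H)ᴴ = injK e Gᴴ Hᴴ := by
  rw [injK, injK, conjTranspose_submatrix, conjTranspose_kronecker]

/-- product vector in the coordinates `e` -/
def injV (e : γ ≃ α × β) (u : α → ℂ) (w : β → ℂ) : γ → ℂ := fun c => u (e c).1 * w (e c).2

theorem injK_mulVec (e : γ ≃ α × β) (G : Matrix α α ℂ) (H : Matrix β β ℂ) (u : α → ℂ)
    (w : β → ℂ) : injK e G H *ᵥ injV e u w = injV e (G *ᵥ u) (H *ᵥ w) := by
  funext c
  simp only [mulVec, dotProduct, injK_apply, injV]
  rw [← Equiv.sum_comp e.symm, Fintype.sum_prod_type, Finset.sum_mul_sum]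
  refine Finset.sum_congr rfl fun a _ => Finset.sum_congr rfl fun b _ => ?_
  simp only [Equiv.apply_symm_apply]
  ring

theorem injV_dotProduct (e : γ ≃ α × β) (u u' : α → ℂ) (w w' : β → ℂ) :
    star (injV e u w) ⬝ᵥ injV e u' w' = (star u ⬝ᵥ u') * (star w ⬝ᵥ w') := by
  simp only [dotProduct, injV, Pi.star_apply]
  rw [← Equiv.sum_comp e.symm, Fintype.sum_prod_type, Finset.sum_mul_sum]
  refine Finset.sum_congr rfl fun a _ => Finset.sum_congr rfl fun b _ => ?_
  simp only [Equiv.apply_symm_apply, star_mul']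
  ring

end Kron

section Place

/-- pull back a replica configuration along a map of copies -/
def rpull (ι : μ → κ) (c : RCfg io κ) : RCfg io μ := fun p => c (ι p.1, p.2)

/-- the operator `G` on the copies `μ`, placed on the copies `ι(μ)` of `κ` -/
def place (ι : μ ↪ κ) (G : Matrix (RCfg io μ) (RCfg io μ) ℂ) : Matrix (RCfg io κ) (RCfg io κ) ℂ :=
  Matrix.of fun c c' =>
    if ∀ j, (∀ i, ι i ≠ j) → rcopy c j = rcopy c' j then G (rpull ι c) (rpull ι c') else 0

theorem place_apply (ι : μ ↪ κ) (G : Matrix (RCfg io μ) (RCfg io μ) ℂ) (c c' : RCfg io κ) :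
    place ι G c c' =
      if ∀ j, (∀ i, ι i ≠ j) → rcopy c j = rcopy c' j then G (rpull ι c) (rpull ι c') else 0 := rfl

/-- the copies that are not hit by `ι` -/
abbrev injRest (ι : μ ↪ κ) : Type := {j : κ // ∀ i, ι i ≠ j}

/-- a configuration of `κ` copies = (the copies in the range of `ι`, the other copies) -/
noncomputable def plSplit (ι : μ ↪ κ) : RCfg io κ ≃ RCfg io μ × RCfg io (injRest ι) where
  toFun c := (rpull ι c, rpull Subtype.val c)
  invFun p := fun q =>
    if h : ∃ i, ι i = q.1 then p.1 (h.choose, q.2) else p.2 (⟨q.1, fun i hi => h ⟨i, hi⟩⟩, q.2)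
  left_inv c := by
    funext ⟨j, x⟩
    by_cases h : ∃ i, ι i = j
    · simp only [dif_pos h]
      have key : ∀ j' : κ, j' = j → c (j', x) = c (j, x) := by
        rintro j' rfl; rfl
      exact key _ h.choose_spec
    · simp only [dif_neg h]
      rfl
  right_inv p := by
    refine Prod.ext ?_ ?_
    · funext ⟨i, x⟩
      have h : ∃ i', ι i' = ι i := ⟨i, rfl⟩
      simp only [rpull, dif_pos h]
      rw [ι.injective h.choose_spec]
    · funext ⟨⟨j, hj⟩, x⟩
      have h : ¬ ∃ i', ι i' = j := fun ⟨i, hi⟩ => hj i hi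
      simp only [rpull, dif_neg h]

theorem plSplit_apply (ι : μ ↪ κ) (c : RCfg io κ) :
    plSplit ι c = (rpull ι c, rpull Subtype.val c) := rfl

theorem place_cond_iff (ι : μ ↪ κ) (c c' : RCfg io κ) :
    (∀ j, (∀ i, ι i ≠ j) → rcopy c j = rcopy c' j) ↔
      rpull (Subtype.val : injRest ι → κ) c = rpull Subtype.val c' := by
  constructor
  · intro h
    funext ⟨⟨j, hj⟩, x⟩
    exact congrFun (h j hj) x
  · intro h j hj
    funext x
    exact congrFun h (⟨j, hj⟩, x)

theorem place_eq_injK (ι : μ ↪ κ) (G : Matrix (RCfg io μ) (RCfg io μ) ℂ) :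
    place ι G = injK (plSplit ι) G 1 := by
  ext c c'
  rw [place_apply, injK_apply, plSplit_apply, plSplit_apply, Matrix.one_apply]
  simp only [place_cond_iff]
  split_ifs <;> simp

theorem place_one (ι : μ ↪ κ) : place (io := io) ι 1 = 1 := by
  rw [place_eq_injK, injK_one]

theorem place_mul (ι : μ ↪ κ) (G H : Matrix (RCfg io μ) (RCfg io μ) ℂ) :
    place ι (G * H) = place ι G * place ι H := by
  rw [place_eq_injK, place_eq_injK, place_eq_injK, ← injK_mul, Matrix.one_mul]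

theorem place_add (ι : μ ↪ κ) (G H : Matrix (RCfg io μ) (RCfg io μ) ℂ) :
    place ι (G + H) = place ι G + place ι H := by
  rw [place_eq_injK, place_eq_injK, place_eq_injK, injK_add_left]

theorem place_smul (ι : μ ↪ κ) (a : ℂ) (G : Matrix (RCfg io μ) (RCfg io μ) ℂ) :
    place ι (a • G) = a • place ι G := by
  rw [place_eq_injK, place_eq_injK, injK_smul_left]

theorem place_conjTranspose (ι : μ ↪ κ) (G : Matrix (RCfg io μ) (RCfg io μ) ℂ) :
    (place ι G).conjTranspose = place ι G.conjTranspose := by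
  rw [place_eq_injK, place_eq_injK, injK_conjTranspose, conjTranspose_one]

theorem place_zero (ι : μ ↪ κ) : place (io := io) ι 0 = 0 := by
  have := place_smul (io := io) ι 0 0
  simpa using this

/-- `place ι` as a unital star-algebra homomorphism -/
noncomputable def placeHom (ι : μ ↪ κ) :
    Matrix (RCfg io μ) (RCfg io μ) ℂ →⋆ₐ[ℂ] Matrix (RCfg io κ) (RCfg io κ) ℂ where
  toFun := place ι
  map_one' := place_one ι
  map_mul' := place_mul ι
  map_zero' := place_zero ι
  map_add' := place_add ι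
  commutes' c := by
    rw [Algebra.algebraMap_eq_smul_one, Algebra.algebraMap_eq_smul_one, place_smul, place_one]
  map_star' K := by
    rw [star_eq_conjTranspose, star_eq_conjTranspose, place_conjTranspose]

theorem norm_place_le (ι : μ ↪ κ) (G : Matrix (RCfg io μ) (RCfg io μ) ℂ) :
    ‖place ι G‖ ≤ ‖G‖ :=
  NonUnitalStarAlgHom.norm_apply_le (placeHom ι) G

theorem rcopy_rpull (ι : μ → κ) (c : RCfg io κ) (i : μ) : rcopy (rpull ι c) i = rcopy c (ι i) := rfl

theorem place_trans (ι : μ ↪ κ) (ι' : ν ↪ μ) (G : Matrix (RCfg io ν) (RCfg io ν) ℂ) :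
    place ι (place ι' G) = place (ι'.trans ι) G := by
  ext c c'
  rw [place_apply, place_apply, place_apply]
  have hiff : ((∀ j, (∀ i, ι i ≠ j) → rcopy c j = rcopy c' j) ∧
      (∀ j, (∀ i, ι' i ≠ j) → rcopy (rpull ι c) j = rcopy (rpull ι c') j)) ↔
      ∀ j, (∀ i, (ι'.trans ι) i ≠ j) → rcopy c j = rcopy c' j := by
    constructor
    · rintro ⟨h1, h2⟩ j hj
      by_cases h : ∃ i, ι i = j
      · obtain ⟨i, rfl⟩ := h
        exact h2 i fun i' hi' => hj i' (by rw [Function.Embedding.trans_apply, hi'])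
      · exact h1 j fun i hi => h ⟨i, hi⟩
    · intro h
      refine ⟨fun j hj => h j fun i hi => hj (ι' i) hi, fun j hj => h (ι j) fun i hi => ?_⟩
      exact hj i (ι.injective hi)
  by_cases h1 : ∀ j, (∀ i, ι i ≠ j) → rcopy c j = rcopy c' j
  · by_cases h2 : ∀ j, (∀ i, ι' i ≠ j) → rcopy (rpull ι c) j = rcopy (rpull ι c') j
    · rw [if_pos h1, if_pos h2, if_pos (hiff.1 ⟨h1, h2⟩)]
      rfl
    · rw [if_pos h1, if_neg h2, if_neg fun h => h2 (hiff.2 h).2]
  · rw [if_neg h1, if_neg fun h => h1 (hiff.2 h).1]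

theorem place_copyOp (ι : μ ↪ κ) (i : μ) (h : Matrix (Cfg io) (Cfg io) ℂ) :
    place ι (copyOp i h) = copyOp (ι i) h := by
  ext c c'
  rw [place_apply]
  simp only [copyOp, Matrix.of_apply]
  have hiff : ((∀ j, (∀ i, ι i ≠ j) → rcopy c j = rcopy c' j) ∧
      (∀ i', i' ≠ i → rcopy (rpull ι c) i' = rcopy (rpull ι c') i')) ↔
      ∀ j, j ≠ ι i → rcopy c j = rcopy c' j := by
    constructor
    · rintro ⟨h1, h2⟩ j hj
      by_cases h : ∃ i', ι i' = j
      · obtain ⟨i', rfl⟩ := h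
        exact h2 i' fun hi' => hj (by rw [hi'])
      · exact h1 j fun i hi => h ⟨i, hi⟩
    · intro h
      refine ⟨fun j hj => h j fun hi => hj i hi.symm, fun i' hi' => h (ι i') fun hh => ?_⟩
      exact hi' (ι.injective hh)
  by_cases h1 : ∀ j, (∀ i, ι i ≠ j) → rcopy c j = rcopy c' j
  · by_cases h2 : ∀ i', i' ≠ i → rcopy (rpull ι c) i' = rcopy (rpull ι c') i'
    · rw [if_pos h1, if_pos h2, if_pos (hiff.1 ⟨h1, h2⟩)]
      rfl
    · rw [if_pos h1, if_neg h2, if_neg fun h => h2 (hiff.2 h).2]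
  · rw [if_neg h1, if_neg fun h => h1 (hiff.2 h).1]

theorem place_UQ_swap (ι : μ ↪ κ) (Q : Finset s) (a b : μ) :
    place (io := io) ι (UQ Q (Equiv.swap a b)) = UQ Q (Equiv.swap (ι a) (ι b)) := by
  ext c c'
  rw [place_apply]
  simp only [UQ, Matrix.of_apply]
  have hiff : ((∀ j, (∀ i, ι i ≠ j) → rcopy c j = rcopy c' j) ∧
      rpull ι c = rperm Q (Equiv.swap a b) (rpull ι c')) ↔
      c = rperm Q (Equiv.swap (ι a) (ι b)) c' := by
    constructor
    · rintro ⟨h1, h2⟩
      funext ⟨j, x⟩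
      rw [rperm_apply]
      by_cases h : ∃ i, ι i = j
      · obtain ⟨i, rfl⟩ := h
        have h3 := congrFun h2 (i, x)
        rw [rperm_apply] at h3
        simp only [Equiv.swap_inv] at h3 ⊢
        rw [← ι.injective.map_swap]
        exact h3
      · have hj : ∀ i, ι i ≠ j := fun i hi => h ⟨i, hi⟩
        simp only [Equiv.swap_inv]
        rw [Equiv.swap_apply_of_ne_of_ne (hj a).symm (hj b).symm, ite_self]
        exact congrFun (h1 j hj) x
    · intro h
      refine ⟨fun j hj => ?_, ?_⟩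
      · funext x
        have h3 := congrFun h (j, x)
        rw [rperm_apply] at h3
        simp only [Equiv.swap_inv] at h3
        rw [Equiv.swap_apply_of_ne_of_ne (hj a).symm (hj b).symm, ite_self] at h3
        exact h3
      · funext ⟨i, x⟩
        have h3 := congrFun h (ι i, x)
        rw [rperm_apply] at h3 ⊢
        simp only [Equiv.swap_inv] at h3 ⊢
        rw [← ι.injective.map_swap] at h3
        exact h3
  by_cases h1 : ∀ j, (∀ i, ι i ≠ j) → rcopy c j = rcopy c' j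
  · by_cases h2 : rpull ι c = rperm Q (Equiv.swap a b) (rpull ι c')
    · rw [if_pos h1, if_pos h2, if_pos (hiff.1 ⟨h1, h2⟩)]
    · rw [if_pos h1, if_neg h2, if_neg fun h => h2 (hiff.2 h).2]
  · rw [if_neg h1, if_neg fun h => h1 (hiff.2 h).1]

/-- conjugation by a global permutation moves the placement -/
theorem UQ_univ_conj_place (π : Equiv.Perm κ) (ι : μ ↪ κ) (G : Matrix (RCfg io μ) (RCfg io μ) ℂ) :
    UQ Finset.univ π * place ι G * UQ Finset.univ π⁻¹ = place (ι.trans π.toEmbedding) G := by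
  ext c c'
  rw [UQ_eq_rpMat, UQ_eq_rpMat, map_inv, rpMat_conj_apply, place_apply, place_apply]
  have hc : ∀ (c : RCfg io κ) (j : κ), rcopy ((rperm Finset.univ π)⁻¹ c) j = rcopy c (π j) := by
    intro c j
    rw [← map_inv, rcopy_rperm_univ]
    simp
  have hp : ∀ c : RCfg io κ, rpull ι ((rperm Finset.univ π)⁻¹ c)
      = rpull (ι.trans π.toEmbedding) c := by
    intro c
    funext ⟨i, x⟩
    exact congrFun (hc c (ι i)) x
  rw [hp, hp]
  simp only [hc]
  have hiff : (∀ j, (∀ i, ι i ≠ j) → rcopy c (π j) = rcopy c' (π j)) ↔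
      ∀ j, (∀ i, (ι.trans π.toEmbedding) i ≠ j) → rcopy c j = rcopy c' j := by
    constructor
    · intro h j hj
      have := h (π.symm j) fun i hi => hj i (by
        rw [Function.Embedding.trans_apply, hi]; simp)
      simpa using this
    · intro h j hj
      exact h (π j) fun i hi => hj i (π.injective hi)
  simp only [hiff]

/-! #### disjoint unions of copies -/

/-- configurations on a disjoint union of copies -/
def tsplit : RCfg io (μ ⊕ ν) ≃ RCfg io μ × RCfg io ν where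
  toFun c := (rpull Sum.inl c, rpull Sum.inr c)
  invFun p := fun q => match q with
    | (Sum.inl i, x) => p.1 (i, x)
    | (Sum.inr j, x) => p.2 (j, x)
  left_inv c := by
    funext q
    rcases q with ⟨i | j, x⟩ <;> rfl
  right_inv p := rfl

theorem tsplit_apply (c : RCfg io (μ ⊕ ν)) :
    tsplit c = (rpull Sum.inl c, rpull Sum.inr c) := rfl

theorem place_inl (G : Matrix (RCfg io μ) (RCfg io μ) ℂ) :
    place (Function.Embedding.inl : μ ↪ μ ⊕ ν) G = injK tsplit G 1 := by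
  ext c c'
  rw [place_apply, injK_apply, tsplit_apply, tsplit_apply, Matrix.one_apply]
  have hiff : (∀ j : μ ⊕ ν, (∀ i, (Function.Embedding.inl : μ ↪ μ ⊕ ν) i ≠ j) →
      rcopy c j = rcopy c' j) ↔ rpull (Sum.inr : ν → μ ⊕ ν) c = rpull Sum.inr c' := by
    constructor
    · intro h
      funext ⟨j, x⟩
      exact congrFun (h (Sum.inr j) fun i hi => by cases hi) x
    · rintro h (i | j) hj
      · exact absurd rfl (hj i)
      · funext x
        exact congrFun h (j, x)
  simp only [hiff]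
  split_ifs
  · rw [mul_one]; rfl
  · rw [mul_zero]

theorem place_inr (H : Matrix (RCfg io ν) (RCfg io ν) ℂ) :
    place (Function.Embedding.inr : ν ↪ μ ⊕ ν) H = injK tsplit 1 H := by
  ext c c'
  rw [place_apply, injK_apply, tsplit_apply, tsplit_apply, Matrix.one_apply]
  have hiff : (∀ j : μ ⊕ ν, (∀ i, (Function.Embedding.inr : ν ↪ μ ⊕ ν) i ≠ j) →
      rcopy c j = rcopy c' j) ↔ rpull (Sum.inl : μ → μ ⊕ ν) c = rpull Sum.inl c' := by
    constructor
    · intro h
      funext ⟨j, x⟩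
      exact congrFun (h (Sum.inl j) fun i hi => by cases hi) x
    · rintro h (i | j) hj
      · funext x
        exact congrFun h (i, x)
      · exact absurd rfl (hj j)
  simp only [hiff]
  split_ifs
  · rw [one_mul]; rfl
  · rw [zero_mul]

/-- two embeddings with disjoint ranges as one embedding of the disjoint union -/
def sumEmb (ι : μ ↪ κ) (ι' : ν ↪ κ) (h : ∀ i j, ι i ≠ ι' j) : μ ⊕ ν ↪ κ :=
  ⟨Sum.elim ι ι', ι.injective.sumElim ι'.injective h⟩

theorem inl_trans_sumEmb (ι : μ ↪ κ) (ι' : ν ↪ κ) (h : ∀ i j, ι i ≠ ι' j) :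
    Function.Embedding.inl.trans (sumEmb ι ι' h) = ι := by
  ext i; rfl

theorem inr_trans_sumEmb (ι : μ ↪ κ) (ι' : ν ↪ κ) (h : ∀ i j, ι i ≠ ι' j) :
    Function.Embedding.inr.trans (sumEmb ι ι' h) = ι' := by
  ext i; rfl

theorem place_commute {ι : μ ↪ κ} {ι' : ν ↪ κ} (h : ∀ i j, ι i ≠ ι' j)
    (G : Matrix (RCfg io μ) (RCfg io μ) ℂ) (H : Matrix (RCfg io ν) (RCfg io ν) ℂ) :
    Commute (place ι G) (place ι' H) := by
  have h1 : place ι G = place (sumEmb ι ι' h) (place Function.Embedding.inl G) := by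
    rw [place_trans, inl_trans_sumEmb]
  have h2 : place ι' H = place (sumEmb ι ι' h) (place Function.Embedding.inr H) := by
    rw [place_trans, inr_trans_sumEmb]
  show place ι G * place ι' H = place ι' H * place ι G
  rw [h1, h2, ← place_mul, ← place_mul, place_inl, place_inr, ← injK_mul, ← injK_mul,
    Matrix.mul_one, Matrix.one_mul, Matrix.mul_one, Matrix.one_mul]

/-- the scalar symbol `⟨θ^{⊗μ}, G θ^{⊗μ}⟩` -/
def symb (G : Matrix (RCfg io μ) (RCfg io μ) ℂ) (θ : Cfg io → ℂ) : ℂ :=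
  star (tpow μ θ) ⬝ᵥ (G *ᵥ tpow μ θ)

/-- a product over `κ` splits into the range of an embedding and the rest -/
theorem prod_injRest (ι : μ ↪ κ) (f : κ → ℂ) :
    ∏ j, f j = (∏ i, f (ι i)) * ∏ j : injRest ι, f j.1 := by
  rw [← Finset.prod_mul_prod_compl (Finset.univ.map ι) f, Finset.prod_map]
  congr 1
  refine Finset.prod_subtype _ (fun j => ?_) f
  simp only [Finset.mem_compl, Finset.mem_map, Finset.mem_univ, true_and, not_exists]

theorem tpow_plSplit (ι : μ ↪ κ) (θ : Cfg io → ℂ) :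
    tpow κ θ = injV (plSplit ι) (tpow μ θ) (tpow (injRest ι) θ) := by
  funext c
  simp only [tpow, injV, plSplit_apply]
  exact prod_injRest ι fun j => θ (rcopy c j)

theorem tpow_tsplit (θ : Cfg io → ℂ) :
    tpow (μ ⊕ ν) θ = injV tsplit (tpow μ θ) (tpow ν θ) := by
  funext c
  simp only [tpow, injV, tsplit_apply, Fintype.prod_sum_type]
  rfl

theorem tpow_place (ι : μ ↪ κ) (G : Matrix (RCfg io μ) (RCfg io μ) ℂ) {θ : Cfg io → ℂ}
    (hθ : star θ ⬝ᵥ θ = 1) : star (tpow κ θ) ⬝ᵥ (place ι G *ᵥ tpow κ θ) = symb G θ := by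
  rw [place_eq_injK, tpow_plSplit ι, injK_mulVec, injV_dotProduct, one_mulVec, tpow_dotProduct, hθ,
    one_pow, mul_one]
  rfl

theorem norm_symb_le (G : Matrix (RCfg io μ) (RCfg io μ) ℂ) {θ : Cfg io → ℂ}
    (hθ : star θ ⬝ᵥ θ = 1) : ‖symb G θ‖ ≤ ‖G‖ := by
  have h1 : l2n (tpow μ θ) = 1 := by
    rw [l2n_eq_one_iff, tpow_dotProduct, hθ, one_pow]
  have h2 := norm_dotProduct_le (tpow μ θ) (G *ᵥ tpow μ θ)
  have h3 := l2n_mulVec_le G (tpow μ θ)
  rw [h1] at h2 h3
  rw [symb]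
  linarith

theorem symb_conjTranspose (G : Matrix (RCfg io μ) (RCfg io μ) ℂ) (θ : Cfg io → ℂ) :
    symb G.conjTranspose θ = star (symb G θ) := by
  unfold symb
  rw [← star_dotProduct_star, star_star, star_mulVec, dotProduct_mulVec]

theorem symb_add (G H : Matrix (RCfg io μ) (RCfg io μ) ℂ) (θ : Cfg io → ℂ) :
    symb (G + H) θ = symb G θ + symb H θ := by
  unfold symb
  rw [add_mulVec, dotProduct_add]

theorem symb_smul (a : ℂ) (G : Matrix (RCfg io μ) (RCfg io μ) ℂ) (θ : Cfg io → ℂ) :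
    symb (a • G) θ = a * symb G θ := by
  unfold symb
  rw [smul_mulVec, dotProduct_smul, smul_eq_mul]

/-- `G ⊗ H` on the disjoint union of the copies -/
def tens (G : Matrix (RCfg io μ) (RCfg io μ) ℂ) (H : Matrix (RCfg io ν) (RCfg io ν) ℂ) :
    Matrix (RCfg io (μ ⊕ ν)) (RCfg io (μ ⊕ ν)) ℂ :=
  place Function.Embedding.inl G * place Function.Embedding.inr H

theorem tens_eq_injK (G : Matrix (RCfg io μ) (RCfg io μ) ℂ) (H : Matrix (RCfg io ν) (RCfg io ν) ℂ) :
    tens G H = injK tsplit G H := by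
  rw [tens, place_inl, place_inr, ← injK_mul, Matrix.mul_one, Matrix.one_mul]

/-- placements with disjoint ranges multiply to a placement of the tensor product -/
theorem place_mul_place (ι : μ ↪ κ) (ι' : ν ↪ κ) (h : ∀ i j, ι i ≠ ι' j)
    (G : Matrix (RCfg io μ) (RCfg io μ) ℂ) (H : Matrix (RCfg io ν) (RCfg io ν) ℂ) :
    place ι G * place ι' H = place (sumEmb ι ι' h) (tens G H) := by
  rw [tens, place_mul, place_trans, place_trans, inl_trans_sumEmb, inr_trans_sumEmb]

theorem symb_tens (G : Matrix (RCfg io μ) (RCfg io μ) ℂ) (H : Matrix (RCfg io ν) (RCfg io ν) ℂ)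
    (θ : Cfg io → ℂ) : symb (tens G H) θ = symb G θ * symb H θ := by
  rw [symb, tens_eq_injK, tpow_tsplit, injK_mulVec, injV_dotProduct]
  rfl

theorem norm_tens_le (G : Matrix (RCfg io μ) (RCfg io μ) ℂ) (H : Matrix (RCfg io ν) (RCfg io ν) ℂ) :
    ‖tens G H‖ ≤ ‖G‖ * ‖H‖ :=
  (norm_mul_le _ _).trans
    (mul_le_mul (norm_place_le _ G) (norm_place_le _ H) (norm_nonneg _) (norm_nonneg _))

/-- padding by identities does not change the symbol on unit vectors -/
theorem symb_place (ι : μ ↪ κ) (G : Matrix (RCfg io μ) (RCfg io μ) ℂ) {θ : Cfg io → ℂ}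
    (hθ : star θ ⬝ᵥ θ = 1) : symb (place ι G) θ = symb G θ :=
  tpow_place ι G hθ

end Place

section Avg

/-- `𝒯_{k,m}(G)`: the average over all ordered injections -/
noncomputable def injAvg (κ : Type) [Fintype κ] [DecidableEq κ]
    (G : Matrix (RCfg io μ) (RCfg io μ) ℂ) : Matrix (RCfg io κ) (RCfg io κ) ℂ :=
  ((Fintype.card (μ ↪ κ) : ℂ))⁻¹ • ∑ ι : μ ↪ κ, place ι G

theorem injAvg_add (G H : Matrix (RCfg io μ) (RCfg io μ) ℂ) :
    injAvg κ (G + H) = injAvg κ G + injAvg κ H := by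
  simp only [injAvg, place_add, Finset.sum_add_distrib, smul_add]

theorem injAvg_smul (a : ℂ) (G : Matrix (RCfg io μ) (RCfg io μ) ℂ) :
    injAvg κ (a • G) = a • injAvg κ G := by
  simp only [injAvg, place_smul, ← Finset.smul_sum]
  rw [smul_comm]

theorem injAvg_conjTranspose (G : Matrix (RCfg io μ) (RCfg io μ) ℂ) :
    (injAvg κ G).conjTranspose = injAvg κ G.conjTranspose := by
  simp only [injAvg, conjTranspose_smul, conjTranspose_sum, place_conjTranspose]
  congr 1
  simp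

theorem norm_sum_place_le (S : Finset (μ ↪ κ)) (G : Matrix (RCfg io μ) (RCfg io μ) ℂ) :
    ‖∑ ι ∈ S, place ι G‖ ≤ S.card * ‖G‖ := by
  refine (norm_sum_le _ _).trans ?_
  have := Finset.sum_le_card_nsmul S (fun ι => ‖place ι G‖) ‖G‖ fun ι _ => norm_place_le ι G
  rwa [nsmul_eq_mul] at this

theorem norm_injAvg_le (G : Matrix (RCfg io μ) (RCfg io μ) ℂ) : ‖injAvg κ G‖ ≤ ‖G‖ := by
  rw [injAvg, norm_smul, norm_inv, Complex.norm_natCast]
  have h1 := norm_sum_place_le (κ := κ) Finset.univ G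
  rw [Finset.card_univ] at h1
  rcases Nat.eq_zero_or_pos (Fintype.card (μ ↪ κ)) with h0 | h0
  · rw [h0]; simp
  · have h2 : (0 : ℝ) < (Fintype.card (μ ↪ κ) : ℝ) := by exact_mod_cast h0
    rw [inv_mul_le_iff₀ h2]
    exact h1

/-- composition with a permutation of the target, as a permutation of the embeddings -/
def embPost (π : Equiv.Perm κ) : (μ ↪ κ) ≃ (μ ↪ κ) where
  toFun ι := ι.trans π.toEmbedding
  invFun ι := ι.trans π.symm.toEmbedding
  left_inv ι := by ext i; simp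
  right_inv ι := by ext i; simp

theorem injAvg_commute_UQ_univ (G : Matrix (RCfg io μ) (RCfg io μ) ℂ) (π : Equiv.Perm κ) :
    Commute (injAvg κ G) (UQ Finset.univ π) := by
  apply commute_UQ_of_conj
  rw [injAvg, Matrix.mul_smul, Matrix.smul_mul, Finset.mul_sum, Finset.sum_mul]
  congr 1
  simp only [UQ_univ_conj_place]
  exact Equiv.sum_comp (embPost π) (fun ι => place ι G)

theorem injAvg_commute_symProj (G : Matrix (RCfg io μ) (RCfg io μ) ℂ) :
    Commute (injAvg κ G) symProj :=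
  commute_symProj_of_commute_UQ fun π => injAvg_commute_UQ_univ G π

/-- the permutations of the target act transitively on the embeddings -/
theorem exists_perm_trans (ι ι' : μ ↪ κ) :
    ∃ π : Equiv.Perm κ, ι.trans π.toEmbedding = ι' := by
  classical
  let e : {x // x ∈ Set.range ι} ≃ {x // x ∈ Set.range ι'} :=
    (Equiv.ofInjective ι ι.injective).symm.trans (Equiv.ofInjective ι' ι'.injective)
  refine ⟨e.extendSubtype, ?_⟩
  ext i
  simp only [Function.Embedding.trans_apply, Equiv.coe_toEmbedding]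
  rw [Equiv.extendSubtype_apply_of_mem e (ι i) ⟨i, rfl⟩]
  have : (Equiv.ofInjective ι ι.injective).symm ⟨ι i, ⟨i, rfl⟩⟩ = i :=
    Equiv.ofInjective_symm_apply ι.injective i
  simp only [e, Equiv.trans_apply, this, Equiv.ofInjective_apply]

theorem UQ_univ_mul_symV (π : Equiv.Perm κ) :
    UQ (io := io) Finset.univ π * symV (io := io) (κ := κ) = symV (io := io) (κ := κ) := by
  conv_lhs => rw [← symProj_mul_symV, ← Matrix.mul_assoc, UQ_univ_mul_symProj, symProj_mul_symV]

theorem symV_conjTranspose_mul_UQ_univ (π : Equiv.Perm κ) :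
    (symV (io := io) (κ := κ)).conjTranspose * UQ (io := io) Finset.univ π
      = (symV (io := io) (κ := κ)).conjTranspose := by
  have h := congrArg Matrix.conjTranspose (UQ_univ_mul_symV (io := io) π⁻¹)
  rwa [conjTranspose_mul, UQ_conjTranspose, inv_inv] at h

theorem cmp_UQ_univ_conj (π : Equiv.Perm κ) (X : Matrix (RCfg io κ) (RCfg io κ) ℂ) :
    cmp (UQ Finset.univ π * X * UQ Finset.univ π⁻¹) = cmp X := by
  rw [cmp_eq, cmp_eq, Matrix.mul_assoc _ _ (symV (io := io) (κ := κ)),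
    Matrix.mul_assoc _ _ (symV (io := io) (κ := κ)), UQ_univ_mul_symV, ← Matrix.mul_assoc,
    ← Matrix.mul_assoc, symV_conjTranspose_mul_UQ_univ]

theorem cmp_place_eq (ι ι' : μ ↪ κ) (G : Matrix (RCfg io μ) (RCfg io μ) ℂ) :
    cmp (place ι' G) = cmp (place ι G) := by
  obtain ⟨π, rfl⟩ := exists_perm_trans ι ι'
  rw [← UQ_univ_conj_place, cmp_UQ_univ_conj]

/-- **the compression of a placement does not depend on the placement** -/
theorem cmp_place (ι : μ ↪ κ) (G : Matrix (RCfg io μ) (RCfg io μ) ℂ) :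
    cmp (place ι G) = cmp (injAvg κ G) := by
  have hcard : (Fintype.card (μ ↪ κ) : ℂ) ≠ 0 := by
    have : Nonempty (μ ↪ κ) := ⟨ι⟩
    exact_mod_cast Fintype.card_ne_zero
  rw [injAvg, cmp_smul, cmp_sum]
  simp only [cmp_place_eq ι]
  rw [Finset.sum_const, Finset.card_univ, ← Nat.cast_smul_eq_nsmul ℂ, smul_smul,
    inv_mul_cancel₀ hcard, one_smul]

theorem norm_cmp_le (X : Matrix (RCfg io κ) (RCfg io κ) ℂ) : ‖cmp X‖ ≤ ‖X‖ := by
  have hV : ‖symV (io := io) (κ := κ)‖ ≤ 1 := by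
    have h1 := l2_opNorm_conjTranspose_mul_self (symV (io := io) (κ := κ))
    rw [symV_isometry] at h1
    have h2 : ‖(1 : Matrix (SymIx io κ) (SymIx io κ) ℂ)‖ ≤ 1 := by
      rw [← diagonal_one, l2_opNorm_diagonal]
      exact (pi_norm_le_iff_of_nonneg zero_le_one).2 fun i => by simp
    nlinarith [norm_nonneg (symV (io := io) (κ := κ))]
  have hV' : ‖(symV (io := io) (κ := κ))ᴴ‖ ≤ 1 := by rwa [l2_opNorm_conjTranspose]
  rw [cmp_eq]
  calc _ ≤ ‖(symV (io := io) (κ := κ))ᴴ‖ * ‖X‖ * ‖symV (io := io) (κ := κ)‖ :=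
        (l2_opNorm_mul _ _).trans (mul_le_mul_of_nonneg_right (l2_opNorm_mul _ _) (norm_nonneg _))
    _ ≤ 1 * ‖X‖ * 1 := by gcongr
    _ = ‖X‖ := by ring

/-- averaging over the embeddings = averaging over the orbit of one embedding -/
theorem card_smul_sum_perm {M : Type*} [AddCommMonoid M] (F : (μ ↪ κ) → M) (ι₀ : μ ↪ κ) :
    Fintype.card (μ ↪ κ) • ∑ π : Equiv.Perm κ, F (ι₀.trans π.toEmbedding)
      = Fintype.card (Equiv.Perm κ) • ∑ ι : μ ↪ κ, F ι := by
  have hA : ∀ ι : μ ↪ κ, ∑ π : Equiv.Perm κ, F (ι.trans π.toEmbedding)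
      = ∑ π : Equiv.Perm κ, F (ι₀.trans π.toEmbedding) := by
    intro ι
    obtain ⟨σ, rfl⟩ := exists_perm_trans ι₀ ι
    rw [← Equiv.sum_comp (Equiv.mulRight σ) fun π : Equiv.Perm κ => F (ι₀.trans π.toEmbedding)]
    refine Finset.sum_congr rfl fun π _ => ?_
    congr 1
  have h1 : ∑ ι : μ ↪ κ, ∑ π : Equiv.Perm κ, F (ι.trans π.toEmbedding)
      = Fintype.card (μ ↪ κ) • ∑ π : Equiv.Perm κ, F (ι₀.trans π.toEmbedding) := by
    simp only [hA]
    rw [Finset.sum_const, Finset.card_univ]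
  have h2 : ∑ ι : μ ↪ κ, ∑ π : Equiv.Perm κ, F (ι.trans π.toEmbedding)
      = Fintype.card (Equiv.Perm κ) • ∑ ι : μ ↪ κ, F ι := by
    rw [Finset.sum_comm]
    have : ∀ π : Equiv.Perm κ, ∑ ι : μ ↪ κ, F (ι.trans π.toEmbedding) = ∑ ι : μ ↪ κ, F ι :=
      fun π => Equiv.sum_comp (embPost π) F
    simp only [this]
    rw [Finset.sum_const, Finset.card_univ]
  rw [← h1, h2]

theorem injAvg_eq_perm_avg (ι₀ : μ ↪ κ) (G : Matrix (RCfg io μ) (RCfg io μ) ℂ) :
    injAvg κ G = ((Fintype.card (Equiv.Perm κ) : ℂ))⁻¹ •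
      ∑ π : Equiv.Perm κ, place (ι₀.trans π.toEmbedding) G := by
  have hcard : (Fintype.card (μ ↪ κ) : ℂ) ≠ 0 := by
    have : Nonempty (μ ↪ κ) := ⟨ι₀⟩
    exact_mod_cast Fintype.card_ne_zero
  have hcard' : (Fintype.card (Equiv.Perm κ) : ℂ) ≠ 0 := by
    exact_mod_cast Fintype.card_ne_zero
  have h := card_smul_sum_perm (fun ι : μ ↪ κ => place ι G) ι₀
  rw [← Nat.cast_smul_eq_nsmul ℂ, ← Nat.cast_smul_eq_nsmul ℂ] at h
  rw [injAvg, inv_smul_eq_iff₀ hcard, smul_comm, h, smul_smul, inv_mul_cancel₀ hcard', one_smul]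

/-- padding: an operator on `μ` copies, seen on more copies, has the same injection averages -/
theorem injAvg_place (ι : μ ↪ ν) (G : Matrix (RCfg io μ) (RCfg io μ) ℂ)
    (h : Fintype.card ν ≤ Fintype.card κ) : injAvg κ (place ι G) = injAvg κ G := by
  obtain ⟨ι'⟩ := Function.Embedding.nonempty_of_card_le h
  rw [injAvg_eq_perm_avg ι', injAvg_eq_perm_avg (ι.trans ι')]
  simp only [place_trans]
  rfl

theorem symb_eq_injAvg (G : Matrix (RCfg io μ) (RCfg io μ) ℂ)
    (h : Fintype.card μ ≤ Fintype.card κ) {θ : Cfg io → ℂ} (hθ : star θ ⬝ᵥ θ = 1) :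
    star (cohV κ θ) ⬝ᵥ (cmp (injAvg κ G) *ᵥ cohV κ θ) = symb G θ := by
  obtain ⟨ι⟩ := Function.Embedding.nonempty_of_card_le h
  have hcard : (Fintype.card (μ ↪ κ) : ℂ) ≠ 0 := by
    have : Nonempty (μ ↪ κ) := ⟨ι⟩
    exact_mod_cast Fintype.card_ne_zero
  rw [cohV, cmp_mulVec_cmpVec (injAvg_commute_symProj G), cmpVec_dotProduct (tpow_isSymVec θ),
    injAvg, smul_mulVec, sum_mulVec, dotProduct_smul, dotProduct_sum]
  simp only [tpow_place _ G hθ]
  rw [Finset.sum_const, Finset.card_univ, nsmul_eq_mul, smul_eq_mul, ← mul_assoc,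
    inv_mul_cancel₀ hcard, one_mul]

/-- the value of a random injection at a point is uniformly distributed -/
theorem card_emb_fiber_mul (i : μ) (a : κ) :
    (Finset.univ.filter fun ι : μ ↪ κ => ι i = a).card * Fintype.card κ
      = Fintype.card (μ ↪ κ) := by
  have hab : ∀ b : κ, (Finset.univ.filter fun ι : μ ↪ κ => ι i = b).card
      = (Finset.univ.filter fun ι : μ ↪ κ => ι i = a).card := by
    intro b
    refine Finset.card_bij' (fun ι _ => embPost (Equiv.swap a b) ι)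
      (fun ι _ => embPost (Equiv.swap a b) ι) ?_ ?_ ?_ ?_
    · intro ι hι
      rw [Finset.mem_filter] at hι ⊢
      refine ⟨Finset.mem_univ _, ?_⟩
      show Equiv.swap a b (ι i) = a
      rw [hι.2, Equiv.swap_apply_right]
    · intro ι hι
      rw [Finset.mem_filter] at hι ⊢
      refine ⟨Finset.mem_univ _, ?_⟩
      show Equiv.swap a b (ι i) = b
      rw [hι.2, Equiv.swap_apply_left]
    · intro ι _
      ext j
      show Equiv.swap a b (Equiv.swap a b (ι j)) = ι j
      rw [Equiv.swap_apply_self]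
    · intro ι _
      ext j
      show Equiv.swap a b (Equiv.swap a b (ι j)) = ι j
      rw [Equiv.swap_apply_self]
  have h1 := Finset.card_eq_sum_card_fiberwise (s := (Finset.univ : Finset (μ ↪ κ)))
    (t := (Finset.univ : Finset κ)) (f := fun ι => ι i) (fun _ _ => Finset.mem_univ _)
  simp only [hab] at h1
  rw [Finset.sum_const, Finset.card_univ, Finset.card_univ, smul_eq_mul] at h1
  rw [h1, mul_comm]

theorem card_emb_pair_mul (i : μ) (j : ν) :
    (Finset.univ.filter fun p : (μ ↪ κ) × (ν ↪ κ) => p.1 i = p.2 j).card * Fintype.card κ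
      = Fintype.card (μ ↪ κ) * Fintype.card (ν ↪ κ) := by
  have h1 : (Finset.univ.filter fun p : (μ ↪ κ) × (ν ↪ κ) => p.1 i = p.2 j).card
      = ∑ ι' : ν ↪ κ, (Finset.univ.filter fun ι : μ ↪ κ => ι i = ι' j).card := by
    simp only [Finset.card_filter]
    rw [Fintype.sum_prod_type_right]
  rw [h1, Finset.sum_mul]
  simp only [card_emb_fiber_mul]
  rw [Finset.sum_const, Finset.card_univ, smul_eq_mul, mul_comm]

theorem card_intersecting_le_nat :
    (Finset.univ.filter fun p : (μ ↪ κ) × (ν ↪ κ) => ∃ i j, p.1 i = p.2 j).card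
        * Fintype.card κ
      ≤ Fintype.card μ * Fintype.card ν * (Fintype.card (μ ↪ κ) * Fintype.card (ν ↪ κ)) := by
  have hsub : (Finset.univ.filter fun p : (μ ↪ κ) × (ν ↪ κ) => ∃ i j, p.1 i = p.2 j)
      ⊆ (Finset.univ : Finset (μ × ν)).biUnion fun q =>
        Finset.univ.filter fun p : (μ ↪ κ) × (ν ↪ κ) => p.1 q.1 = p.2 q.2 := by
    intro p hp
    rw [Finset.mem_filter] at hp
    obtain ⟨-, i, j, hij⟩ := hp
    rw [Finset.mem_biUnion]
    exact ⟨(i, j), Finset.mem_univ _, Finset.mem_filter.2 ⟨Finset.mem_univ _, hij⟩⟩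
  have h1 := (Finset.card_le_card hsub).trans Finset.card_biUnion_le
  calc _ ≤ (∑ q : μ × ν, (Finset.univ.filter
        fun p : (μ ↪ κ) × (ν ↪ κ) => p.1 q.1 = p.2 q.2).card) * Fintype.card κ :=
        Nat.mul_le_mul_right _ h1
    _ = ∑ q : μ × ν, Fintype.card (μ ↪ κ) * Fintype.card (ν ↪ κ) := by
        rw [Finset.sum_mul]
        simp only [card_emb_pair_mul]
    _ = _ := by
        rw [Finset.sum_const, Finset.card_univ, Fintype.card_prod, smul_eq_mul]

/-- number of pairs of injections with intersecting images -/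
theorem card_intersecting_le :
    ((Finset.univ.filter fun p : (μ ↪ κ) × (ν ↪ κ) => ∃ i j, p.1 i = p.2 j).card : ℝ)
        * Fintype.card κ
      ≤ Fintype.card μ * Fintype.card ν * (Fintype.card (μ ↪ κ) * Fintype.card (ν ↪ κ)) := by
  exact_mod_cast card_intersecting_le_nat (μ := μ) (ν := ν) (κ := κ)

/-- pairs of injections with disjoint images = injections of the disjoint union -/
theorem sum_disjoint_pairs {M : Type*} [AddCommMonoid M] (Φ : (μ ↪ κ) × (ν ↪ κ) → M) :
    ∑ p ∈ Finset.univ.filter (fun p : (μ ↪ κ) × (ν ↪ κ) => ¬ ∃ i j, p.1 i = p.2 j), Φ p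
      = ∑ ι : μ ⊕ ν ↪ κ,
        Φ (Function.Embedding.inl.trans ι, Function.Embedding.inr.trans ι) := by
  symm
  refine Finset.sum_bij'
    (fun ι _ => (Function.Embedding.inl.trans ι, Function.Embedding.inr.trans ι))
    (fun p hp => sumEmb p.1 p.2 fun i j hij => (Finset.mem_filter.1 hp).2 ⟨i, j, hij⟩)
    ?_ ?_ ?_ ?_ ?_
  · intro ι _
    rw [Finset.mem_filter]
    refine ⟨Finset.mem_univ _, ?_⟩
    rintro ⟨i, j, hij⟩
    have := ι.injective hij
    cases this
  · intro p _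
    exact Finset.mem_univ _
  · intro ι _
    ext q
    rcases q with i | j <;> rfl
  · intro p _
    rfl
  · intro ι _
    rfl

/-- **product rule** (replicas:injection-product) -/
theorem norm_injAvg_mul_sub_le (G : Matrix (RCfg io μ) (RCfg io μ) ℂ)
    (H : Matrix (RCfg io ν) (RCfg io ν) ℂ)
    (h : Fintype.card μ + Fintype.card ν ≤ Fintype.card κ) (hk : 0 < Fintype.card κ) :
    ‖injAvg κ G * injAvg κ H - injAvg κ (tens G H)‖
      ≤ 2 * (Fintype.card μ * Fintype.card ν : ℝ) / Fintype.card κ * (‖G‖ * ‖H‖) := by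
  -- cardinalities
  obtain ⟨I, hI⟩ : ∃ I : Finset ((μ ↪ κ) × (ν ↪ κ)),
      I = Finset.univ.filter fun p : (μ ↪ κ) × (ν ↪ κ) => ∃ i j, p.1 i = p.2 j := ⟨_, rfl⟩
  obtain ⟨D, hD⟩ : ∃ D : Finset ((μ ↪ κ) × (ν ↪ κ)),
      D = Finset.univ.filter fun p : (μ ↪ κ) × (ν ↪ κ) => ¬ ∃ i j, p.1 i = p.2 j := ⟨_, rfl⟩
  have hDcard : D.card = Fintype.card (μ ⊕ ν ↪ κ) := by
    have := sum_disjoint_pairs (μ := μ) (ν := ν) (κ := κ) (fun _ => (1 : ℕ))
    rw [← hD] at this
    simpa using this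
  have hIDcard : I.card + D.card = Fintype.card (μ ↪ κ) * Fintype.card (ν ↪ κ) := by
    rw [hI, hD, Finset.card_filter_add_card_filter_not, Finset.card_univ, Fintype.card_prod]
  have hN2 : 0 < Fintype.card (μ ⊕ ν ↪ κ) := by
    have : Nonempty (μ ⊕ ν ↪ κ) :=
      Function.Embedding.nonempty_of_card_le (by rw [Fintype.card_sum]; exact h)
    exact Fintype.card_pos
  obtain ⟨A, hA⟩ : ∃ A : ℝ, A = (Fintype.card (μ ↪ κ) : ℝ) * Fintype.card (ν ↪ κ) := ⟨_, rfl⟩
  obtain ⟨B, hB⟩ : ∃ B : ℝ, B = (Fintype.card (μ ⊕ ν ↪ κ) : ℝ) := ⟨_, rfl⟩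
  obtain ⟨J, hJ⟩ : ∃ J : ℝ, J = (I.card : ℝ) := ⟨_, rfl⟩
  have hAB : A = J + B := by
    rw [hA, hJ, hB, ← hDcard]
    exact_mod_cast hIDcard.symm
  have hBpos : 0 < B := by rw [hB]; exact_mod_cast hN2
  have hJ0 : 0 ≤ J := by rw [hJ]; exact Nat.cast_nonneg _
  have hApos : 0 < A := by linarith
  -- the sums
  obtain ⟨X, hX⟩ : ∃ X : (μ ↪ κ) × (ν ↪ κ) → Matrix (RCfg io κ) (RCfg io κ) ℂ,
      X = fun p => place p.1 G * place p.2 H := ⟨_, rfl⟩
  obtain ⟨SD, hSD⟩ : ∃ SD : Matrix (RCfg io κ) (RCfg io κ) ℂ,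
      SD = ∑ ι : μ ⊕ ν ↪ κ, place ι (tens G H) := ⟨_, rfl⟩
  have hXD : ∑ p ∈ D, X p = SD := by
    rw [hD, sum_disjoint_pairs, hSD, hX]
    refine Finset.sum_congr rfl fun ι _ => ?_
    rw [tens, place_mul, place_trans, place_trans]
  have hprod : injAvg κ G * injAvg κ H = ((A⁻¹ : ℝ) : ℂ) • (∑ p ∈ I, X p + SD) := by
    rw [← hXD, hI, hD, Finset.sum_filter_add_sum_filter_not, injAvg, injAvg, smul_mul_smul_comm,
      Finset.sum_mul_sum, Fintype.sum_prod_type, hX, hA]
    congr 1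
    push_cast
    rw [_root_.mul_inv]
  have hdiff : injAvg κ G * injAvg κ H - injAvg κ (tens G H)
      = ((A⁻¹ : ℝ) : ℂ) • ∑ p ∈ I, X p + ((A⁻¹ - B⁻¹ : ℝ) : ℂ) • SD := by
    rw [hprod, injAvg, ← hSD, smul_add, Complex.ofReal_sub, sub_smul, hB]
    push_cast
    abel
  have hXn : ∀ p, ‖X p‖ ≤ ‖G‖ * ‖H‖ := by
    intro p
    rw [hX]
    exact (norm_mul_le _ _).trans
      (mul_le_mul (norm_place_le _ G) (norm_place_le _ H) (norm_nonneg _) (norm_nonneg _))
  have hSI : ‖∑ p ∈ I, X p‖ ≤ J * (‖G‖ * ‖H‖) := by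
    refine (norm_sum_le _ _).trans ?_
    have := Finset.sum_le_card_nsmul I (fun p => ‖X p‖) (‖G‖ * ‖H‖) fun p _ => hXn p
    rwa [nsmul_eq_mul, ← hJ] at this
  have hSDn : ‖SD‖ ≤ B * (‖G‖ * ‖H‖) := by
    have h1 := norm_sum_place_le (κ := κ) Finset.univ (tens G H)
    rw [Finset.card_univ, ← hSD, ← hB] at h1
    exact h1.trans (mul_le_mul_of_nonneg_left (norm_tens_le G H) hBpos.le)
  have hgh : 0 ≤ ‖G‖ * ‖H‖ := mul_nonneg (norm_nonneg _) (norm_nonneg _)
  have hAinv : 0 < A⁻¹ := inv_pos.2 hApos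
  have hle : A⁻¹ ≤ B⁻¹ := inv_anti₀ hBpos (by linarith)
  have hn1 : ‖((A⁻¹ : ℝ) : ℂ) • ∑ p ∈ I, X p‖ ≤ J / A * (‖G‖ * ‖H‖) := by
    rw [norm_smul, Complex.norm_real, Real.norm_eq_abs, abs_of_pos hAinv]
    calc A⁻¹ * ‖∑ p ∈ I, X p‖ ≤ A⁻¹ * (J * (‖G‖ * ‖H‖)) :=
          mul_le_mul_of_nonneg_left hSI hAinv.le
      _ = J / A * (‖G‖ * ‖H‖) := by rw [div_eq_mul_inv]; ring
  have hn2 : ‖((A⁻¹ - B⁻¹ : ℝ) : ℂ) • SD‖ ≤ J / A * (‖G‖ * ‖H‖) := by
    rw [norm_smul, Complex.norm_real, Real.norm_eq_abs, abs_of_nonpos (by linarith)]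
    calc -(A⁻¹ - B⁻¹) * ‖SD‖ ≤ -(A⁻¹ - B⁻¹) * (B * (‖G‖ * ‖H‖)) :=
          mul_le_mul_of_nonneg_left hSDn (by linarith)
      _ = J / A * (‖G‖ * ‖H‖) := by
          have : J = A - B := by linarith
          rw [this]
          field_simp
          ring
  have hJA : J / A ≤ (Fintype.card μ * Fintype.card ν : ℝ) / Fintype.card κ := by
    have hk' : (0 : ℝ) < Fintype.card κ := by exact_mod_cast hk
    rw [div_le_div_iff₀ hApos hk']
    have := card_intersecting_le (μ := μ) (ν := ν) (κ := κ)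
    rw [← hI, ← hJ, ← hA] at this
    exact this
  rw [hdiff]
  calc _ ≤ J / A * (‖G‖ * ‖H‖) + J / A * (‖G‖ * ‖H‖) :=
        (norm_add_le _ _).trans (add_le_add hn1 hn2)
    _ = 2 * (J / A) * (‖G‖ * ‖H‖) := by ring
    _ ≤ 2 * ((Fintype.card μ * Fintype.card ν : ℝ) / Fintype.card κ) * (‖G‖ * ‖H‖) := by
        gcongr
    _ = _ := by ring

end Avg

end Claimed.Agent.R296
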