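import Claimed.Agent.R296.Replica.Word
import Claimed.Agent.R296.CondSkew

/-!
# Row 296, P1 Section 5, proof of `lem:symbol`: the similarity transform is a limit of star words

Architect: helper197.  Package RP-M2 (this file, about 1000 lines); RP-M3 = `MarkedOne.lean` (one-copy
side, about 600 lines); `Symbol.lean` assembles.

Fixed: a partition `(P, Y, F)`, `0 < t < 1/4`, and `h = ∑_α c_α ⊗ e_α` with `c_α` on `P`, `e_α` on `Y`.
`O = A^{-1/2} \bar h A^{1/2}`, `A^{1/2} = W_P⁻¹ W_F⁻¹ W_Y`.  For polynomials `p₁ ≈ u_+^t`,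
`p₂ ≈ max(u,δ)^{-t}` on `[-1,1]` the approximant is the element of the word algebra
  `apxW = ∑_α p₂(J_Y) e_α p₁(J_Y) p₁(J_P) c_α p₂(J_P)`.

ReplicaSide (paper: "Bounded approximation on symmetric inputs").  For symmetric `z, z'`:
  `⟨z', O z⟩ = ⟨z', R_P R_Y⁻¹ h^{(j₀)} R_P⁻¹ R_Y z⟩`                                   (`simO_form`)
  `          = ∑_α ⟨R_Y e_α^* R_Y⁻¹ z', R_P c_α R_P⁻¹ z⟩`                               (`marked_prod_form`)
both inverses act directly on symmetric vectors: `RQinv_bound`, `RQinv_clip`, `norm_RQ_le`,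
`RQ_forward` (Transfer.lean).  We use two different vectors `z, z'`, so no polarisation is needed.
OneCopySide (paper: "Removing clipping"): `∑_{0<p_i<δ} p_i^{1-2t} ≤ d δ^{1-2t}`.

Proved by helper143 (auxiliary lemmas: prefix `mkd`).
-/

set_option autoImplicit false
set_option linter.unusedSectionVars false

namespace Claimed.Agent.R296

open Matrix
open scoped ComplexOrder MatrixOrder Matrix.Norms.L2Operator

variable {s : Type} [DecidableEq s] [Fintype s] {io : s → Type}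
  [∀ x, Fintype (io x)] [∀ x, DecidableEq (io x)] [∀ x, Nonempty (io x)]
  {κ : Type} [Fintype κ] [DecidableEq κ]

/-- `p` approximates `u ↦ u_+^t` on `[-1,1]` within `η` -/
def ApxFwd (t η : ℝ) (p : Polynomial ℝ) : Prop :=
  ∀ u ∈ Set.Icc (-1 : ℝ) 1, |p.eval u - (max u 0) ^ t| ≤ η

/-- `p` approximates `u ↦ max(u,δ)^{-t}` on `[-1,1]` within `η` -/
def ApxInv (t δ η : ℝ) (p : Polynomial ℝ) : Prop :=
  ∀ u ∈ Set.Icc (-1 : ℝ) 1, |p.eval u - (max u δ) ^ (-t)| ≤ η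

/-- Weierstrass -/
theorem exists_apxFwd (t η : ℝ) (ht : 0 < t) (hη : 0 < η) : ∃ p, ApxFwd t η p := by
  have hc : ContinuousOn (fun u : ℝ => (max u 0) ^ t) (Set.Icc (-1) 1) :=
    ((continuous_id.max continuous_const).rpow_const fun _ => Or.inr ht.le).continuousOn
  obtain ⟨p, hp⟩ := exists_polynomial_near_of_continuousOn (-1) 1 _ hc η hη
  exact ⟨p, fun u hu => (hp u hu).le⟩

theorem exists_apxInv (t δ η : ℝ) (hδ : 0 < δ) (hη : 0 < η) : ∃ p, ApxInv t δ η p := by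
  have hc : ContinuousOn (fun u : ℝ => (max u δ) ^ (-t)) (Set.Icc (-1) 1) :=
    ((continuous_id.max continuous_const).rpow_const fun u =>
      Or.inl (lt_of_lt_of_le hδ (le_max_right _ _)).ne').continuousOn
  obtain ⟨p, hp⟩ := exists_polynomial_near_of_continuousOn (-1) 1 _ hc η hη
  exact ⟨p, fun u hu => (hp u hu).le⟩

/-- an operator supported in `P ∪ Y` is a finite sum of products -/
theorem exists_prod_decomp {P Y D : Finset s} (hPY : Disjoint P Y) (hD : D ⊆ P ∪ Y)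
    (K : Matrix (CfgOn io D) (CfgOn io D) ℂ) :
    ∃ (n : ℕ) (c : Fin n → Matrix (CfgOn io P) (CfgOn io P) ℂ)
      (e : Fin n → Matrix (CfgOn io Y) (CfgOn io Y) ℂ),
      emb D K = ∑ α, emb P (c α) * emb Y (e α) := by
  classical
  set M := emb D K with hM
  have hS : SuppIn (P ∪ Y) M := SuppIn.mono hD ⟨K, rfl⟩
  obtain ⟨h1, h2⟩ := (suppIn_iff _ _).1 hS
  let ρ₀ : Cfg io := fun _ => Classical.arbitrary _
  let G : CfgOn io P → CfgOn io Y → Cfg io := fun a b x =>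
    if h : x ∈ P then a ⟨x, h⟩ else if h' : x ∈ Y then b ⟨x, h'⟩ else ρ₀ x
  let eY : CfgOn io P × CfgOn io P → Matrix (CfgOn io Y) (CfgOn io Y) ℂ := fun q =>
    Matrix.of fun b b' => M (G q.1 b) (G q.2 b')
  let e₀ := Fintype.equivFin (CfgOn io P × CfgOn io P)
  refine ⟨Fintype.card (CfgOn io P × CfgOn io P),
    fun α => Matrix.single (e₀.symm α).1 (e₀.symm α).2 1, fun α => eY (e₀.symm α), ?_⟩
  rw [Equiv.sum_comp e₀.symm (fun q : CfgOn io P × CfgOn io P =>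
    emb P (Matrix.single q.1 q.2 1) * emb Y (eY q)), Fintype.sum_prod_type]
  ext σ τ
  simp only [Matrix.sum_apply, emb_mul_apply, Matrix.single_apply]
  have key : ∀ a' : CfgOn io P, a' ≠ crOn P τ → ∀ E : Matrix (CfgOn io Y) (CfgOn io Y) ℂ,
      emb Y E (cglue P a' (crOff P σ)) τ = 0 := by
    intro a' ha E
    simp only [emb, Matrix.of_apply]
    rw [if_neg]
    intro h
    apply ha
    funext x
    have := congrFun h ⟨x.1, Finset.disjoint_left.1 hPY x.2⟩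
    simpa [crOff, cglue, crOn, x.2] using this
  rw [Finset.sum_eq_single (crOn P σ), Finset.sum_eq_single (crOn P τ),
    Finset.sum_eq_single (crOn P τ)]
  · rw [if_pos ⟨rfl, rfl⟩, one_mul]
    simp only [emb, Matrix.of_apply, eY]
    set υ := cglue P (crOn P τ) (crOff P σ) with hυ
    have hυP : ∀ x, x ∈ P → υ x = τ x := fun x hx => by simp [hυ, cglue, crOn, hx]
    have hυN : ∀ x, x ∉ P → υ x = σ x := fun x hx => by simp [hυ, cglue, crOff, hx]
    by_cases hc : crOff Y υ = crOff Y τ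
    · rw [if_pos hc]
      have hoff : ∀ x, x ∉ P ∪ Y → σ x = τ x := by
        intro x hx
        rw [Finset.mem_union, not_or] at hx
        have := congrFun hc ⟨x, hx.2⟩
        simp only [crOff] at this
        rw [← hυN x hx.1, this]
      rw [← h2 σ τ ρ₀ hoff]
      congr 1
      · funext x
        simp only [G, cmix, crOn, Finset.mem_union]
        by_cases hx : x ∈ P
        · simp [hx]
        · by_cases hy : x ∈ Y
          · simp [hx, hy, hυN x hx]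
          · simp [hx, hy]
      · funext x
        simp only [G, cmix, crOn, Finset.mem_union]
        by_cases hx : x ∈ P
        · simp [hx]
        · by_cases hy : x ∈ Y
          · simp [hx, hy]
          · simp [hx, hy]
    · rw [if_neg hc]
      apply h1
      by_contra hcon
      push Not at hcon
      apply hc
      funext x
      simp only [crOff]
      by_cases hx : x.1 ∈ P
      · exact hυP _ hx
      · rw [hυN _ hx]
        exact hcon x.1 (by rw [Finset.mem_union, not_or]; exact ⟨hx, x.2⟩)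
  · intro a' _ ha
    rw [key a' ha, mul_zero]
  · intro h; exact absurd (Finset.mem_univ _) h
  · intro c _ hc
    refine Finset.sum_eq_zero fun a' _ => ?_
    by_cases h : c = a'
    · rw [key a' (h ▸ hc), mul_zero]
    · rw [if_neg (fun hh => h hh.2), zero_mul]
  · intro h; exact absurd (Finset.mem_univ _) h
  · intro x _ hx
    refine Finset.sum_eq_zero fun c _ => Finset.sum_eq_zero fun a' _ => ?_
    rw [if_neg (fun hh => hx hh.1), zero_mul]
  · intro h; exact absurd (Finset.mem_univ _) h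

/-! ### monoid bookkeeping -/

theorem mkd_cancel_mid {R : Type*} [Monoid R] {a x c c' y : R} (hc : Commute c x)
    (h1 : c * c' = 1) : a * (c * x) * c' * y = a * x * y := by
  rw [hc.eq]
  calc a * (x * c) * c' * y = a * x * (c * c') * y := by simp only [mul_assoc]
    _ = a * x * y := by rw [h1, mul_one]

/-- `W_{k-1}^z` on the copies `≠ j₀` of `Q` -/
noncomputable def mkdS (t : ℝ) (Q : Finset s) (j₀ : κ) (z : ℝ) :
    Matrix (RCfg io κ) (RCfg io κ) ℂ :=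
  repQ Q (Rep.gsub j₀ (Rep.Wpow {j // j ≠ j₀} (dV io) t z))

theorem mkd_RQ_eq (t : ℝ) (Q : Finset s) (j₀ : κ) :
    RQ (io := io) t Q j₀ = WQ t Q 1 * mkdS t Q j₀ (-1) := by
  rw [RQ, Rep.Rel, map_mul]; rfl

theorem mkd_RQinv_eq (t : ℝ) (Q : Finset s) (j₀ : κ) :
    RQinv (io := io) t Q j₀ = WQ t Q (-1) * mkdS t Q j₀ 1 := by
  rw [RQinv, Rep.RelInv, map_mul]; rfl

theorem mkdS_mul_neg (t : ℝ) (ht : 0 < t) (Q : Finset s) (j₀ : κ) (z : ℝ) :
    mkdS (io := io) t Q j₀ z * mkdS t Q j₀ (-z) = 1 := by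
  rw [mkdS, mkdS, ← map_mul, ← map_mul, Rep.Wpow_add (dV io) one_le_dV t ht, add_neg_cancel,
    Rep.Wpow_zero, map_one, map_one]

theorem mkdS_commute_WQ (t : ℝ) (Q : Finset s) (j₀ : κ) (z z' : ℝ) :
    Commute (mkdS (io := io) t Q j₀ z) (WQ t Q z') := by
  rw [mkdS, WQ]
  exact ((show Commute _ _ from Rep.Wpow_comm (dV io) t z' κ _).map (repQ Q)).symm

theorem mkdS_commute_copyOp (t : ℝ) (Q : Finset s) (j₀ : κ) (z : ℝ)
    (h : Matrix (Cfg io) (Cfg io) ℂ) : Commute (mkdS (io := io) t Q j₀ z) (copyOp j₀ h) :=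
  repQ_gsub_commute_copyOp Q j₀ _ h

/-- the operator identity behind (replicas:marked-word) -/
theorem mkd_band_eq (t : ℝ) (ht : 0 < t) {P Y F D : Finset s} (h3 : IsPart3 P Y F)
    (hD : D ⊆ P ∪ Y) (K : Matrix (CfgOn io D) (CfgOn io D) ℂ) (j₀ : κ) :
    bandFull t P Y F (-(1 / 2)) * copyOp j₀ (emb D K) * bandFull t P Y F (1 / 2)
      = RQ t P j₀ * RQinv t Y j₀ * copyOp j₀ (emb D K) * (RQinv t P j₀ * RQ t Y j₀) := by
  have hDF : Disjoint D F :=
    Finset.disjoint_of_subset_left hD (Finset.disjoint_union_left.2 ⟨h3.dPF, h3.dYF⟩)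
  have e1 : -(2 * -(1 / 2 : ℝ)) = 1 := by norm_num
  have e2 : (2 * -(1 / 2 : ℝ)) = -1 := by norm_num
  have e3 : -(2 * (1 / 2 : ℝ)) = -1 := by norm_num
  have e4 : (2 * (1 / 2 : ℝ)) = 1 := by norm_num
  rw [bandFull, bandFull, e1, e2, e3, e4, mkd_RQ_eq, mkd_RQ_eq, mkd_RQinv_eq, mkd_RQinv_eq]
  set h := copyOp j₀ (emb D K) with hh
  set A := WQ (io := io) (κ := κ) t P 1
  set A' := WQ (io := io) (κ := κ) t P (-1)
  set B := WQ (io := io) (κ := κ) t Y (-1)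
  set B' := WQ (io := io) (κ := κ) t Y 1
  set C := WQ (io := io) (κ := κ) t F 1
  set C' := WQ (io := io) (κ := κ) t F (-1)
  set S := mkdS (io := io) t P j₀ (-1)
  set S' := mkdS (io := io) t P j₀ 1
  set T := mkdS (io := io) t Y j₀ 1
  set T' := mkdS (io := io) t Y j₀ (-1)
  have hCB : Commute C B := WQ_commute t ht (Or.inr (Or.inr h3.dYF.symm)) _ _
  have hCh : Commute C h := repQ_commute_copyOp F hDF _ j₀ K
  have hCA : Commute C A' := WQ_commute t ht (Or.inr (Or.inr h3.dPF.symm)) _ _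
  have hCC : C * C' = 1 := by
    rw [WQ_add t ht, add_neg_cancel, WQ_zero t ht]
  have hSB : Commute S B := repQ_commute_disjoint h3.dPY _ _
  have hST : Commute S T := repQ_commute_disjoint h3.dPY _ _
  have hSh : Commute S h := mkdS_commute_copyOp t P j₀ _ _
  have hSA : Commute S A' := mkdS_commute_WQ t P j₀ _ _
  have hSS : S * S' = 1 := by
    have := mkdS_mul_neg (io := io) t ht P j₀ (-1)
    rwa [neg_neg] at this
  have hTh : Commute T h := mkdS_commute_copyOp t Y j₀ _ _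
  have hTA : Commute T A' := repQ_commute_disjoint h3.dPY.symm _ _
  have hTB : Commute T B' := mkdS_commute_WQ t Y j₀ _ _
  have hTT : T * T' = 1 := mkdS_mul_neg (io := io) t ht Y j₀ 1
  have L : A * C * B * h * (A' * C' * B') = A * (B * h * A') * B' := by
    rw [← mkd_cancel_mid (a := A) (y := B') ((hCB.mul_right hCh).mul_right hCA) hCC]
    simp only [mul_assoc]
  have R1 : A * S * (B * T) * h * (A' * S' * (B' * T')) = A * (B * T * h * A') * (B' * T') := by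
    rw [← mkd_cancel_mid (a := A) (y := B' * T')
      (((hSB.mul_right hST).mul_right hSh).mul_right hSA) hSS]
    simp only [mul_assoc]
  have R2 : A * (B * T * h * A') * (B' * T') = A * B * (h * A' * B') * 1 := by
    rw [← mkd_cancel_mid (a := A * B) (y := (1 : Matrix (RCfg io κ) (RCfg io κ) ℂ))
      ((hTh.mul_right hTA).mul_right hTB) hTT]
    simp only [mul_assoc, mul_one]
  rw [L, R1, R2]
  simp only [mul_assoc, mul_one]

/-- eq. (replicas:marked-word) -/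
theorem simO_form (t : ℝ) (ht : 0 < t) {P Y F D : Finset s} (h3 : IsPart3 P Y F) (hD : D ⊆ P ∪ Y)
    (K : Matrix (CfgOn io D) (CfgOn io D) ℂ) (j₀ : κ) {z z' : RCfg io κ → ℂ} (hz : IsSymVec z)
    (hz' : IsSymVec z') :
    star (cmpVec z') ⬝ᵥ (simO κ t P Y F (emb D K) *ᵥ cmpVec z)
      = star z' ⬝ᵥ ((RQ t P j₀ * RQinv t Y j₀ * copyOp j₀ (emb D K) *
          (RQinv t P j₀ * RQ t Y j₀)) *ᵥ z) := by
  rw [simO, bandMz, bandMz, barOp, ← cmp_mul (bandFull_commute_symProj t ht P Y F _),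
    ← cmp_mul' _ (bandFull_commute_symProj t ht P Y F _), cmp_quadratic_form,
    symV_mulVec_cmpVec hz, symV_mulVec_cmpVec hz',
    copyAvg_quadratic_form hz hz' (bandFull_commute_UQ_univ t ht P Y F _)
      (bandFull_commute_UQ_univ t ht P Y F _) _ j₀, mkd_band_eq t ht h3 hD]

theorem mkd_aeval_isHermitian {n : Type*} [Fintype n] [DecidableEq n] {A : Matrix n n ℂ}
    (hA : A.IsHermitian) (p : Polynomial ℝ) : (Polynomial.aeval A p).IsHermitian := by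
  rw [Polynomial.aeval_eq_sum_range, IsHermitian, conjTranspose_sum]
  refine Finset.sum_congr rfl fun i _ => ?_
  rw [conjTranspose_smul, conjTranspose_pow, hA.eq, star_trivial]

theorem mkd_copyOp_commute {P Y : Finset s} (hPY : Disjoint P Y)
    (c : Matrix (CfgOn io P) (CfgOn io P) ℂ) (e : Matrix (CfgOn io Y) (CfgOn io Y) ℂ) (j₀ : κ) :
    Commute (copyOp j₀ (emb P c)) (copyOp j₀ (emb Y e)) := by
  have h : Commute (emb P c) (emb Y e) := SuppIn.commute hPY ⟨c, rfl⟩ ⟨e, rfl⟩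
  rw [Commute, SemiconjBy, ← copyOp_mul, ← copyOp_mul, h.eq]

/-- eq. (replicas:inverse-innermost) -/
theorem marked_prod_form (t : ℝ) (ht : 0 < t) {P Y : Finset s} (hPY : Disjoint P Y)
    (c : Matrix (CfgOn io P) (CfgOn io P) ℂ) (e : Matrix (CfgOn io Y) (CfgOn io Y) ℂ) (j₀ : κ)
    (z z' : RCfg io κ → ℂ) :
    star z' ⬝ᵥ ((RQ t P j₀ * RQinv t Y j₀ * copyOp j₀ (emb P c * emb Y e) *
          (RQinv t P j₀ * RQ t Y j₀)) *ᵥ z)
      = star ((RQ t Y j₀ * copyOp j₀ (emb Y e.conjTranspose) * RQinv t Y j₀) *ᵥ z') ⬝ᵥ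
          ((RQ t P j₀ * copyOp j₀ (emb P c) * RQinv t P j₀) *ᵥ z) := by
  set RP := RQ (io := io) t P j₀ with hRP
  set RPi := RQinv (io := io) t P j₀ with hRPi
  set RY := RQ (io := io) t Y j₀ with hRY
  set RYi := RQinv (io := io) t Y j₀ with hRYi
  set cP := copyOp j₀ (emb P c) with hcP
  set eY := copyOp j₀ (emb Y e) with heY
  have h1 : Commute RP RYi := repQ_commute_disjoint hPY _ _
  have h2 : Commute RP eY := repQ_commute_copyOp P hPY.symm _ j₀ e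
  have h3 : Commute cP eY := mkd_copyOp_commute hPY c e j₀
  have h4 : Commute RP RY := repQ_commute_disjoint hPY _ _
  have h5 : Commute cP RY := (repQ_commute_copyOp Y hPY _ j₀ c).symm
  have h6 : Commute RPi RY := repQ_commute_disjoint hPY _ _
  have key : RP * RYi * (cP * eY) * (RPi * RY) = (RYi * eY * RY) * (RP * cP * RPi) := by
    calc RP * RYi * (cP * eY) * (RPi * RY)
        = (RP * RYi) * cP * eY * RPi * RY := by simp only [mul_assoc]
      _ = RYi * ((RP * cP) * eY) * RPi * RY := by rw [h1.eq]; simp only [mul_assoc]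
      _ = RYi * (eY * (RP * cP)) * RPi * RY := by rw [(h2.mul_left h3).eq]
      _ = RYi * eY * ((RP * cP * RPi) * RY) := by simp only [mul_assoc]
      _ = RYi * eY * (RY * (RP * cP * RPi)) := by rw [((h4.mul_left h5).mul_left h6).eq]
      _ = _ := by simp only [mul_assoc]
  have hadj : (RYi * eY * RY).conjTranspose
      = RY * copyOp j₀ (emb Y e.conjTranspose) * RYi := by
    rw [conjTranspose_mul, conjTranspose_mul, (RQ_isHermitian t Y j₀).eq,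
      (RQinv_isHermitian t Y j₀).eq, heY, copyOp_conjTranspose, emb_conjTranspose, mul_assoc]
  rw [copyOp_mul, key, ← mulVec_mulVec, tr_dot_conjTranspose, hadj]

/-- the same identity for the approximant -/
theorem apx_prod_form {P Y : Finset s} (hPY : Disjoint P Y) (p₁ p₂ : Polynomial ℝ)
    (c : Matrix (CfgOn io P) (CfgOn io P) ℂ) (e : Matrix (CfgOn io Y) (CfgOn io Y) ℂ) (j₀ : κ)
    (z z' : RCfg io κ → ℂ) :
    star z' ⬝ᵥ ((Polynomial.aeval (JQ (io := io) Y j₀) p₂ * copyOp j₀ (emb Y e) *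
          Polynomial.aeval (JQ (io := io) Y j₀) p₁ *
          (Polynomial.aeval (JQ (io := io) P j₀) p₁ * copyOp j₀ (emb P c) *
            Polynomial.aeval (JQ (io := io) P j₀) p₂)) *ᵥ z)
      = star ((Polynomial.aeval (JQ (io := io) Y j₀) p₁ * copyOp j₀ (emb Y e.conjTranspose) *
            Polynomial.aeval (JQ (io := io) Y j₀) p₂) *ᵥ z') ⬝ᵥ
          ((Polynomial.aeval (JQ (io := io) P j₀) p₁ * copyOp j₀ (emb P c) *
            Polynomial.aeval (JQ (io := io) P j₀) p₂) *ᵥ z) := by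
  rw [← mulVec_mulVec, tr_dot_conjTranspose, conjTranspose_mul, conjTranspose_mul,
    (mkd_aeval_isHermitian (JQ_isHermitian Y j₀) p₁).eq,
    (mkd_aeval_isHermitian (JQ_isHermitian Y j₀) p₂).eq, copyOp_conjTranspose, emb_conjTranspose]
  simp only [Matrix.mul_assoc]

theorem mkd_copyOp_sub (j : κ) (g h : Matrix (Cfg io) (Cfg io) ℂ) :
    copyOp j (g - h) = copyOp j g - copyOp j h := by
  ext c c'
  simp only [copyOp, Matrix.of_apply, Matrix.sub_apply]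
  split_ifs <;> simp

theorem mkd_copyOp_smul (j : κ) (a : ℂ) (h : Matrix (Cfg io) (Cfg io) ℂ) :
    copyOp j (a • h) = a • copyOp j h := by
  ext c c'
  simp only [copyOp, Matrix.of_apply, Matrix.smul_apply]
  split_ifs <;> simp

theorem mkd_copyOp_sum {ι : Type*} (j : κ) (S : Finset ι) (h : ι → Matrix (Cfg io) (Cfg io) ℂ) :
    copyOp j (∑ i ∈ S, h i) = ∑ i ∈ S, copyOp j (h i) := by
  classical
  induction S using Finset.induction_on with
  | empty =>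
    have := mkd_copyOp_smul (io := io) j 0 0
    simpa using this
  | insert a S ha ih => rw [Finset.sum_insert ha, Finset.sum_insert ha, copyOp_add, ih]

theorem mkd_norm_copyOp_le (j : κ) (h : Matrix (Cfg io) (Cfg io) ℂ) :
    ‖(copyOp j h : Matrix (RCfg io κ) (RCfg io κ) ℂ)‖ ≤ ‖h‖ := by
  apply Rep.br_norm_le_of_gram _ _ (norm_nonneg h)
  have h1 := copyOp_posSemidef (κ := κ) j (posSemidef_of_opNorm_le (le_refl ‖h‖))
  rwa [mkd_copyOp_sub, mkd_copyOp_smul, copyOp_one, copyOp_mul, ← copyOp_conjTranspose] at h1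

theorem mkd_norm_copyOp_emb_le (j : κ) (Q : Finset s) (c : Matrix (CfgOn io Q) (CfgOn io Q) ℂ) :
    ‖(copyOp j (emb Q c) : Matrix (RCfg io κ) (RCfg io κ) ℂ)‖ ≤ ‖c‖ :=
  (mkd_norm_copyOp_le j _).trans (norm_emb_le Q c)

theorem mkd_abs_eigenvalues_le {n : Type*} [Fintype n] [DecidableEq n] {A : Matrix n n ℂ}
    (hA : A.IsHermitian) (i : n) : |hA.eigenvalues i| ≤ ‖A‖ := by
  have h1 := hA.mulVec_eigenvectorBasis i
  set v : n → ℂ := ⇑(hA.eigenvectorBasis i) with hv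
  have hv1 : l2n v = 1 := by
    have := hA.eigenvectorBasis.orthonormal.1 i
    simp [l2n, hv]
  have h2 := l2n_mulVec_le A v
  have h3 : hA.eigenvalues i • v = ((hA.eigenvalues i : ℝ) : ℂ) • v := by
    ext x; simp
  rw [h1, h3, l2n_smul, hv1, mul_one, mul_one, Complex.norm_real, Real.norm_eq_abs] at h2
  exact h2

/-- a real polynomial of a Hermitian contraction is bounded by its sup norm on `[-1,1]` -/
theorem mkd_norm_aeval_le {n : Type*} [Fintype n] [DecidableEq n] {A : Matrix n n ℂ}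
    (hA : A.IsHermitian) (h1 : ‖A‖ ≤ 1) (p : Polynomial ℝ) {M : ℝ} (hM : 0 ≤ M)
    (hp : ∀ u ∈ Set.Icc (-1 : ℝ) 1, |p.eval u| ≤ M) : ‖Polynomial.aeval A p‖ ≤ M := by
  have e : Polynomial.aeval A p = mfun (fun x => ((p.eval x : ℝ) : ℂ)) A := by
    rw [mfun_eq_aeval hA _ (p.map (algebraMap ℝ ℂ)), Polynomial.aeval_map_algebraMap]
    intro i
    rw [Polynomial.eval_map]
    exact Polynomial.eval₂_at_apply (algebraMap ℝ ℂ) _
  rw [e]
  refine norm_mfun_le hA _ hM fun i => ?_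
  rw [Complex.norm_real, Real.norm_eq_abs]
  exact hp _ (abs_le.1 ((mkd_abs_eigenvalues_le hA i).trans h1))

theorem mkd_norm_apxInv_le {t δ η : ℝ} (ht : 0 < t) (hδ0 : 0 < δ) (hδ1 : δ < 1) (hη1 : η ≤ 1)
    {p : Polynomial ℝ} (hp : ApxInv t δ η p) (Q : Finset s) (j₀ : κ) :
    ‖Polynomial.aeval (JQ (io := io) Q j₀) p‖ ≤ 2 * δ ^ (-t) := by
  have hδt : 1 ≤ δ ^ (-t) :=
    Real.one_le_rpow_of_pos_of_le_one_of_nonpos hδ0 hδ1.le (by linarith)
  refine mkd_norm_aeval_le (JQ_isHermitian Q j₀) (norm_JQ_le Q j₀) p (by positivity) fun u hu => ?_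
  have h1 := hp u hu
  have h2 : (max u δ) ^ (-t) ≤ δ ^ (-t) :=
    Real.rpow_le_rpow_of_nonpos hδ0 (le_max_right _ _) (by linarith)
  have h3 : 0 ≤ (max u δ) ^ (-t) := Real.rpow_nonneg (le_trans hδ0.le (le_max_right _ _)) _
  rw [abs_le] at h1 ⊢
  constructor <;> linarith [h1.1, h1.2]

/-- one conjugated factor: `‖(R c R⁻¹ - p₁(J) c p₂(J)) z‖` on symmetric `z` -/
theorem conj_factor_approx (io : s → Type) [∀ x, Fintype (io x)] [∀ x, DecidableEq (io x)]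
    [∀ x, Nonempty (io x)] (t : ℝ) (ht0 : 0 < t) (ht1 : t < 1 / 2) :
    ∃ C : ℝ, 1 ≤ C ∧ ∀ δ : ℝ, 0 < δ → δ < 1 → ∀ ε : ℝ, 0 < ε →
      ∃ k₀ : ℕ, ∀ (κ : Type) [Fintype κ] [DecidableEq κ] (j₀ : κ) (Q : Finset s),
        k₀ ≤ Fintype.card κ → ∀ (p₁ p₂ : Polynomial ℝ) (η : ℝ), 0 ≤ η → η ≤ 1 →
          ApxFwd t η p₁ → ApxInv t δ η p₂ →
          ∀ (c : Matrix (CfgOn io Q) (CfgOn io Q) ℂ) (z : RCfg io κ → ℂ), IsSymVec z →
            l2n ((RQ t Q j₀ * copyOp j₀ (emb Q c) * RQinv t Q j₀ -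
              Polynomial.aeval (JQ (io := io) Q j₀) p₁ * copyOp j₀ (emb Q c) *
                Polynomial.aeval (JQ (io := io) Q j₀) p₂) *ᵥ z)
              ≤ C * ‖c‖ * (δ ^ ((1 - 2 * t) / 2) + (ε + η) * δ ^ (-t)) * l2n z ∧
            l2n ((RQ t Q j₀ * copyOp j₀ (emb Q c) * RQinv t Q j₀) *ᵥ z) ≤ C * ‖c‖ * l2n z := by
  obtain ⟨CR₀, hCR₀⟩ := norm_RQ_le io t ht0 (by linarith)
  obtain ⟨CI, hCI0, hCI⟩ := RQinv_bound io t ht0 ht1
  obtain ⟨CC, hCC0, hCC⟩ := RQinv_clip io t ht0 ht1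
  set CR := max CR₀ 0 with hCRdef
  have hCR0 : 0 ≤ CR := le_max_right _ _
  have hA1 : 0 ≤ CR * CC := mul_nonneg hCR0 hCC0.le
  have hA2 : 0 ≤ CR * CI := mul_nonneg hCR0 hCI0
  refine ⟨1 + CR * CC + (CR + 2) + CR * CI, by linarith, fun δ hδ0 hδ1 ε hε => ?_⟩
  obtain ⟨k1, hk1⟩ := RQ_forward io t ht0 (by linarith) ε hε
  obtain ⟨k2, hk2⟩ := hCC δ hδ0 hδ1 ε hε
  refine ⟨max k1 k2, fun κ _ _ j₀ Q hκ p₁ p₂ η hη0 hη1 hp₁ hp₂ c z hz => ?_⟩
  set R := RQ (io := io) t Q j₀ with hR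
  set Ri := RQinv (io := io) t Q j₀ with hRi
  set cc := copyOp j₀ (emb Q c) with hcc
  set q₁ := Polynomial.aeval (JQ (io := io) Q j₀) p₁ with hq₁
  set q₂ := Polynomial.aeval (JQ (io := io) Q j₀) p₂ with hq₂
  set C := 1 + CR * CC + (CR + 2) + CR * CI with hC
  have nR : ‖R‖ ≤ CR := (hCR₀ κ j₀ Q).trans (le_max_left _ _)
  have ncc : ‖cc‖ ≤ ‖c‖ := mkd_norm_copyOp_emb_le j₀ Q c
  have nF : ‖R - q₁‖ ≤ η + ε := hk1 κ j₀ Q ((le_max_left _ _).trans hκ) p₁ η hp₁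
  have nI : l2n ((Ri - q₂) *ᵥ z) ≤ (CC * δ ^ ((1 - 2 * t) / 2) + ε + η) * l2n z :=
    hk2 κ j₀ Q ((le_max_right _ _).trans hκ) p₂ η hη0 hp₂ z hz
  have nIb : l2n (Ri *ᵥ z) ≤ CI * l2n z := hCI κ j₀ Q z hz
  have hδt : 1 ≤ δ ^ (-t) :=
    Real.one_le_rpow_of_pos_of_le_one_of_nonpos hδ0 hδ1.le (by linarith)
  have nq₂ : ‖q₂‖ ≤ 2 * δ ^ (-t) := mkd_norm_apxInv_le ht0 hδ0 hδ1 hη1 hp₂ Q j₀
  have nRc : ‖R * cc‖ ≤ CR * ‖c‖ :=
    (norm_mul_le _ _).trans (mul_le_mul nR ncc (norm_nonneg _) hCR0)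
  have hL := l2n_nonneg z
  have hn := norm_nonneg c
  set X := δ ^ ((1 - 2 * t) / 2) with hX
  have hX0 : 0 ≤ X := Real.rpow_nonneg hδ0.le _
  constructor
  · have e : (R * cc * Ri - q₁ * cc * q₂) *ᵥ z
        = (R * cc) *ᵥ ((Ri - q₂) *ᵥ z) + ((R - q₁) * cc * q₂) *ᵥ z := by
      rw [mulVec_mulVec, ← add_mulVec]
      congr 1
      noncomm_ring
    rw [e]
    have b1 : l2n ((R * cc) *ᵥ ((Ri - q₂) *ᵥ z)) ≤ CR * ‖c‖ * ((CC * X + ε + η) * l2n z) :=
      (l2n_mulVec_le _ _).trans (mul_le_mul nRc nI (l2n_nonneg _) (by positivity))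
    have b2 : l2n (((R - q₁) * cc * q₂) *ᵥ z) ≤ (η + ε) * ‖c‖ * (2 * δ ^ (-t)) * l2n z := by
      refine (l2n_mulVec_le _ _).trans (mul_le_mul_of_nonneg_right ?_ hL)
      refine (norm_mul_le _ _).trans (mul_le_mul ?_ nq₂ (norm_nonneg _) (by positivity))
      exact (norm_mul_le _ _).trans (mul_le_mul nF ncc (norm_nonneg _) (by positivity))
    refine (l2n_add_le _ _).trans ((add_le_add b1 b2).trans ?_)
    have hW : ε + η ≤ (ε + η) * δ ^ (-t) := le_mul_of_one_le_right (by positivity) hδt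
    set W := (ε + η) * δ ^ (-t) with hWdef
    have hW0 : 0 ≤ W := by positivity
    have key : CR * (CC * X + (ε + η)) + 2 * W ≤ C * (X + W) := by
      have h1 : CR * (ε + η) ≤ CR * W := mul_le_mul_of_nonneg_left hW hCR0
      have h2 : 0 ≤ CR * CI := mul_nonneg hCR0 hCI0
      have h3 : 0 ≤ CR * CC := mul_nonneg hCR0 hCC0.le
      have h4 : (CR * CC) * X ≤ C * X := mul_le_mul_of_nonneg_right (by rw [hC]; linarith) hX0
      have h5 : (CR + 2) * W ≤ C * W := mul_le_mul_of_nonneg_right (by rw [hC]; linarith) hW0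
      nlinarith
    have hnL : 0 ≤ ‖c‖ * l2n z := mul_nonneg hn hL
    calc CR * ‖c‖ * ((CC * X + ε + η) * l2n z) + (η + ε) * ‖c‖ * (2 * δ ^ (-t)) * l2n z
        = (CR * (CC * X + (ε + η)) + 2 * W) * (‖c‖ * l2n z) := by rw [hWdef]; ring
      _ ≤ C * (X + W) * (‖c‖ * l2n z) := mul_le_mul_of_nonneg_right key hnL
      _ = C * ‖c‖ * (X + W) * l2n z := by ring
  · rw [← mulVec_mulVec]
    have b1 : l2n ((R * cc) *ᵥ (Ri *ᵥ z)) ≤ CR * ‖c‖ * (CI * l2n z) :=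
      (l2n_mulVec_le _ _).trans (mul_le_mul nRc nIb (l2n_nonneg _) (by positivity))
    refine b1.trans ?_
    have hnL : 0 ≤ ‖c‖ * l2n z := mul_nonneg hn hL
    have h3 : 0 ≤ CR * CC := mul_nonneg hCR0 hCC0.le
    calc CR * ‖c‖ * (CI * l2n z) = (CR * CI) * (‖c‖ * l2n z) := by ring
      _ ≤ C * (‖c‖ * l2n z) := mul_le_mul_of_nonneg_right (by rw [hC]; linarith) hnL
      _ = C * ‖c‖ * l2n z := by ring

/-! ### from forms on symmetric vectors to operator norms -/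

theorem mkd_norm_le_of_form (X : Matrix (SymIx io κ) (SymIx io κ) ℂ) {M : ℝ} (hM : 0 ≤ M)
    (h : ∀ z z' : RCfg io κ → ℂ, IsSymVec z → IsSymVec z' →
      ‖star (cmpVec z') ⬝ᵥ (X *ᵥ cmpVec z)‖ ≤ M * l2n z' * l2n z) : ‖X‖ ≤ M := by
  refine opNorm_le_of_l2n hM fun v => ?_
  set w := X *ᵥ v with hw
  have h1 := h (symV *ᵥ v) (symV *ᵥ w) (isSymVec_symV_mulVec v) (isSymVec_symV_mulVec w)
  rw [cmpVec_symV_mulVec, cmpVec_symV_mulVec, l2n_isometry_mulVec _ symV_isometry,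
    l2n_isometry_mulVec _ symV_isometry, ← hw, ← l2n_sq_eq_dotProduct, Complex.norm_real,
    Real.norm_of_nonneg (sq_nonneg _)] at h1
  by_contra hlt
  rw [not_le] at hlt
  have hpos : 0 < l2n w := lt_of_le_of_lt (mul_nonneg hM (l2n_nonneg v)) hlt
  nlinarith

theorem mkd_cmp_form (X : Matrix (RCfg io κ) (RCfg io κ) ℂ) {z z' : RCfg io κ → ℂ}
    (hz : IsSymVec z) (hz' : IsSymVec z') :
    star (cmpVec z') ⬝ᵥ (cmp X *ᵥ cmpVec z) = star z' ⬝ᵥ (X *ᵥ z) := by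
  rw [cmp_quadratic_form, symV_mulVec_cmpVec hz, symV_mulVec_cmpVec hz']

theorem mkd_simO_of_isEmpty [IsEmpty κ] (t : ℝ) (P Y F : Finset s)
    (h : Matrix (Cfg io) (Cfg io) ℂ) : simO κ t P Y F h = 0 := by
  have h0 : copyAvg (κ := κ) h = 0 := by simp [copyAvg]
  rw [simO, barOp, h0, cmp_eq]
  simp

/-- the marked form of `O` for a sum of products -/
theorem mkd_simO_sum_form (t : ℝ) (ht : 0 < t) {P Y F : Finset s} (h3 : IsPart3 P Y F) {n : ℕ}
    (c : Fin n → Matrix (CfgOn io P) (CfgOn io P) ℂ) (e : Fin n → Matrix (CfgOn io Y) (CfgOn io Y) ℂ)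
    (j₀ : κ) {z z' : RCfg io κ → ℂ} (hz : IsSymVec z) (hz' : IsSymVec z') :
    star (cmpVec z') ⬝ᵥ (simO κ t P Y F (∑ α, emb P (c α) * emb Y (e α)) *ᵥ cmpVec z)
      = ∑ α, star ((RQ t Y j₀ * copyOp j₀ (emb Y (e α).conjTranspose) * RQinv t Y j₀) *ᵥ z') ⬝ᵥ
          ((RQ t P j₀ * copyOp j₀ (emb P (c α)) * RQinv t P j₀) *ᵥ z) := by
  have hS : SuppIn (P ∪ Y) (∑ α, emb P (c α) * emb Y (e α)) :=
    SuppIn.sum _ fun α _ => (SuppIn.mono Finset.subset_union_left ⟨c α, rfl⟩).mul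
      (SuppIn.mono Finset.subset_union_right ⟨e α, rfl⟩)
  obtain ⟨K', hK'⟩ := hS
  rw [hK', simO_form t ht h3 (Finset.Subset.refl _) K' j₀ hz hz', ← hK', mkd_copyOp_sum,
    Finset.mul_sum, Finset.sum_mul, sum_mulVec, dotProduct_sum]
  exact Finset.sum_congr rfl fun α _ => marked_prod_form t ht h3.dPY (c α) (e α) j₀ z z'

/-- uniform bound of one conjugated factor -/
theorem mkd_factor_bound (io : s → Type) [∀ x, Fintype (io x)] [∀ x, DecidableEq (io x)]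
    [∀ x, Nonempty (io x)] (t : ℝ) (ht0 : 0 < t) (ht1 : t < 1 / 2) :
    ∃ C : ℝ, 0 ≤ C ∧ ∀ (κ : Type) [Fintype κ] [DecidableEq κ] (j₀ : κ) (Q : Finset s)
      (c : Matrix (CfgOn io Q) (CfgOn io Q) ℂ) (z : RCfg io κ → ℂ), IsSymVec z →
        l2n ((RQ t Q j₀ * copyOp j₀ (emb Q c) * RQinv t Q j₀) *ᵥ z) ≤ C * ‖c‖ * l2n z := by
  obtain ⟨CR₀, hCR₀⟩ := norm_RQ_le io t ht0 (by linarith)
  obtain ⟨CI, hCI0, hCI⟩ := RQinv_bound io t ht0 ht1
  have hCR0 : 0 ≤ max CR₀ 0 := le_max_right _ _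
  refine ⟨max CR₀ 0 * CI, mul_nonneg hCR0 hCI0, fun κ _ _ j₀ Q c z hz => ?_⟩
  rw [← mulVec_mulVec]
  have nRc : ‖RQ (io := io) t Q j₀ * copyOp j₀ (emb Q c)‖ ≤ max CR₀ 0 * ‖c‖ :=
    (norm_mul_le _ _).trans (mul_le_mul ((hCR₀ κ j₀ Q).trans (le_max_left _ _))
      (mkd_norm_copyOp_emb_le j₀ Q c) (norm_nonneg _) hCR0)
  refine ((l2n_mulVec_le _ _).trans (mul_le_mul nRc (hCI κ j₀ Q z hz) (l2n_nonneg _)
    (mul_nonneg hCR0 (norm_nonneg _)))).trans (le_of_eq ?_)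
  ring

/-- uniform boundedness of `O_k` -/
theorem simO_bounded (t : ℝ) (ht0 : 0 < t) (ht1 : t < 1 / 2) {P Y F D : Finset s}
    (h3 : IsPart3 P Y F) (hD : D ⊆ P ∪ Y) (K : Matrix (CfgOn io D) (CfgOn io D) ℂ) :
    ∃ M : ℝ, ∀ k : ℕ, ‖simO (Fin k) t P Y F (emb D K)‖ ≤ M := by
  obtain ⟨n, c, e, hK⟩ := exists_prod_decomp h3.dPY hD K
  obtain ⟨C, hC0, hC⟩ := mkd_factor_bound io t ht0 ht1
  have hM : 0 ≤ ∑ α, (C * ‖e α‖) * (C * ‖c α‖) :=
    Finset.sum_nonneg fun α _ => by positivity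
  refine ⟨∑ α, (C * ‖e α‖) * (C * ‖c α‖), fun k => ?_⟩
  rcases k with _ | k
  · rw [mkd_simO_of_isEmpty, norm_zero]
    exact hM
  · refine mkd_norm_le_of_form _ hM fun z z' hz hz' => ?_
    rw [hK, mkd_simO_sum_form t ht0 h3 c e (Fin.last k) hz hz', Finset.sum_mul, Finset.sum_mul]
    refine (norm_sum_le _ _).trans (Finset.sum_le_sum fun α _ => ?_)
    have b1 := hC (Fin (k + 1)) (Fin.last k) Y (e α).conjTranspose z' hz'
    have b2 := hC (Fin (k + 1)) (Fin.last k) P (c α) z hz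
    rw [l2_opNorm_conjTranspose] at b1
    refine (norm_dotProduct_le _ _).trans ((mul_le_mul b1 b2 (l2n_nonneg _)
      (by have := l2n_nonneg z'; positivity)).trans (le_of_eq ?_))
    ring

/-- the polynomial approximant in the word algebra -/
noncomputable def apxW (P Y : Finset s) (p₁ p₂ : Polynomial ℝ) {n : ℕ}
    (c : Fin n → Matrix (CfgOn io P) (CfgOn io P) ℂ)
    (e : Fin n → Matrix (CfgOn io Y) (CfgOn io Y) ℂ) : WAlg io :=
  ∑ α, Polynomial.aeval (lSt Y) p₂ * lOp (emb Y (e α)) * Polynomial.aeval (lSt Y) p₁ *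
    (Polynomial.aeval (lSt P) p₁ * lOp (emb P (c α)) * Polynomial.aeval (lSt P) p₂)

theorem mkd_evOp_apxW (P Y : Finset s) (p₁ p₂ : Polynomial ℝ) {n : ℕ}
    (c : Fin n → Matrix (CfgOn io P) (CfgOn io P) ℂ)
    (e : Fin n → Matrix (CfgOn io Y) (CfgOn io Y) ℂ) (j₀ : κ) :
    evOp j₀ (apxW P Y p₁ p₂ c e)
      = ∑ α, Polynomial.aeval (JQ (io := io) Y j₀) p₂ * copyOp j₀ (emb Y (e α)) *
          Polynomial.aeval (JQ (io := io) Y j₀) p₁ *
          (Polynomial.aeval (JQ (io := io) P j₀) p₁ * copyOp j₀ (emb P (c α)) *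
            Polynomial.aeval (JQ (io := io) P j₀) p₂) := by
  rw [apxW, map_sum]
  refine Finset.sum_congr rfl fun α _ => ?_
  simp only [map_mul, evOp_aeval_lSt, evOp_lOp]

theorem mkd_form_diff {m : Type*} [Fintype m] [DecidableEq m] (u u' v v' : m → ℂ) :
    ‖star u ⬝ᵥ v - star u' ⬝ᵥ v'‖
      ≤ l2n (u - u') * l2n v + (l2n u + l2n (u - u')) * l2n (v - v') := by
  have e : star u ⬝ᵥ v - star u' ⬝ᵥ v' = star (u - u') ⬝ᵥ v + star u' ⬝ᵥ (v - v') := by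
    rw [star_sub, sub_dotProduct, dotProduct_sub]
    ring
  have h1 : l2n u' ≤ l2n u + l2n (u - u') := by
    have := l2n_sub_le u (u - u')
    rwa [sub_sub_cancel] at this
  rw [e]
  refine (norm_add_le _ _).trans (add_le_add (norm_dotProduct_le _ _) ?_)
  exact (norm_dotProduct_le _ _).trans (mul_le_mul_of_nonneg_right h1 (l2n_nonneg _))

theorem mkd_arith {C E N Δ Δ₀ Z Z' x1 x2 x3 x4 : ℝ} (hC : 0 ≤ C) (hE : 0 ≤ E) (hN : 0 ≤ N)
    (hΔ : 0 ≤ Δ) (hΔle : Δ ≤ Δ₀) (hΔ1 : Δ₀ ≤ 1) (hZ : 0 ≤ Z) (hZ' : 0 ≤ Z')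
    (h2 : 0 ≤ x2) (h4 : 0 ≤ x4)
    (b1 : x1 ≤ C * E * Δ * Z') (b2 : x2 ≤ C * N * Z) (b3 : x3 ≤ C * E * Z')
    (b4 : x4 ≤ C * N * Δ * Z) :
    x1 * x2 + (x3 + x1) * x4 ≤ 3 * C ^ 2 * Δ₀ * (E * N) * (Z' * Z) := by
  have p1 : 0 ≤ C * E * Δ * Z' := by positivity
  have p3 : 0 ≤ C * E * Z' + C * E * Δ * Z' := by positivity
  have s1 : x1 * x2 ≤ C * E * Δ * Z' * (C * N * Z) :=
    (mul_le_mul_of_nonneg_right b1 h2).trans (mul_le_mul_of_nonneg_left b2 p1)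
  have s2 : (x3 + x1) * x4 ≤ (C * E * Z' + C * E * Δ * Z') * (C * N * Δ * Z) :=
    (mul_le_mul_of_nonneg_right (add_le_add b3 b1) h4).trans (mul_le_mul_of_nonneg_left b4 p3)
  have hq : Δ + (1 + Δ) * Δ ≤ 3 * Δ₀ := by nlinarith
  have hw : 0 ≤ C ^ 2 * (E * N) * (Z' * Z) := by positivity
  calc x1 * x2 + (x3 + x1) * x4
      ≤ C * E * Δ * Z' * (C * N * Z) + (C * E * Z' + C * E * Δ * Z') * (C * N * Δ * Z) :=
        add_le_add s1 s2
    _ = (Δ + (1 + Δ) * Δ) * (C ^ 2 * (E * N) * (Z' * Z)) := by ring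
    _ ≤ 3 * Δ₀ * (C ^ 2 * (E * N) * (Z' * Z)) := mul_le_mul_of_nonneg_right hq hw
    _ = _ := by ring

/-- eq. (replicas:polynomial-approximation) -/
theorem simO_approx (t : ℝ) (ht0 : 0 < t) (ht1 : t < 1 / 2) {P Y F D : Finset s}
    (h3 : IsPart3 P Y F) (K : Matrix (CfgOn io D) (CfgOn io D) ℂ) {n : ℕ}
    (c : Fin n → Matrix (CfgOn io P) (CfgOn io P) ℂ) (e : Fin n → Matrix (CfgOn io Y) (CfgOn io Y) ℂ)
    (hK : emb D K = ∑ α, emb P (c α) * emb Y (e α)) (ε : ℝ) (hε : 0 < ε) :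
    ∃ δ₀ : ℝ, 0 < δ₀ ∧ ∀ δ : ℝ, 0 < δ → δ ≤ δ₀ → ∃ η₀ : ℝ, 0 < η₀ ∧ ∀ η : ℝ, 0 < η → η ≤ η₀ →
      ∀ p₁ p₂ : Polynomial ℝ, ApxFwd t η p₁ → ApxInv t δ η p₂ →
        ∃ k₀ : ℕ, ∀ k, k₀ ≤ k →
          ‖simO (Fin k) t P Y F (emb D K) - evSeq (apxW P Y p₁ p₂ c e) k‖ ≤ ε := by
  obtain ⟨C, hC1, hC⟩ := conj_factor_approx io t ht0 ht1
  have hC0 : 0 < C := lt_of_lt_of_le one_pos hC1
  set S := ∑ α, ‖e α‖ * ‖c α‖ with hS
  have hS0 : 0 ≤ S := Finset.sum_nonneg fun α _ => by positivity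
  set Δ₀ := min 1 (ε / (3 * C ^ 2 * (S + 1))) with hΔ₀
  have hΔ0 : 0 < Δ₀ := lt_min one_pos (by positivity)
  have hΔ1 : Δ₀ ≤ 1 := min_le_left _ _
  have hΔε : 3 * C ^ 2 * S * Δ₀ ≤ ε := by
    have h1 : Δ₀ ≤ ε / (3 * C ^ 2 * (S + 1)) := min_le_right _ _
    have h2 : 0 < 3 * C ^ 2 * (S + 1) := by positivity
    rw [le_div_iff₀ h2] at h1
    have h3 : 0 ≤ 3 * C ^ 2 * Δ₀ := by positivity
    nlinarith
  set a := (1 - 2 * t) / 2 with ha
  have ha0 : 0 < a := by rw [ha]; linarith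
  refine ⟨min (1 / 2) ((Δ₀ / 2) ^ (1 / a)), lt_min (by norm_num) (by positivity),
    fun δ hδ0 hδle => ?_⟩
  have hδ1 : δ < 1 := lt_of_le_of_lt (hδle.trans (min_le_left _ _)) (by norm_num)
  have hδa : δ ^ a ≤ Δ₀ / 2 := by
    calc δ ^ a ≤ ((Δ₀ / 2) ^ (1 / a)) ^ a :=
          Real.rpow_le_rpow hδ0.le (hδle.trans (min_le_right _ _)) ha0.le
      _ = Δ₀ / 2 := by
          rw [← Real.rpow_mul (by positivity), one_div_mul_cancel ha0.ne', Real.rpow_one]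
  have hδt : 0 < δ ^ t := Real.rpow_pos_of_pos hδ0 _
  refine ⟨min 1 (Δ₀ * δ ^ t / 4), lt_min one_pos (by positivity),
    fun η hη0 hηle p₁ p₂ hp₁ hp₂ => ?_⟩
  obtain ⟨k₀, hk₀⟩ := hC δ hδ0 hδ1 (Δ₀ * δ ^ t / 4) (by positivity)
  refine ⟨max 1 k₀, fun k hk => ?_⟩
  obtain ⟨k', rfl⟩ : ∃ k', k = k' + 1 := ⟨k - 1, by have := (le_max_left 1 k₀).trans hk; omega⟩
  have hcard : k₀ ≤ Fintype.card (Fin (k' + 1)) := by
    rw [Fintype.card_fin]; exact (le_max_right 1 k₀).trans hk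
  set Δ := δ ^ a + (Δ₀ * δ ^ t / 4 + η) * δ ^ (-t) with hΔ
  have hΔle : Δ ≤ Δ₀ := by
    have h1 : δ ^ t * δ ^ (-t) = 1 := by
      rw [← Real.rpow_add hδ0, add_neg_cancel, Real.rpow_zero]
    have h2 : 0 < δ ^ (-t) := Real.rpow_pos_of_pos hδ0 _
    have h3 : (Δ₀ * δ ^ t / 4 + η) * δ ^ (-t) ≤ (Δ₀ * δ ^ t / 2) * δ ^ (-t) :=
      mul_le_mul_of_nonneg_right (by linarith [hηle.trans (min_le_right _ _)]) h2.le
    have h4 : (Δ₀ * δ ^ t / 2) * δ ^ (-t) = Δ₀ / 2 := by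
      calc (Δ₀ * δ ^ t / 2) * δ ^ (-t) = Δ₀ / 2 * (δ ^ t * δ ^ (-t)) := by ring
        _ = Δ₀ / 2 := by rw [h1, mul_one]
    rw [hΔ]; linarith
  have hΔnn : 0 ≤ Δ := by
    have h2 : 0 < δ ^ (-t) := Real.rpow_pos_of_pos hδ0 _
    have h3 : 0 ≤ δ ^ a := Real.rpow_nonneg hδ0.le _
    rw [hΔ]; positivity
  refine mkd_norm_le_of_form _ hε.le fun z z' hz hz' => ?_
  have hev : evSeq (apxW P Y p₁ p₂ c e) (k' + 1)
      = cmp (evOp (Fin.last k') (apxW P Y p₁ p₂ c e)) := rfl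
  rw [sub_mulVec, dotProduct_sub, hK, mkd_simO_sum_form t ht0 h3 c e (Fin.last k') hz hz', hev,
    mkd_cmp_form _ hz hz', mkd_evOp_apxW, sum_mulVec, dotProduct_sum, ← Finset.sum_sub_distrib]
  simp only [apx_prod_form h3.dPY]
  have hZ := l2n_nonneg z
  have hZ' := l2n_nonneg z'
  have hterm : ∀ α : Fin n, ‖star ((RQ t Y (Fin.last k') * copyOp (Fin.last k')
        (emb Y (e α).conjTranspose) * RQinv t Y (Fin.last k')) *ᵥ z') ⬝ᵥ
      ((RQ t P (Fin.last k') * copyOp (Fin.last k') (emb P (c α)) * RQinv t P (Fin.last k')) *ᵥ z)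
      - star ((Polynomial.aeval (JQ (io := io) Y (Fin.last k')) p₁ * copyOp (Fin.last k')
          (emb Y (e α).conjTranspose) * Polynomial.aeval (JQ (io := io) Y (Fin.last k')) p₂) *ᵥ z') ⬝ᵥ
        ((Polynomial.aeval (JQ (io := io) P (Fin.last k')) p₁ * copyOp (Fin.last k') (emb P (c α)) *
          Polynomial.aeval (JQ (io := io) P (Fin.last k')) p₂) *ᵥ z)‖
      ≤ 3 * C ^ 2 * Δ₀ * (‖e α‖ * ‖c α‖) * (l2n z' * l2n z) := by
    intro α
    obtain ⟨bY1, bY2⟩ := hk₀ (Fin (k' + 1)) (Fin.last k') Y hcard p₁ p₂ η hη0.le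
      (hηle.trans (min_le_left _ _)) hp₁ hp₂ (e α).conjTranspose z' hz'
    obtain ⟨bP1, bP2⟩ := hk₀ (Fin (k' + 1)) (Fin.last k') P hcard p₁ p₂ η hη0.le
      (hηle.trans (min_le_left _ _)) hp₁ hp₂ (c α) z hz
    rw [l2_opNorm_conjTranspose, sub_mulVec] at bY1
    rw [l2_opNorm_conjTranspose] at bY2
    rw [sub_mulVec] at bP1
    refine (mkd_form_diff _ _ _ _).trans ?_
    exact mkd_arith hC0.le (norm_nonneg _) (norm_nonneg _) hΔnn hΔle hΔ1 hZ hZ'
      (l2n_nonneg _) (l2n_nonneg _) bY1 bP2 bY2 bP1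
  refine (norm_sum_le _ _).trans ((Finset.sum_le_sum fun α _ => hterm α).trans ?_)
  rw [← Finset.sum_mul, ← Finset.mul_sum, ← hS]
  have hzz : 0 ≤ l2n z' * l2n z := mul_nonneg hZ' hZ
  calc 3 * C ^ 2 * Δ₀ * S * (l2n z' * l2n z) = (3 * C ^ 2 * S * Δ₀) * (l2n z' * l2n z) := by ring
    _ ≤ ε * (l2n z' * l2n z) := mul_le_mul_of_nonneg_right hΔε hzz
    _ = ε * l2n z' * l2n z := by ring

end Claimed.Agent.R296
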