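import Claimed.Agent.R296.Replica.Marked

/-!
# Row 296, P1 Section 5, proof of `lem:symbol`: removal of the clipping on the one-copy side

Architect: helper197.  Proofs: helper43 (helper lemmas: prefix `mo_`).  Package RP-M3 (one owner, about 600 lines).  FINAL: `skewFun_approx`.
Notation and plan: header of `Marked.lean`.  Paper: paragraph "Removing clipping and taking absolute
values": `∑_{0<p_i<δ} p_i^{1-2t} ≤ d_Q δ^{1-2t}` for the eigenvalues of any marginal density.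
Tools: NORM RULE `‖(emb Q T) θ‖² = Tr (T ρ_Q T^*)` and the spectral calculus `mfun` of `ρ_Q`
(`MatFun.lean`, `MatPow.lean`, `PurePow.lean`).
-/

set_option autoImplicit false
set_option linter.unusedSectionVars false

namespace Claimed.Agent.R296

open Matrix
open scoped ComplexOrder MatrixOrder Matrix.Norms.L2Operator

section Spectral

variable {n : Type} [Fintype n] [DecidableEq n]

/-- a real polynomial of a Hermitian matrix is a function of the matrix -/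
theorem mo_aeval_eq_mfun {A : Matrix n n ℂ} (hA : A.IsHermitian) (p : Polynomial ℝ) :
    Polynomial.aeval A p = mfun (fun x => ((p.eval x : ℝ) : ℂ)) A := by
  rw [← Polynomial.aeval_map_algebraMap ℂ]
  refine (mfun_eq_aeval hA _ _ fun i => ?_).symm
  rw [Polynomial.eval_map_algebraMap]
  exact (Polynomial.aeval_algebraMap_apply ℂ (hA.eigenvalues i) p)

theorem mo_mfun_mul (f g : ℝ → ℝ) (A : Matrix n n ℂ) :
    mfun (fun x => ((f x : ℝ) : ℂ)) A * mfun (fun x => ((g x : ℝ) : ℂ)) A =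
      mfun (fun x => ((f x * g x : ℝ) : ℂ)) A := by
  rw [← mfun_mul]; simp only [Complex.ofReal_mul]

theorem mo_mfun_sub (f g : ℝ → ℝ) (A : Matrix n n ℂ) :
    mfun (fun x => ((f x : ℝ) : ℂ)) A - mfun (fun x => ((g x : ℝ) : ℂ)) A =
      mfun (fun x => ((f x - g x : ℝ) : ℂ)) A := by
  rw [← mfun_sub]; simp only [Complex.ofReal_sub]

theorem mo_mfun_add (f g : ℝ → ℝ) (A : Matrix n n ℂ) :
    mfun (fun x => ((f x : ℝ) : ℂ)) A + mfun (fun x => ((g x : ℝ) : ℂ)) A =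
      mfun (fun x => ((f x + g x : ℝ) : ℂ)) A := by
  rw [← mfun_add]; simp only [Complex.ofReal_add]

theorem mo_spow_neg_eq (A : Matrix n n ℂ) (t : ℝ) :
    spow A (-(t : ℂ)) = mfun (fun x => ((rpowS (-t) x : ℝ) : ℂ)) A := by
  rw [← spow_ofReal_eq]; congr 1; push_cast; rfl

end Spectral

variable {s : Type} [DecidableEq s] [Fintype s] {io : s → Type}
  [∀ x, Fintype (io x)] [∀ x, DecidableEq (io x)] [∀ x, Nonempty (io x)]

section NormRule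

theorem mo_isDensity {θ : Cfg io → ℂ} (hθ : star θ ⬝ᵥ θ = 1) (Q : Finset s) :
    IsDensity (ptr Q (pureOp θ)) := by
  refine ⟨ptrE_posSemidef (cfgSplit Q) (pureOp_posSemidef θ), ?_⟩
  rw [ptr_eq_ptrE, trace_ptrE]
  unfold pureOp
  rw [trace_vecMulVec, dotProduct_comm, hθ]

theorem mo_emb_sub (Q : Finset s) (K L : Matrix (CfgOn io Q) (CfgOn io Q) ℂ) :
    emb Q (K - L) = emb Q K - emb Q L := map_sub (embHom Q) K L

theorem mo_aeval_emb (Q : Finset s) (A : Matrix (CfgOn io Q) (CfgOn io Q) ℂ) (p : Polynomial ℝ) :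
    Polynomial.aeval (emb Q A) p = emb Q (Polynomial.aeval A p) :=
  Polynomial.aeval_algHom_apply ((embHom Q).toAlgHom.restrictScalars ℝ) A p

/-- NORM RULE: `‖(emb Q T) θ‖² = Tr (ρ_Q T^* T)` -/
theorem mo_norm_rule (θ : Cfg io → ℂ) (Q : Finset s) (T : Matrix (CfgOn io Q) (CfgOn io Q) ℂ) :
    ((l2n (emb Q T *ᵥ θ) ^ 2 : ℝ) : ℂ) = (ptr Q (pureOp θ) * (Tᴴ * T)).trace := by
  rw [l2n_sq_eq_dotProduct, star_mulVec, ← dotProduct_mulVec, mulVec_mulVec, ← emb_conjTranspose,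
    ← emb_mul, ptr_eq_ptrE, ← trace_mul_embE, ← emb_eq_embE, pureOp, vecMulVec_mul,
    trace_vecMulVec, dotProduct_mulVec, dotProduct_comm]

/-- NORM RULE for functions of the marginal -/
theorem mo_l2n_sq_mfun {θ : Cfg io → ℂ} {Q : Finset s} (h : (ptr Q (pureOp θ)).IsHermitian)
    (f : ℝ → ℝ) :
    l2n (emb Q (mfun (fun x => ((f x : ℝ) : ℂ)) (ptr Q (pureOp θ))) *ᵥ θ) ^ 2 =
      ∑ i, h.eigenvalues i * f (h.eigenvalues i) ^ 2 := by
  have h1 := mo_norm_rule θ Q (mfun (fun x => ((f x : ℝ) : ℂ)) (ptr Q (pureOp θ)))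
  rw [(mfun_isHermitian f _).eq, mo_mfun_mul] at h1
  have h2 : ptr Q (pureOp θ) * mfun (fun x => ((f x * f x : ℝ) : ℂ)) (ptr Q (pureOp θ)) =
      mfun (fun x => ((x * (f x * f x) : ℝ) : ℂ)) (ptr Q (pureOp θ)) := by
    rw [← mo_mfun_mul (fun x => x) (fun x => f x * f x), mfun_id h]
  rw [h2, trace_mfun h, ← Complex.ofReal_sum] at h1
  have h3 := Complex.ofReal_injective h1
  rw [h3]
  exact Finset.sum_congr rfl fun i _ => by ring

theorem mo_l2n_mfun_le {θ : Cfg io → ℂ} {Q : Finset s} (h : (ptr Q (pureOp θ)).IsHermitian)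
    (f : ℝ → ℝ) {B : ℝ} (hB : 0 ≤ B)
    (hf : ∑ i, h.eigenvalues i * f (h.eigenvalues i) ^ 2 ≤ B ^ 2) :
    l2n (emb Q (mfun (fun x => ((f x : ℝ) : ℂ)) (ptr Q (pureOp θ))) *ᵥ θ) ≤ B := by
  rw [← mo_l2n_sq_mfun h f] at hf
  exact (pow_le_pow_iff_left₀ (l2n_nonneg _) hB two_ne_zero).1 hf

end NormRule


section OneCopySide

/-- scalar: `x (x^{-t})² = x^{1-2t}` -/
theorem mo_mul_rpow_sq {x : ℝ} (hx : 0 < x) (t : ℝ) : x * (x ^ (-t)) ^ 2 = x ^ (1 - 2 * t) := by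
  have : x * (x ^ (-t)) ^ 2 = x ^ (1 : ℝ) * x ^ (-t) * x ^ (-t) := by rw [Real.rpow_one]; ring
  rw [this, ← Real.rpow_add hx, ← Real.rpow_add hx]
  congr 1; ring

/-- polynomial of a marginal, applied to `θ`, versus the support power: inverse powers -/
theorem l2n_inv_power_sub_le (θ : Cfg io → ℂ) (hθ : star θ ⬝ᵥ θ = 1) (Q : Finset s)
    (t δ η : ℝ) (ht0 : 0 < t) (ht1 : t < 1 / 2) (hδ0 : 0 < δ) (hδ1 : δ < 1) (hη : 0 ≤ η)
    (p : Polynomial ℝ) (hp : ApxInv t δ η p) :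
    l2n ((emb Q (spow (ptr Q (pureOp θ)) (-(t : ℂ))) -
        Polynomial.aeval (emb Q (ptr Q (pureOp θ))) p) *ᵥ θ)
      ≤ η + Real.sqrt (cd_dim io Q) * δ ^ ((1 - 2 * t) / 2) := by
  have hD := mo_isDensity hθ Q
  set ρ := ptr Q (pureOp θ) with hρ
  have h : ρ.IsHermitian := hD.1.1
  set r : ℝ → ℝ := fun x => if 0 < x ∧ x < δ then x ^ (-t) - δ ^ (-t) else 0 with hr
  set g : ℝ → ℝ := fun x => rpowS (-t) x - p.eval x - r x with hg
  have e1 : emb Q (spow ρ (-(t : ℂ))) - Polynomial.aeval (emb Q ρ) p =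
      emb Q (mfun (fun x => ((g x : ℝ) : ℂ)) ρ) + emb Q (mfun (fun x => ((r x : ℝ) : ℂ)) ρ) := by
    rw [mo_aeval_emb, mo_aeval_eq_mfun h, mo_spow_neg_eq, ← mo_emb_sub, ← emb_add, mo_mfun_sub,
      mo_mfun_add]
    congr 2
    ext x
    simp only [hg]
    congr 1
    ring
  rw [e1, add_mulVec]
  refine (l2n_add_le _ _).trans (add_le_add ?_ ?_)
  · -- the part controlled by the approximation
    refine mo_l2n_mfun_le h g hη ?_
    have h1 : ∀ i, h.eigenvalues i * g (h.eigenvalues i) ^ 2 ≤ h.eigenvalues i * η ^ 2 := by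
      intro i
      have hx0 := hD.1.eigenvalues_nonneg i
      have hx1 := hD.eigenvalues_le_one i
      set x := h.eigenvalues i with hx
      rcases hx0.eq_or_lt with h0 | h0
      · rw [← h0, zero_mul, zero_mul]
      refine mul_le_mul_of_nonneg_left ?_ hx0
      have hpx := hp x ⟨by linarith, hx1⟩
      have hgx : |g x| ≤ η := by
        simp only [hg, hr, rpowS, if_pos h0]
        by_cases hxd : x < δ
        · rw [if_pos ⟨h0, hxd⟩]
          rw [max_eq_right hxd.le] at hpx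
          rw [abs_sub_comm] at hpx
          refine le_trans (le_of_eq ?_) hpx
          congr 1; ring
        · rw [if_neg (fun h' => hxd h'.2)]
          rw [max_eq_left (not_lt.1 hxd)] at hpx
          rw [abs_sub_comm] at hpx
          refine le_trans (le_of_eq ?_) hpx
          congr 1; ring
      exact sq_le_sq' (by linarith [(abs_le.1 hgx).1]) (abs_le.1 hgx).2
    refine (Finset.sum_le_sum fun i _ => h1 i).trans (le_of_eq ?_)
    rw [← Finset.sum_mul, hD.sum_eigenvalues, one_mul]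
  · -- the clipped part
    have hs : 0 < 1 - 2 * t := by linarith
    refine mo_l2n_mfun_le h r (by positivity) ?_
    have h1 : ∀ i, h.eigenvalues i * r (h.eigenvalues i) ^ 2 ≤ δ ^ (1 - 2 * t) := by
      intro i
      set x := h.eigenvalues i with hx
      simp only [hr]
      by_cases hxd : 0 < x ∧ x < δ
      · rw [if_pos hxd]
        obtain ⟨h0, hxd⟩ := hxd
        have h2 : δ ^ (-t) ≤ x ^ (-t) :=
          Real.rpow_le_rpow_of_nonpos h0 hxd.le (by linarith)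
        have h3 : 0 < δ ^ (-t) := Real.rpow_pos_of_pos hδ0 _
        have h4 : (x ^ (-t) - δ ^ (-t)) ^ 2 ≤ (x ^ (-t)) ^ 2 :=
          sq_le_sq' (by linarith) (by linarith)
        calc x * (x ^ (-t) - δ ^ (-t)) ^ 2 ≤ x * (x ^ (-t)) ^ 2 :=
              mul_le_mul_of_nonneg_left h4 h0.le
          _ = x ^ (1 - 2 * t) := mo_mul_rpow_sq h0 t
          _ ≤ δ ^ (1 - 2 * t) := Real.rpow_le_rpow h0.le hxd.le hs.le
      · rw [if_neg hxd]
        simp only [ne_eq, OfNat.ofNat_ne_zero, not_false_eq_true, zero_pow, mul_zero]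
        exact (Real.rpow_pos_of_pos hδ0 _).le
    refine (Finset.sum_le_sum fun i _ => h1 i).trans (le_of_eq ?_)
    rw [Finset.sum_const, Finset.card_univ, cd_card_cfgOn, nsmul_eq_mul, mul_pow,
      Real.sq_sqrt (Nat.cast_nonneg _), ← Real.rpow_natCast, ← Real.rpow_mul hδ0.le]
    congr 2
    push_cast; ring

/-- forward powers, in operator norm -/
theorem norm_fwd_power_sub_le (θ : Cfg io → ℂ) (hθ : star θ ⬝ᵥ θ = 1) (Q : Finset s)
    (t η : ℝ) (ht0 : 0 < t) (hη : 0 ≤ η) (p : Polynomial ℝ) (hp : ApxFwd t η p) :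
    ‖emb Q (spow (ptr Q (pureOp θ)) (t : ℂ)) - Polynomial.aeval (emb Q (ptr Q (pureOp θ))) p‖
      ≤ η := by
  have hD := mo_isDensity hθ Q
  set ρ := ptr Q (pureOp θ) with hρ
  have h : ρ.IsHermitian := hD.1.1
  rw [mo_aeval_emb, mo_aeval_eq_mfun h, spow_ofReal_eq, ← mo_emb_sub, mo_mfun_sub]
  refine (norm_emb_le Q _).trans (norm_mfun_le h _ hη fun i => ?_)
  have hx0 := hD.1.eigenvalues_nonneg i
  have hx1 := hD.eigenvalues_le_one i
  set x := h.eigenvalues i with hx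
  have hpx := hp x ⟨by linarith, hx1⟩
  rw [max_eq_left hx0, abs_sub_comm] at hpx
  rw [Complex.norm_real, Real.norm_eq_abs]
  refine le_trans (le_of_eq ?_) hpx
  congr 2
  unfold rpowS
  rcases hx0.eq_or_lt with h0 | h0
  · rw [← h0, if_neg (lt_irrefl _), Real.zero_rpow ht0.ne']
  · rw [if_pos h0]

/-- `‖ρ_Q^{[-t]} θ‖² = ∑_{p>0} p^{1-2t} ≤ dim Q` -/
theorem l2n_inv_power_le (θ : Cfg io → ℂ) (hθ : star θ ⬝ᵥ θ = 1) (Q : Finset s)
    (t : ℝ) (ht0 : 0 < t) (ht1 : t < 1 / 2) :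
    l2n (emb Q (spow (ptr Q (pureOp θ)) (-(t : ℂ))) *ᵥ θ) ≤ Real.sqrt (cd_dim io Q) := by
  have hD := mo_isDensity hθ Q
  set ρ := ptr Q (pureOp θ) with hρ
  have h : ρ.IsHermitian := hD.1.1
  rw [mo_spow_neg_eq]
  refine mo_l2n_mfun_le h _ (Real.sqrt_nonneg _) ?_
  have h1 : ∀ i, h.eigenvalues i * rpowS (-t) (h.eigenvalues i) ^ 2 ≤ 1 := by
    intro i
    have hx0 := hD.1.eigenvalues_nonneg i
    have hx1 := hD.eigenvalues_le_one i
    set x := h.eigenvalues i with hx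
    rcases hx0.eq_or_lt with h0 | h0
    · rw [← h0, zero_mul]; exact zero_le_one
    · unfold rpowS
      rw [if_pos h0, mo_mul_rpow_sq h0]
      exact Real.rpow_le_one h0.le hx1 (by linarith)
  refine (Finset.sum_le_sum fun i _ => h1 i).trans (le_of_eq ?_)
  rw [Finset.sum_const, Finset.card_univ, cd_card_cfgOn, nsmul_eq_mul, mul_one,
    Real.sq_sqrt (Nat.cast_nonneg _)]


theorem mo_emb_spow_real_conjTranspose (θ : Cfg io → ℂ) (A : Finset s) (t : ℝ) :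
    (emb A (spow (ptr A (pureOp θ)) (t : ℂ)))ᴴ = emb A (spow (ptr A (pureOp θ)) (t : ℂ)) := by
  rw [cdk_emb_spow_conjTranspose]
  congr 2
  exact Complex.conj_ofReal t

theorem mo_emb_spow_neg_conjTranspose (θ : Cfg io → ℂ) (A : Finset s) (t : ℝ) :
    (emb A (spow (ptr A (pureOp θ)) (-(t : ℂ))))ᴴ = emb A (spow (ptr A (pureOp θ)) (-(t : ℂ))) := by
  have h := mo_emb_spow_real_conjTranspose θ A (-t)
  have e : (((-t : ℝ)) : ℂ) = -(t : ℂ) := by push_cast; rfl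
  rwa [e] at h

/-- rearrangement of a product of operators on two disjoint regions -/
theorem mo_rearrange {P Y : Finset s} (hPY : Disjoint P Y)
    (a c b : Matrix (CfgOn io P) (CfgOn io P) ℂ) (a' e b' : Matrix (CfgOn io Y) (CfgOn io Y) ℂ) :
    emb P a * emb Y a' * (emb P c * emb Y e) * emb P b * emb Y b' =
      (emb Y a' * emb Y e * emb Y b') * (emb P a * emb P c * emb P b) := by
  calc emb P a * emb Y a' * (emb P c * emb Y e) * emb P b * emb Y b'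
      = emb P a * (emb Y a' * emb P c) * (emb Y e * emb P b) * emb Y b' := by
        simp only [Matrix.mul_assoc]
    _ = emb P a * (emb P c * emb Y a') * (emb P b * emb Y e) * emb Y b' := by
        rw [cd_emb_commute hPY c a', cd_emb_commute hPY b e]
    _ = emb P a * emb P c * (emb Y a' * emb P b) * (emb Y e * emb Y b') := by
        simp only [Matrix.mul_assoc]
    _ = emb P a * emb P c * (emb P b * emb Y a') * (emb Y e * emb Y b') := by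
        rw [cd_emb_commute hPY b a']
    _ = emb P (a * c * b) * emb Y (a' * e * b') := by
        rw [emb_mul, emb_mul, emb_mul, emb_mul]; simp only [Matrix.mul_assoc]
    _ = emb Y (a' * e * b') * emb P (a * c * b) := cd_emb_commute hPY _ _
    _ = _ := by rw [emb_mul, emb_mul, emb_mul, emb_mul]

/-- product form of the one-copy symbol -/
theorem skewFun_prod_form (θ : Cfg io → ℂ) {P Y D : Finset s} (hPY : Disjoint P Y)
    (K : Matrix (CfgOn io D) (CfgOn io D) ℂ) {n : ℕ}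
    (c : Fin n → Matrix (CfgOn io P) (CfgOn io P) ℂ) (e : Fin n → Matrix (CfgOn io Y) (CfgOn io Y) ℂ)
    (hK : emb D K = ∑ α, emb P (c α) * emb Y (e α)) (t : ℝ) :
    cd_skewFun θ P Y D K (t : ℂ)
      = ∑ α, star ((emb Y (spow (ptr Y (pureOp θ)) (t : ℂ)) * emb Y (e α).conjTranspose *
            emb Y (spow (ptr Y (pureOp θ)) (-(t : ℂ)))) *ᵥ θ) ⬝ᵥ
          ((emb P (spow (ptr P (pureOp θ)) (t : ℂ)) * emb P (c α) *
            emb P (spow (ptr P (pureOp θ)) (-(t : ℂ)))) *ᵥ θ) := by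
  unfold cd_skewFun
  rw [hK, Matrix.mul_sum, Matrix.sum_mul, Matrix.sum_mul, Matrix.sum_mulVec, dotProduct_sum]
  refine Finset.sum_congr rfl fun α _ => ?_
  have e1 : (emb Y (spow (ptr Y (pureOp θ)) (t : ℂ)) * emb Y (e α).conjTranspose *
      emb Y (spow (ptr Y (pureOp θ)) (-(t : ℂ))))ᴴ =
      emb Y (spow (ptr Y (pureOp θ)) (-(t : ℂ))) * emb Y (e α) *
        emb Y (spow (ptr Y (pureOp θ)) (t : ℂ)) := by
    rw [conjTranspose_mul, conjTranspose_mul, mo_emb_spow_real_conjTranspose,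
      mo_emb_spow_neg_conjTranspose, ← emb_conjTranspose, conjTranspose_conjTranspose,
      Matrix.mul_assoc]
  rw [mo_rearrange hPY, star_mulVec, e1, ← dotProduct_mulVec, mulVec_mulVec]

theorem mo_aeval_conjTranspose {θ : Cfg io → ℂ} (hθ : star θ ⬝ᵥ θ = 1) (Q : Finset s)
    (p : Polynomial ℝ) :
    (Polynomial.aeval (emb Q (ptr Q (pureOp θ))) p)ᴴ =
      Polynomial.aeval (emb Q (ptr Q (pureOp θ))) p := by
  rw [mo_aeval_emb, mo_aeval_eq_mfun (mo_isDensity hθ Q).1.1, ← emb_conjTranspose,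
    (mfun_isHermitian _ _).eq]

/-- one conjugated factor on the one-copy side -/
theorem mo_factor (θ : Cfg io → ℂ) (hθ : star θ ⬝ᵥ θ = 1) (Q : Finset s)
    (t δ η : ℝ) (ht0 : 0 < t) (ht1 : t < 1 / 2) (hδ0 : 0 < δ) (hδ1 : δ < 1) (hη : 0 ≤ η)
    (p₁ p₂ : Polynomial ℝ) (hp₁ : ApxFwd t η p₁) (hp₂ : ApxInv t δ η p₂)
    (c : Matrix (CfgOn io Q) (CfgOn io Q) ℂ) :
    l2n ((emb Q (spow (ptr Q (pureOp θ)) (t : ℂ)) * emb Q c *
        emb Q (spow (ptr Q (pureOp θ)) (-(t : ℂ)))) *ᵥ θ) ≤ ‖c‖ * Real.sqrt (cd_dim io Q) ∧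
    l2n ((emb Q (spow (ptr Q (pureOp θ)) (t : ℂ)) * emb Q c *
        emb Q (spow (ptr Q (pureOp θ)) (-(t : ℂ)))) *ᵥ θ -
      (Polynomial.aeval (emb Q (ptr Q (pureOp θ))) p₁ * emb Q c *
        Polynomial.aeval (emb Q (ptr Q (pureOp θ))) p₂) *ᵥ θ) ≤
      ‖c‖ * ((η + Real.sqrt (cd_dim io Q) * δ ^ ((1 - 2 * t) / 2)) +
        η * (Real.sqrt (cd_dim io Q) + (η + Real.sqrt (cd_dim io Q) * δ ^ ((1 - 2 * t) / 2)))) := by
  have hD := mo_isDensity hθ Q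
  set S := emb Q (spow (ptr Q (pureOp θ)) (t : ℂ)) with hS
  set Sm := emb Q (spow (ptr Q (pureOp θ)) (-(t : ℂ))) with hSm
  set A₁ := Polynomial.aeval (emb Q (ptr Q (pureOp θ))) p₁ with hA₁
  set A₂ := Polynomial.aeval (emb Q (ptr Q (pureOp θ))) p₂ with hA₂
  set d := Real.sqrt (cd_dim io Q) with hd
  set err := η + d * δ ^ ((1 - 2 * t) / 2) with herr
  have hd0 : 0 ≤ d := Real.sqrt_nonneg _
  have herr0 : 0 ≤ err := by positivity
  have h1 : l2n ((Sm - A₂) *ᵥ θ) ≤ err := l2n_inv_power_sub_le θ hθ Q t δ η ht0 ht1 hδ0 hδ1 hη p₂ hp₂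
  have h2 : ‖S - A₁‖ ≤ η := norm_fwd_power_sub_le θ hθ Q t η ht0 hη p₁ hp₁
  have h3 : l2n (Sm *ᵥ θ) ≤ d := l2n_inv_power_le θ hθ Q t ht0 ht1
  have hSn : ‖S‖ ≤ 1 := (norm_emb_le Q _).trans
    (norm_spow_le_one hD.1 (by rw [hD.2]; simp) (by simp [ht0.le]))
  have hcn : ‖emb Q c‖ ≤ ‖c‖ := norm_emb_le Q c
  have hSc : ‖S * emb Q c‖ ≤ ‖c‖ := by
    calc ‖S * emb Q c‖ ≤ ‖S‖ * ‖emb Q c‖ := l2_opNorm_mul _ _
      _ ≤ 1 * ‖c‖ := by gcongr
      _ = ‖c‖ := one_mul _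
  have hSAc : ‖(S - A₁) * emb Q c‖ ≤ η * ‖c‖ := by
    calc ‖(S - A₁) * emb Q c‖ ≤ ‖S - A₁‖ * ‖emb Q c‖ := l2_opNorm_mul _ _
      _ ≤ η * ‖c‖ := by gcongr
  have h4 : l2n (A₂ *ᵥ θ) ≤ d + err := by
    have : A₂ *ᵥ θ = Sm *ᵥ θ - (Sm - A₂) *ᵥ θ := by rw [sub_mulVec]; abel
    rw [this]
    exact (l2n_sub_le _ _).trans (add_le_add h3 h1)
  constructor
  · rw [← mulVec_mulVec]
    calc l2n ((S * emb Q c) *ᵥ (Sm *ᵥ θ)) ≤ ‖S * emb Q c‖ * l2n (Sm *ᵥ θ) := l2n_mulVec_le _ _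
      _ ≤ ‖c‖ * d := mul_le_mul hSc h3 (l2n_nonneg _) (norm_nonneg _)
  · have e : (S * emb Q c * Sm) *ᵥ θ - (A₁ * emb Q c * A₂) *ᵥ θ =
        (S * emb Q c) *ᵥ ((Sm - A₂) *ᵥ θ) + ((S - A₁) * emb Q c) *ᵥ (A₂ *ᵥ θ) := by
      rw [mulVec_mulVec, mulVec_mulVec, ← sub_mulVec, ← add_mulVec]
      congr 1
      rw [Matrix.mul_sub, Matrix.sub_mul, Matrix.sub_mul]
      abel
    rw [e]
    calc l2n ((S * emb Q c) *ᵥ ((Sm - A₂) *ᵥ θ) + ((S - A₁) * emb Q c) *ᵥ (A₂ *ᵥ θ))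
        ≤ l2n ((S * emb Q c) *ᵥ ((Sm - A₂) *ᵥ θ)) + l2n (((S - A₁) * emb Q c) *ᵥ (A₂ *ᵥ θ)) :=
          l2n_add_le _ _
      _ ≤ ‖S * emb Q c‖ * l2n ((Sm - A₂) *ᵥ θ) + ‖(S - A₁) * emb Q c‖ * l2n (A₂ *ᵥ θ) :=
          add_le_add (l2n_mulVec_le _ _) (l2n_mulVec_le _ _)
      _ ≤ ‖c‖ * err + η * ‖c‖ * (d + err) :=
          add_le_add (mul_le_mul hSc h1 (l2n_nonneg _) (norm_nonneg _))
            (mul_le_mul hSAc h4 (l2n_nonneg _) (by positivity))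
      _ = ‖c‖ * (err + η * (d + err)) := by ring


/-- the one-copy evaluation of the approximant, in product form -/
theorem mo_evOne_apxW {θ : Cfg io → ℂ} (hθ : star θ ⬝ᵥ θ = 1) (P Y : Finset s)
    (p₁ p₂ : Polynomial ℝ) {n : ℕ}
    (c : Fin n → Matrix (CfgOn io P) (CfgOn io P) ℂ)
    (e : Fin n → Matrix (CfgOn io Y) (CfgOn io Y) ℂ) :
    star θ ⬝ᵥ (evOne θ (apxW P Y p₁ p₂ c e) *ᵥ θ) =
      ∑ α, star ((Polynomial.aeval (emb Y (ptr Y (pureOp θ))) p₁ * emb Y (e α).conjTranspose *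
            Polynomial.aeval (emb Y (ptr Y (pureOp θ))) p₂) *ᵥ θ) ⬝ᵥ
          ((Polynomial.aeval (emb P (ptr P (pureOp θ))) p₁ * emb P (c α) *
            Polynomial.aeval (emb P (ptr P (pureOp θ))) p₂) *ᵥ θ) := by
  unfold apxW
  simp only [map_sum, map_mul, evOne_lOp, evOne_aeval_lSt]
  rw [Matrix.sum_mulVec, dotProduct_sum]
  refine Finset.sum_congr rfl fun α _ => ?_
  have e1 : (Polynomial.aeval (emb Y (ptr Y (pureOp θ))) p₁ * emb Y (e α).conjTranspose *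
      Polynomial.aeval (emb Y (ptr Y (pureOp θ))) p₂)ᴴ =
      Polynomial.aeval (emb Y (ptr Y (pureOp θ))) p₂ * emb Y (e α) *
        Polynomial.aeval (emb Y (ptr Y (pureOp θ))) p₁ := by
    rw [conjTranspose_mul, conjTranspose_mul, mo_aeval_conjTranspose hθ,
      mo_aeval_conjTranspose hθ, ← emb_conjTranspose, conjTranspose_conjTranspose,
      Matrix.mul_assoc]
  rw [star_mulVec, e1, ← dotProduct_mulVec, mulVec_mulVec]

/-- difference of two pairings -/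
theorem mo_pairing_sub_le {n : Type} [Fintype n] [DecidableEq n] (a a' b b' : n → ℂ) {α β x y : ℝ}
    (ha : l2n a ≤ α) (haa : l2n (a - a') ≤ x) (hb : l2n b ≤ β) (hbb : l2n (b - b') ≤ y) :
    ‖star a ⬝ᵥ b - star a' ⬝ᵥ b'‖ ≤ x * β + (α + x) * y := by
  have e : star a ⬝ᵥ b - star a' ⬝ᵥ b' = star (a - a') ⬝ᵥ b + star a' ⬝ᵥ (b - b') := by
    rw [star_sub, sub_dotProduct, dotProduct_sub]; abel
  have ha' : l2n a' ≤ α + x := by
    have : a' = a - (a - a') := by abel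
    rw [this]
    exact (l2n_sub_le _ _).trans (add_le_add ha haa)
  rw [e]
  calc ‖star (a - a') ⬝ᵥ b + star a' ⬝ᵥ (b - b')‖
      ≤ ‖star (a - a') ⬝ᵥ b‖ + ‖star a' ⬝ᵥ (b - b')‖ := norm_add_le _ _
    _ ≤ l2n (a - a') * l2n b + l2n a' * l2n (b - b') :=
        add_le_add (norm_dotProduct_le _ _) (norm_dotProduct_le _ _)
    _ ≤ x * β + (α + x) * y :=
        add_le_add (mul_le_mul haa hb (l2n_nonneg _) ((l2n_nonneg _).trans haa))
          (mul_le_mul ha' hbb (l2n_nonneg _) ((l2n_nonneg _).trans ha'))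

/-- scalar bookkeeping of `mo_factor` -/
theorem mo_delta_le {d Dm σ η z : ℝ} (hd0 : 0 ≤ d) (hd : d ≤ Dm) (hDm : 1 ≤ Dm) (hσ0 : 0 ≤ σ)
    (hσ1 : σ ≤ 1) (hη0 : 0 ≤ η) (hη : η ≤ σ) (hz0 : 0 ≤ z) (hz : z ≤ σ) :
    (η + d * z) + η * (d + (η + d * z)) ≤ 5 * Dm * σ := by
  have h1 : d * z ≤ Dm * σ := mul_le_mul hd hz hz0 (by linarith)
  have h2 : η + d * z ≤ 2 * Dm * σ := by nlinarith
  have h3 : η + d * z ≤ 2 * Dm := by nlinarith
  have h4 : η * (d + (η + d * z)) ≤ σ * (3 * Dm) :=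
    mul_le_mul hη (by linarith) (by positivity) hσ0
  linarith

theorem mo_scalar_term {x y Dm σ : ℝ} (hx : 0 ≤ x) (hy : 0 ≤ y) (hDm : 1 ≤ Dm) (hσ0 : 0 ≤ σ)
    (hσ5 : σ ≤ 1 / 5) :
    y * (5 * Dm * σ) * (x * Dm) + (y * Dm + y * (5 * Dm * σ)) * (x * (5 * Dm * σ)) ≤
      (x * y) * (15 * Dm ^ 2 * σ) := by
  have hxy : 0 ≤ x * y := mul_nonneg hx hy
  have h1 : 5 * Dm * σ ≤ Dm := by nlinarith
  have h0 : 0 ≤ 5 * Dm * σ := by positivity
  calc y * (5 * Dm * σ) * (x * Dm) + (y * Dm + y * (5 * Dm * σ)) * (x * (5 * Dm * σ))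
      = (x * y) * ((5 * Dm * σ) * (2 * Dm + 5 * Dm * σ)) := by ring
    _ ≤ (x * y) * ((5 * Dm * σ) * (3 * Dm)) := by gcongr; linarith
    _ = (x * y) * (15 * Dm ^ 2 * σ) := by ring

theorem mo_scalar_final {E Dm σ ε : ℝ} (hE0 : 0 ≤ E) (hDm : 1 ≤ Dm) (hε : 0 < ε)
    (hσε : σ ≤ ε / (15 * Dm ^ 2 * (E + 1))) : E * (15 * Dm ^ 2 * σ) ≤ ε := by
  have hD0 : 0 < Dm := by linarith
  calc E * (15 * Dm ^ 2 * σ) ≤ E * (15 * Dm ^ 2 * (ε / (15 * Dm ^ 2 * (E + 1)))) := by gcongr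
    _ = ε * (E / (E + 1)) := by field_simp
    _ ≤ ε * 1 := by
        gcongr
        rw [div_le_one (by linarith)]
        linarith
    _ = ε := mul_one _

/-- one term of the difference -/
theorem mo_term_le (θ : Cfg io → ℂ) (hθ : star θ ⬝ᵥ θ = 1) (P Y : Finset s)
    (t δ η σ : ℝ) (ht0 : 0 < t) (ht1 : t < 1 / 2) (hδ0 : 0 < δ) (hδ1 : δ < 1) (hη0 : 0 ≤ η)
    (hσ0 : 0 ≤ σ) (hσ5 : σ ≤ 1 / 5) (hη : η ≤ σ) (hz : δ ^ ((1 - 2 * t) / 2) ≤ σ)
    (p₁ p₂ : Polynomial ℝ) (hp₁ : ApxFwd t η p₁) (hp₂ : ApxInv t δ η p₂)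
    (c : Matrix (CfgOn io P) (CfgOn io P) ℂ) (e : Matrix (CfgOn io Y) (CfgOn io Y) ℂ) :
    ‖star ((emb Y (spow (ptr Y (pureOp θ)) (t : ℂ)) * emb Y e.conjTranspose *
            emb Y (spow (ptr Y (pureOp θ)) (-(t : ℂ)))) *ᵥ θ) ⬝ᵥ
          ((emb P (spow (ptr P (pureOp θ)) (t : ℂ)) * emb P c *
            emb P (spow (ptr P (pureOp θ)) (-(t : ℂ)))) *ᵥ θ) -
        star ((Polynomial.aeval (emb Y (ptr Y (pureOp θ))) p₁ * emb Y e.conjTranspose *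
            Polynomial.aeval (emb Y (ptr Y (pureOp θ))) p₂) *ᵥ θ) ⬝ᵥ
          ((Polynomial.aeval (emb P (ptr P (pureOp θ))) p₁ * emb P c *
            Polynomial.aeval (emb P (ptr P (pureOp θ))) p₂) *ᵥ θ)‖ ≤
      (‖c‖ * ‖e‖) * (15 * (Real.sqrt (cd_dim io P) + Real.sqrt (cd_dim io Y) + 1) ^ 2 * σ) := by
  obtain ⟨hY1, hY2⟩ := mo_factor θ hθ Y t δ η ht0 ht1 hδ0 hδ1 hη0 p₁ p₂ hp₁ hp₂ e.conjTranspose
  obtain ⟨hP1, hP2⟩ := mo_factor θ hθ P t δ η ht0 ht1 hδ0 hδ1 hη0 p₁ p₂ hp₁ hp₂ c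
  rw [l2_opNorm_conjTranspose] at hY1 hY2
  have hz0 : 0 ≤ δ ^ ((1 - 2 * t) / 2) := (Real.rpow_pos_of_pos hδ0 _).le
  have hdP0 : 0 ≤ Real.sqrt (cd_dim io P) := Real.sqrt_nonneg _
  have hdY0 : 0 ≤ Real.sqrt (cd_dim io Y) := Real.sqrt_nonneg _
  generalize Real.sqrt (cd_dim io P) = dP at *
  generalize Real.sqrt (cd_dim io Y) = dY at *
  generalize δ ^ ((1 - 2 * t) / 2) = z at *
  have hDm1 : 1 ≤ dP + dY + 1 := by linarith
  have hY1' := hY1.trans (mul_le_mul_of_nonneg_left (show dY ≤ dP + dY + 1 by linarith)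
    (norm_nonneg _))
  have hP1' := hP1.trans (mul_le_mul_of_nonneg_left (show dP ≤ dP + dY + 1 by linarith)
    (norm_nonneg _))
  have hY2' := hY2.trans (mul_le_mul_of_nonneg_left
    (mo_delta_le hdY0 (show dY ≤ dP + dY + 1 by linarith) hDm1 hσ0 (by linarith) hη0 hη hz0 hz)
    (norm_nonneg _))
  have hP2' := hP2.trans (mul_le_mul_of_nonneg_left
    (mo_delta_le hdP0 (show dP ≤ dP + dY + 1 by linarith) hDm1 hσ0 (by linarith) hη0 hη hz0 hz)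
    (norm_nonneg _))
  exact (mo_pairing_sub_le _ _ _ _ hY1' hY2' hP1' hP2').trans
    (mo_scalar_term (norm_nonneg _) (norm_nonneg _) hDm1 hσ0 hσ5)

/-- removal of the clipping on the one-copy side, uniformly in `θ` -/
theorem skewFun_approx (t : ℝ) (ht0 : 0 < t) (ht1 : t < 1 / 2) {P Y D : Finset s}
    (hPY : Disjoint P Y) (K : Matrix (CfgOn io D) (CfgOn io D) ℂ) {n : ℕ}
    (c : Fin n → Matrix (CfgOn io P) (CfgOn io P) ℂ) (e : Fin n → Matrix (CfgOn io Y) (CfgOn io Y) ℂ)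
    (hK : emb D K = ∑ α, emb P (c α) * emb Y (e α)) (ε : ℝ) (hε : 0 < ε) :
    ∃ δ₀ : ℝ, 0 < δ₀ ∧ ∀ δ : ℝ, 0 < δ → δ ≤ δ₀ → ∃ η₀ : ℝ, 0 < η₀ ∧ ∀ η : ℝ, 0 < η → η ≤ η₀ →
      ∀ p₁ p₂ : Polynomial ℝ, ApxFwd t η p₁ → ApxInv t δ η p₂ →
        ∀ θ : Cfg io → ℂ, star θ ⬝ᵥ θ = 1 →
          ‖cd_skewFun θ P Y D K (t : ℂ) - star θ ⬝ᵥ (evOne θ (apxW P Y p₁ p₂ c e) *ᵥ θ)‖ ≤ ε := by
  obtain ⟨Dm, hDm⟩ : ∃ x, x = Real.sqrt (cd_dim io P) + Real.sqrt (cd_dim io Y) + 1 := ⟨_, rfl⟩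
  have hDm1 : 1 ≤ Dm := by
    rw [hDm]
    have := Real.sqrt_nonneg (cd_dim io P : ℝ)
    have := Real.sqrt_nonneg (cd_dim io Y : ℝ)
    linarith
  have hDm0 : 0 < Dm := by linarith
  obtain ⟨E, hE⟩ : ∃ x, x = ∑ α, ‖c α‖ * ‖e α‖ := ⟨_, rfl⟩
  have hE0 : 0 ≤ E := by rw [hE]; exact Finset.sum_nonneg fun α _ => by positivity
  obtain ⟨σ, hσ⟩ : ∃ x, x = min (1 / 5) (ε / (15 * Dm ^ 2 * (E + 1))) := ⟨_, rfl⟩
  have hσ0 : 0 < σ := by rw [hσ]; exact lt_min (by norm_num) (by positivity)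
  have hσ5 : σ ≤ 1 / 5 := by rw [hσ]; exact min_le_left _ _
  have hσε : σ ≤ ε / (15 * Dm ^ 2 * (E + 1)) := by rw [hσ]; exact min_le_right _ _
  have hsx0 : 0 < (1 - 2 * t) / 2 := by linarith
  refine ⟨min (1 / 2) (σ ^ (1 / ((1 - 2 * t) / 2))),
    lt_min (by norm_num) (Real.rpow_pos_of_pos hσ0 _),
    fun δ hδ0 hδ => ⟨σ, hσ0, fun η hη0 hη p₁ p₂ hp₁ hp₂ θ hθ => ?_⟩⟩
  have hδ1 : δ < 1 := lt_of_le_of_lt (hδ.trans (min_le_left _ _)) (by norm_num)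
  have hz : δ ^ ((1 - 2 * t) / 2) ≤ σ := by
    calc δ ^ ((1 - 2 * t) / 2) ≤ (σ ^ (1 / ((1 - 2 * t) / 2))) ^ ((1 - 2 * t) / 2) :=
          Real.rpow_le_rpow hδ0.le (hδ.trans (min_le_right _ _)) hsx0.le
      _ = σ := by rw [← Real.rpow_mul hσ0.le, one_div, inv_mul_cancel₀ hsx0.ne', Real.rpow_one]
  rw [skewFun_prod_form θ hPY K c e hK, mo_evOne_apxW hθ, ← Finset.sum_sub_distrib]
  refine (norm_sum_le _ _).trans ((Finset.sum_le_sum fun α _ =>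
    mo_term_le θ hθ P Y t δ η σ ht0 ht1 hδ0 hδ1 hη0.le hσ0.le hσ5 hη hz p₁ p₂ hp₁ hp₂
      (c α) (e α)).trans ?_)
  rw [← Finset.sum_mul, ← hE, ← hDm]
  exact mo_scalar_final hE0 hDm1 hε hσε

end OneCopySide

end Claimed.Agent.R296
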