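import Claimed.Agent.R296.Replica.Band
import Claimed.Agent.R296.CondMove

/-!
# Row 296, P1 Section 5: Lemma `lem:relative-pin` (relative coherent pin)

Architect: helper197.  Package RP-PIN, owner helper292: all proofs of this file are complete
(and all upstream leaves are closed too: no sorry in the closure).  NOTE: `relM_inv_le` needs `θ` normalised
(hypothesis added; the statement is false for large `‖θ‖`).  FINAL: `relative_pin`,
`relative_pin'` (move to the other outer part).  Consumer: prop:transport (helper9).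

Chain (paper, proof of lem:relative-pin):
* `pin_rank_one`            `C ≥ ⟨z, C⁻¹ z⟩⁻¹ |z⟩⟨z|`  (Cauchy-Schwarz);
* `relM_inv_quadratic`      eq. (replicas:move-inverse): cancel `W_F`, commute nested/disjoint factors;
                            `cmp` is multiplicative on the commutant of `symProj`;
* `norm_compensator_le`     eq. (replicas:compensator): `‖W_R⁻¹ (ρ_R^t)^{⊗k}‖ ≤ poly(k)`
                            (`labP_mul_topow_le`, `WQ_compare`);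
* `compensator_commute`, `insert_compensators`: `T_P, T_{Y₀}` commute with both numerators and
                            `W_P⁻¹ W_{Y₀}⁻¹ θ^{⊗k} = T_P T_{Y₀} (ρ̂_P^{-t} ρ̂_{Y₀}^{-t} θ)^{⊗k}`;
* `WQ_WQ_nsq_le` (Transfer.lean) the integral formula, then `topow_mulVec_tpow`, `l2n_tpow`;
* `one_copy_word`           the one-copy word is the word of `cd_movement` (`U = Y₀`).
-/

set_option autoImplicit false
set_option linter.unusedSectionVars false

namespace Claimed.Agent.R296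

open Matrix
open scoped ComplexOrder MatrixOrder Matrix.Norms.L2Operator

/-- `C ≥ b⁻¹ |z⟩⟨z|` as soon as `⟨z, C⁻¹ z⟩ ≤ b` -/
theorem pin_rank_one {n : Type} [Fintype n] [DecidableEq n] {C : Matrix n n ℂ} (hC : C.PosDef)
    (z : n → ℂ) {b : ℝ} (hb : 0 < b) (h : (star z ⬝ᵥ (C⁻¹ *ᵥ z)).re ≤ b) :
    ((b⁻¹ : ℝ) : ℂ) • pureOp z ≤ C := by
  obtain ⟨B, hB⟩ := exists_eq_conjTranspose_mul_self hC.posSemidef
  have hdet : IsUnit C.det := (Matrix.isUnit_iff_isUnit_det C).1 hC.isUnit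
  set y := C⁻¹ *ᵥ z with hy
  have hCy : C *ᵥ y = z := by
    rw [hy, mulVec_mulVec, Matrix.mul_nonsing_inv C hdet, one_mulVec]
  -- `‖B y‖² = ⟨z, C⁻¹ z⟩`
  have hBy : l2n (B *ᵥ y) ^ 2 ≤ b := by
    rw [l2n_sq_eq_re, star_mulVec, ← dotProduct_mulVec, mulVec_mulVec, ← hB, hCy]
    have : (star y ⬝ᵥ z).re = (star z ⬝ᵥ y).re := by
      rw [star_dotProduct]
      simp
    rw [this]; exact h
  rw [Matrix.le_iff]
  have hpH : (pureOp z).IsHermitian := (pureOp_posSemidef z).1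
  have hH : (C - ((b⁻¹ : ℝ) : ℂ) • pureOp z).IsHermitian := by
    refine hC.1.sub ?_
    rw [IsHermitian, conjTranspose_smul, hpH.eq]
    simp
  refine PosSemidef.of_dotProduct_mulVec_nonneg hH fun u => ?_
  have him : (star u ⬝ᵥ ((C - ((b⁻¹ : ℝ) : ℂ) • pureOp z) *ᵥ u)).im = 0 := by
    have := hH.im_star_dotProduct_mulVec_self u
    simpa using this
  have hre : 0 ≤ (star u ⬝ᵥ ((C - ((b⁻¹ : ℝ) : ℂ) • pureOp z) *ᵥ u)).re := by
    rw [sub_mulVec, dotProduct_sub, Complex.sub_re, smul_mulVec, dotProduct_smul]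
    have e1 : (star u ⬝ᵥ (C *ᵥ u)).re = l2n (B *ᵥ u) ^ 2 := by
      rw [l2n_sq_eq_re, star_mulVec, ← dotProduct_mulVec, mulVec_mulVec, ← hB]
    have e2 : star u ⬝ᵥ (pureOp z *ᵥ u) = ((‖star z ⬝ᵥ u‖ ^ 2 : ℝ) : ℂ) := by
      rw [pureOp, vecMulVec_mulVec, dotProduct_smul, star_dotProduct u z]
      simp only [MulOpposite.smul_eq_mul_unop, MulOpposite.unop_op]
      rw [Complex.star_def, mul_comm, Complex.mul_conj, Complex.normSq_eq_norm_sq]
    have e3 : ‖star z ⬝ᵥ u‖ ≤ l2n (B *ᵥ y) * l2n (B *ᵥ u) := by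
      have : star z ⬝ᵥ u = star (B *ᵥ y) ⬝ᵥ (B *ᵥ u) := by
        rw [star_mulVec, ← dotProduct_mulVec, mulVec_mulVec, ← hB, ← hCy, star_mulVec, hC.1.eq,
          ← dotProduct_mulVec]
      rw [this]
      exact norm_dotProduct_le _ _
    rw [e1, e2, smul_eq_mul, ← Complex.ofReal_mul, Complex.ofReal_re]
    have e4 : ‖star z ⬝ᵥ u‖ ^ 2 ≤ b * l2n (B *ᵥ u) ^ 2 := by
      calc ‖star z ⬝ᵥ u‖ ^ 2 ≤ (l2n (B *ᵥ y) * l2n (B *ᵥ u)) ^ 2 :=
            pow_le_pow_left₀ (norm_nonneg _) e3 2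
        _ = l2n (B *ᵥ y) ^ 2 * l2n (B *ᵥ u) ^ 2 := by ring
        _ ≤ b * l2n (B *ᵥ u) ^ 2 := mul_le_mul_of_nonneg_right hBy (by positivity)
    rw [sub_nonneg, inv_mul_le_iff₀ hb]
    exact e4
  exact Complex.le_def.2 ⟨by simpa using hre, by simpa using him.symm⟩

/-- tangent line bound for `x ↦ x^t` -/
theorem pin_rpowS_le {t c x : ℝ} (ht0 : 0 < t) (ht1 : t ≤ 1) (hc : 0 < c) (hx : 0 ≤ x) :
    rpowS t x ≤ (1 - t) * c ^ t + t * c ^ (t - 1) * x := by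
  have hct : 0 < c ^ t := Real.rpow_pos_of_pos hc t
  have hct1 : 0 < c ^ (t - 1) := Real.rpow_pos_of_pos hc _
  rcases hx.lt_or_eq with hx | hx
  · unfold rpowS
    rw [if_pos hx]
    have h := Real.geom_mean_le_arith_mean2_weighted ht0.le (sub_nonneg.2 ht1) hx.le hc.le
      (by ring : t + (1 - t) = 1)
    have e1 : c ^ (1 - t) * c ^ (t - 1) = 1 := by
      rw [← Real.rpow_add hc]; simp
    have e2 : c * c ^ (t - 1) = c ^ t := by
      nth_rewrite 1 [← Real.rpow_one c]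
      rw [← Real.rpow_add hc]; congr 1; ring
    calc x ^ t = x ^ t * c ^ (1 - t) * c ^ (t - 1) := by rw [mul_assoc, e1, mul_one]
      _ ≤ (t * x + (1 - t) * c) * c ^ (t - 1) := mul_le_mul_of_nonneg_right h hct1.le
      _ = (1 - t) * (c * c ^ (t - 1)) + t * c ^ (t - 1) * x := by ring
      _ = _ := by rw [e2]
  · subst hx
    unfold rpowS
    rw [if_neg (lt_irrefl _)]
    have : 0 ≤ (1 - t) * c ^ t := mul_nonneg (sub_nonneg.2 ht1) hct.le
    linarith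

section Abstract

variable {n : Type} [Fintype n] [DecidableEq n]

/-- operator form of the tangent line bound -/
theorem pin_spow_le_affine {X : Matrix n n ℂ} (hX : X.PosSemidef) {t c : ℝ} (ht0 : 0 < t)
    (ht1 : t ≤ 1) (hc : 0 < c) :
    spow X (t : ℂ) ≤ (((1 - t) * c ^ t : ℝ) : ℂ) • (1 : Matrix n n ℂ) +
      ((t * c ^ (t - 1) : ℝ) : ℂ) • X := by
  rw [Matrix.le_iff]
  have h := mfun_sub_posSemidef hX.1 (rpowS t) (fun x => (1 - t) * c ^ t + t * c ^ (t - 1) * x)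
    fun i => pin_rpowS_le ht0 ht1 hc (hX.eigenvalues_nonneg i)
  have e1 : mfun (fun x => ((rpowS t x : ℝ) : ℂ)) X = spow X (t : ℂ) := (spow_ofReal_eq X t).symm
  have e2 : mfun (fun x : ℝ => (((1 - t) * c ^ t + t * c ^ (t - 1) * x : ℝ) : ℂ)) X
      = (((1 - t) * c ^ t : ℝ) : ℂ) • (1 : Matrix n n ℂ) + ((t * c ^ (t - 1) : ℝ) : ℂ) • X := by
    have : (fun x : ℝ => (((1 - t) * c ^ t + t * c ^ (t - 1) * x : ℝ) : ℂ))
        = fun x : ℝ => (((1 - t) * c ^ t : ℝ) : ℂ) + ((t * c ^ (t - 1) : ℝ) : ℂ) * (x : ℂ) := by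
      funext x; push_cast; ring
    rw [this, mfun_add, mfun_const hX.1, mfun_smul, mfun_id hX.1]
  rw [e1, e2] at h
  exact h

/-- powers on a reducing block: `X p ≤ c p` implies `X^t p ≤ c^t p` -/
theorem pin_block_pow {X p : Matrix n n ℂ} (hX : X.PosSemidef) (hp : p.PosSemidef)
    (hXp : Commute X p) {t c : ℝ} (ht0 : 0 < t) (ht1 : t ≤ 1) (hc : 0 < c)
    (h : X * p ≤ (c : ℂ) • p) : spow X (t : ℂ) * p ≤ ((c ^ t : ℝ) : ℂ) • p := by
  have h1 := pin_spow_le_affine hX ht0 ht1 hc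
  have hD : 0 ≤ (((1 - t) * c ^ t : ℝ) : ℂ) • (1 : Matrix n n ℂ) +
      ((t * c ^ (t - 1) : ℝ) : ℂ) • X - spow X (t : ℂ) := sub_nonneg.2 h1
  have hp0 : (0 : Matrix n n ℂ) ≤ p := Matrix.nonneg_iff_posSemidef.2 hp
  have hcomm : Commute ((((1 - t) * c ^ t : ℝ) : ℂ) • (1 : Matrix n n ℂ) +
      ((t * c ^ (t - 1) : ℝ) : ℂ) • X - spow X (t : ℂ)) p := by
    refine Commute.sub_left (Commute.add_left ?_ ?_) ?_
    · exact (Commute.one_left p).smul_left _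
    · exact hXp.smul_left _
    · exact (spow_commute hXp.symm _).symm
  have h2 := Commute.mul_nonneg hD hp0 hcomm
  rw [sub_mul, add_mul, smul_mul_assoc, smul_mul_assoc, one_mul, sub_nonneg] at h2
  refine h2.trans ?_
  have hs : (0 : ℝ) ≤ t * c ^ (t - 1) := by positivity
  have h3 : ((t * c ^ (t - 1) : ℝ) : ℂ) • (X * p) ≤ ((t * c ^ (t - 1) : ℝ) : ℂ) • ((c : ℂ) • p) := by
    have : (0 : ℂ) ≤ ((t * c ^ (t - 1) : ℝ) : ℂ) := by exact_mod_cast hs
    exact smul_le_smul_of_nonneg_left h this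
  have e2 : c ^ (t - 1) * c = c ^ t := by
    nth_rewrite 2 [← Real.rpow_one c]
    rw [← Real.rpow_add hc]; congr 1; ring
  have e : (((1 - t) * c ^ t : ℝ) : ℂ) • p + ((t * c ^ (t - 1) : ℝ) : ℂ) • ((c : ℂ) • p)
      = ((c ^ t : ℝ) : ℂ) • p := by
    rw [smul_smul, ← add_smul]
    congr 1
    rw [← Complex.ofReal_mul, ← Complex.ofReal_add]
    congr 1
    rw [mul_assoc, e2]; ring
  rw [← e]
  exact add_le_add_right h3 _

end Abstract

variable {s : Type} [DecidableEq s] [Fintype s] {io : s → Type}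
  [∀ x, Fintype (io x)] [∀ x, DecidableEq (io x)] [∀ x, Nonempty (io x)]
  {κ : Type} [Fintype κ] [DecidableEq κ]

theorem l2n_tpow (θ : Cfg io → ℂ) :
    l2n (tpow κ θ : RCfg io κ → ℂ) = l2n (θ : Cfg io → ℂ) ^ Fintype.card κ := by
  have h : l2n (tpow κ θ : RCfg io κ → ℂ) ^ 2 = (l2n (θ : Cfg io → ℂ) ^ Fintype.card κ) ^ 2 := by
    have e : ((l2n (tpow κ θ : RCfg io κ → ℂ) ^ 2 : ℝ) : ℂ)
        = (((l2n (θ : Cfg io → ℂ) ^ Fintype.card κ) ^ 2 : ℝ) : ℂ) := by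
      rw [l2n_sq_eq_dotProduct, tpow_dotProduct, ← l2n_sq_eq_dotProduct]
      push_cast
      ring
    exact_mod_cast e
  exact (pow_left_inj₀ (l2n_nonneg _) (pow_nonneg (l2n_nonneg _) _) two_ne_zero).1 h

theorem cd_Four.pin_partA {P x Y₀ F : Finset s} (h : cd_Four P x Y₀ F) :
    IsPart3 P (x ∪ Y₀) F where
  dPY := Finset.disjoint_union_right.2 ⟨h.dPx, h.dPU⟩
  dPF := h.dPF
  dYF := Finset.disjoint_union_left.2 ⟨h.dxF, h.dUF⟩
  cover := by rw [← h.cover, Finset.union_assoc P x Y₀]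

theorem cd_Four.pin_partB {P x Y₀ F : Finset s} (h : cd_Four P x Y₀ F) :
    IsPart3 (x ∪ P) Y₀ F where
  dPY := Finset.disjoint_union_left.2 ⟨h.dxU, h.dPU⟩
  dPF := Finset.disjoint_union_left.2 ⟨h.dxF, h.dPF⟩
  dYF := h.dUF
  cover := by rw [← h.cover, Finset.union_comm x P]

theorem cd_Four.pin_swap {P x Y₀ F : Finset s} (h : cd_Four P x Y₀ F) : cd_Four F x Y₀ P where
  dPx := h.dxF.symm
  dPU := h.dUF.symm
  dPF := h.dPF.symm
  dxU := h.dxU
  dxF := h.dPx.symm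
  dUF := h.dPU.symm
  cover := by
    rw [← h.cover]
    ext y
    simp only [Finset.mem_union]
    tauto

theorem relM_posDef (t : ℝ) (ht : 0 < t) {P x Y₀ F : Finset s} (h : cd_Four P x Y₀ F) :
    (relM (io := io) κ t P x Y₀ F).PosDef := by
  rw [relM_eq_relm t ht h]
  exact relm_posDef (bandM_posDef t ht h.pin_partA) (bandM_posDef t ht h.pin_partB)

/-- cancel `W_F`, commute the nested or disjoint central factors -/
theorem pin_bandFull_mul (t : ℝ) (ht : 0 < t) {P x Y₀ F : Finset s} (h : cd_Four P x Y₀ F) :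
    bandFull (io := io) (κ := κ) t (x ∪ P) Y₀ F (-(1 / 2)) * bandFull t P (x ∪ Y₀) F (1 / 2)
      = WQ t (x ∪ P) 1 * WQ t (x ∪ Y₀) 1 * (WQ t P (-1) * WQ t Y₀ (-1)) := by
  unfold bandFull
  have e1 : -(2 * (-(1 / 2 : ℝ))) = 1 := by norm_num
  have e2 : 2 * (-(1 / 2 : ℝ)) = -1 := by norm_num
  have e3 : -(2 * (1 / 2 : ℝ)) = -1 := by norm_num
  have e4 : 2 * (1 / 2 : ℝ) = 1 := by norm_num
  rw [e1, e2, e3, e4]
  have hfc : Commute (WQ (io := io) (κ := κ) t F 1) (WQ t Y₀ (-1)) :=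
    WQ_commute t ht (Or.inr (Or.inr h.dUF.symm)) _ _
  have hfp : Commute (WQ (io := io) (κ := κ) t F 1) (WQ t P (-1)) :=
    WQ_commute t ht (Or.inr (Or.inr h.dPF.symm)) _ _
  have hff : WQ (io := io) (κ := κ) t F 1 * WQ t F (-1) = 1 := by
    rw [WQ_add t ht, add_neg_cancel, WQ_zero t ht]
  have hpd : Commute (WQ (io := io) (κ := κ) t P (-1)) (WQ t (x ∪ Y₀) 1) :=
    WQ_commute t ht (Or.inr (Or.inr (Finset.disjoint_union_right.2 ⟨h.dPx, h.dPU⟩))) _ _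
  have hcd : Commute (WQ (io := io) (κ := κ) t Y₀ (-1)) (WQ t (x ∪ Y₀) 1) :=
    WQ_commute t ht (Or.inl Finset.subset_union_right) _ _
  have hcp : Commute (WQ (io := io) (κ := κ) t Y₀ (-1)) (WQ t P (-1)) :=
    WQ_commute t ht (Or.inr (Or.inr h.dPU.symm)) _ _
  simp only [Matrix.mul_assoc]
  rw [hfc.left_comm, hfp.left_comm, ← Matrix.mul_assoc (WQ t F 1), hff, Matrix.one_mul, hpd.eq,
    hcd.left_comm, hcp.eq]

theorem pin_isSymVec_mulVec {X : Matrix (RCfg io κ) (RCfg io κ) ℂ} (hX : Commute X symProj)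
    {z : RCfg io κ → ℂ} (hz : IsSymVec z) : IsSymVec (X *ᵥ z) := by
  rw [isSymVec_iff] at hz ⊢
  rw [mulVec_mulVec, ← hX.eq, ← mulVec_mulVec, hz]

theorem pin_l2n_cmpVec {z : RCfg io κ → ℂ} (hz : IsSymVec z) : l2n (cmpVec z) = l2n z := by
  have h : l2n (cmpVec z) ^ 2 = l2n z ^ 2 := by
    rw [l2n_sq_eq_re, l2n_sq_eq_re, cmpVec_dotProduct hz]
  exact (pow_left_inj₀ (l2n_nonneg _) (l2n_nonneg _) two_ne_zero).1 h

/-- eq. (replicas:move-inverse) -/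
theorem relM_inv_quadratic (t : ℝ) (ht : 0 < t) {P x Y₀ F : Finset s} (h : cd_Four P x Y₀ F)
    (z : RCfg io κ → ℂ) (hz : IsSymVec z) :
    (star (cmpVec z) ⬝ᵥ ((relM (io := io) κ t P x Y₀ F)⁻¹ *ᵥ cmpVec z)).re
      = l2n ((WQ t (x ∪ P) 1 * WQ t (x ∪ Y₀) 1 *
          (WQ (io := io) (κ := κ) t P (-1) * WQ t Y₀ (-1))) *ᵥ z) ^ 2 := by
  have hA := h.pin_partA
  have hB := h.pin_partB
  set Ah := bandMz (io := io) κ t P (x ∪ Y₀) F (1 / 2) with hAh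
  set Am := bandMz (io := io) κ t P (x ∪ Y₀) F (-(1 / 2)) with hAm
  set Bm := bandMz (io := io) κ t (x ∪ P) Y₀ F (-(1 / 2)) with hBm
  have a1 : Am * Ah = 1 := by
    rw [hAm, hAh, bandMz_add t ht hA, neg_add_cancel, bandMz_zero t ht]
  have b1 : bandM (io := io) κ t (x ∪ P) Y₀ F * (Bm * Bm) = 1 := by
    rw [hBm, bandM, bandMz_add t ht hB, bandMz_add t ht hB]
    have : (1 : ℝ) + (-(1 / 2) + -(1 / 2)) = 0 := by norm_num
    rw [this, bandMz_zero t ht]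
  have hinv : (relM (io := io) κ t P x Y₀ F)⁻¹ = Ah * (Bm * Bm) * Ah := by
    apply Matrix.inv_eq_right_inv
    unfold relM
    rw [← hAm]
    calc Am * bandM κ t (x ∪ P) Y₀ F * Am * (Ah * (Bm * Bm) * Ah)
        = Am * (bandM κ t (x ∪ P) Y₀ F * ((Am * Ah) * (Bm * Bm))) * Ah := by
          simp only [Matrix.mul_assoc]
      _ = 1 := by rw [a1, Matrix.one_mul, b1, Matrix.mul_one, a1]
  have hAhH : Ahᴴ = Ah := (bandMz_posDef t ht hA _).1.eq
  have hBmH : Bmᴴ = Bm := (bandMz_posDef t ht hB _).1.eq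
  have hvec : (Bm * Ah) *ᵥ cmpVec z = cmpVec ((WQ t (x ∪ P) 1 * WQ t (x ∪ Y₀) 1 *
      (WQ (io := io) (κ := κ) t P (-1) * WQ t Y₀ (-1))) *ᵥ z) := by
    rw [← pin_bandFull_mul t ht h, ← mulVec_mulVec, ← mulVec_mulVec, hAh, hBm, bandMz, bandMz,
      cmp_mulVec_cmpVec (bandFull_commute_symProj t ht _ _ _ _),
      cmp_mulVec_cmpVec (bandFull_commute_symProj t ht _ _ _ _)]
  have hsym : IsSymVec ((WQ t (x ∪ P) 1 * WQ t (x ∪ Y₀) 1 *
      (WQ (io := io) (κ := κ) t P (-1) * WQ t Y₀ (-1))) *ᵥ z) := by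
    rw [← pin_bandFull_mul t ht h, ← mulVec_mulVec]
    exact pin_isSymVec_mulVec (bandFull_commute_symProj t ht _ _ _ _)
      (pin_isSymVec_mulVec (bandFull_commute_symProj t ht _ _ _ _) hz)
  rw [← pin_l2n_cmpVec hsym, ← hvec, l2n_sq_eq_re, hinv, star_mulVec, ← dotProduct_mulVec,
    mulVec_mulVec, conjTranspose_mul, hAhH, hBmH]
  simp only [Matrix.mul_assoc]

theorem pin_topow_diagonal (d : Cfg io → ℂ) :
    topow κ (diagonal d) = diagonal fun c : RCfg io κ => ∏ j, d (rcopy c j) := by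
  ext c c'
  simp only [topow, Matrix.of_apply, diagonal_apply]
  by_cases h : c = c'
  · subst h
    simp
  · rw [if_neg h]
    have : ∃ j, rcopy c j ≠ rcopy c' j := by
      by_contra hc
      exact h (rcopy_ext fun j => by
        by_contra hj
        exact hc ⟨j, hj⟩)
    obtain ⟨j, hj⟩ := this
    exact Finset.prod_eq_zero (Finset.mem_univ j) (if_neg hj)

theorem pin_spowS_prod {ι : Type} (S : Finset ι) (e : ι → ℝ) (he : ∀ j, 0 ≤ e j) (z : ℂ) :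
    spowS z (∏ j ∈ S, e j) = ∏ j ∈ S, spowS z (e j) := by
  classical
  induction S using Finset.induction_on with
  | empty => simp [spowS_pos one_pos]
  | insert a S ha ih =>
    rw [Finset.prod_insert ha, Finset.prod_insert ha,
      mf2_spowS_mul (he a) (Finset.prod_nonneg fun j _ => he j), ih]

/-- tensor powers commute with the support powers (general one-copy operator) -/
theorem pin_topow_spow {X : Matrix (Cfg io) (Cfg io) ℂ} (hX : X.PosSemidef) (z : ℂ) :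
    topow κ (spow X z) = spow (topow κ X) z := by
  have hH := hX.1
  set U : Matrix (Cfg io) (Cfg io) ℂ := (hH.eigenvectorUnitary : Matrix (Cfg io) (Cfg io) ℂ) with hU
  have h1 : Uᴴ * U = 1 := eigU_conjTranspose_mul hH
  have h2 : U * Uᴴ = 1 := eigU_mul_conjTranspose hH
  have t1 : (topow κ U)ᴴ * topow κ U = 1 := by
    rw [topow_conjTranspose, ← topow_mul, h1, topow_one]
  have t2 : topow κ U * (topow κ U)ᴴ = 1 := by
    rw [topow_conjTranspose, ← topow_mul, h2, topow_one]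
  have eX : topow κ X = topow κ U *
      diagonal (fun c : RCfg io κ => (((∏ j, hH.eigenvalues (rcopy c j) : ℝ)) : ℂ)) *
      (topow κ U)ᴴ := by
    conv_lhs => rw [spectral_plain hH]
    rw [topow_mul, topow_mul, pin_topow_diagonal, topow_conjTranspose]
    congr 2
    apply congrArg diagonal
    funext c
    push_cast
    rfl
  rw [spow, spow, eX, mfun_of_decomp _ _ t1 t2, mfun_eq hH, topow_mul, topow_mul,
    pin_topow_diagonal, topow_conjTranspose]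
  congr 2
  apply congrArg diagonal
  funext c
  rw [pin_spowS_prod _ _ (fun j => hX.eigenvalues_nonneg _)]

/-- the compensator `T_R = W_R⁻¹ (ρ^t)^{⊗k}` -/
noncomputable def compT (κ : Type) [Fintype κ] [DecidableEq κ] (t : ℝ) (R : Finset s)
    (ρ : Matrix (CfgOn io R) (CfgOn io R) ℂ) : Matrix (RCfg io κ) (RCfg io κ) ℂ :=
  WQ t R (-1) * topow κ (emb R (spow ρ (t : ℂ)))

theorem pin_emb_posSemidef (R : Finset s) {ρ : Matrix (CfgOn io R) (CfgOn io R) ℂ}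
    (hρ : ρ.PosSemidef) : (emb R ρ).PosSemidef := by
  rw [emb_eq_embE]; exact embE_posSemidef _ hρ

/-- tensor powers commute with the support powers -/
theorem topow_emb_spow (R : Finset s) {ρ : Matrix (CfgOn io R) (CfgOn io R) ℂ} (hρ : ρ.PosSemidef)
    (t : ℝ) (ht : 0 < t) :
    topow κ (emb R (spow ρ (t : ℂ))) = spow (topow κ (emb R ρ)) (t : ℂ) := by
  rw [← pin_topow_spow (pin_emb_posSemidef R hρ), spow, spow, mfun_emb _ _ hρ.1]

theorem pin_labP_eq_cenQ (Q : Finset s) (i : Rep.Irr (Equiv.Perm κ)) :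
    labP (io := io) Q i = cenQ Q fun j => if j = i then 1 else 0 := by
  classical
  rw [cenQ_eq_sum, Finset.sum_eq_single i]
  · simp
  · intro j _ hj; simp [hj]
  · intro h; exact absurd (Finset.mem_univ _) h

/-- `(ρ^t)^{⊗k} π^λ ≤ d_λ^{-t} π^λ` -/
theorem pin_topow_spow_labP_le (Q : Finset s) {ρ : Matrix (CfgOn io Q) (CfgOn io Q) ℂ}
    (hρ : ρ.PosSemidef) (htr : ρ.trace.re ≤ 1) {t : ℝ} (ht0 : 0 < t) (ht1 : t ≤ 1)
    (i : Rep.Irr (Equiv.Perm κ)) :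
    topow κ (emb Q (spow ρ (t : ℂ))) * labP Q i
      ≤ ((((Rep.dimI i : ℕ) : ℝ) ^ (-t) : ℝ) : ℂ) • labP Q i := by
  have hd : (0 : ℝ) < ((Rep.dimI i : ℕ) : ℝ) := by exact_mod_cast Rep.dimI_pos i
  have hX : (topow κ (emb Q ρ)).PosSemidef := topow_posSemidef (pin_emb_posSemidef Q hρ)
  have hc : Commute (topow κ (emb Q ρ)) (labP Q i) := by
    rw [pin_labP_eq_cenQ]
    exact (cenQ_commute_topow Q _ (Or.inl (Finset.Subset.refl Q)) ρ).symm
  have h := labP_mul_topow_le (κ := κ) Q ρ hρ htr i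
  have e : ((Rep.dimI i : ℂ))⁻¹ = (((((Rep.dimI i : ℕ) : ℝ))⁻¹ : ℝ) : ℂ) := by push_cast; rfl
  rw [e] at h
  have := pin_block_pow hX (labP_posSemidef Q i) hc ht0 ht1 (inv_pos.2 hd) h
  rw [topow_emb_spow Q hρ t ht0]
  rwa [Real.inv_rpow hd.le, ← Real.rpow_neg hd.le] at this

/-- eq. (replicas:compensator) -/
theorem norm_compensator_le (io : s → Type) [∀ x, Fintype (io x)] [∀ x, DecidableEq (io x)]
    [∀ x, Nonempty (io x)] (t : ℝ) (ht0 : 0 < t) (ht1 : t ≤ 1) :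
    ∃ (C : ℝ) (m : ℕ), 1 ≤ C ∧ ∀ (κ : Type) [Fintype κ] [DecidableEq κ] (R : Finset s)
      (ρ : Matrix (CfgOn io R) (CfgOn io R) ℂ), ρ.PosSemidef → ρ.trace.re ≤ 1 →
      ‖compT κ t R ρ‖ ≤ C * ((Fintype.card κ : ℝ) + 1) ^ m := by
  obtain ⟨C, m, hC, hW⟩ := WQ_compare io t ht0 ht1
  refine ⟨C, m, hC, fun κ _ _ R ρ hρ htr => ?_⟩
  set c : ℝ := C * ((Fintype.card κ : ℝ) + 1) ^ m with hc
  have hc0 : 0 ≤ c := by positivity
  set Y := topow κ (emb R (spow ρ (t : ℂ))) with hY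
  have hYpsd : Y.PosSemidef :=
    topow_posSemidef (pin_emb_posSemidef R (spow_posSemidef hρ.1 t))
  have hY0 : (0 : Matrix (RCfg io κ) (RCfg io κ) ℂ) ≤ Y := Matrix.nonneg_iff_posSemidef.2 hYpsd
  have h1 : WQ (io := io) (κ := κ) t R (-1) ≤ (c : ℂ) • dimPow R t := by
    have := (hW κ R (-1)).1
    rw [abs_neg, abs_one, Real.rpow_one] at this
    have e : -(t * -1) = t := by ring
    rwa [e] at this
  have cW : Commute (WQ (io := io) (κ := κ) t R (-1)) Y :=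
    cenQ_commute_topow R _ (Or.inl (Finset.Subset.refl R)) _
  have cD : Commute (dimPow (io := io) (κ := κ) R t) Y :=
    cenQ_commute_topow R _ (Or.inl (Finset.Subset.refl R)) _
  -- `dimPow t * Y ≤ 1`
  have h2 : dimPow (io := io) (κ := κ) R t * Y ≤ 1 := by
    rw [cD.eq, dimPow, cenQ_eq_sum, Finset.mul_sum, ← sum_labP (io := io) (κ := κ) R]
    refine Finset.sum_le_sum fun i _ => ?_
    have hd : (0 : ℝ) < ((Rep.dimI i : ℕ) : ℝ) := by exact_mod_cast Rep.dimI_pos i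
    have h3 := pin_topow_spow_labP_le (κ := κ) R hρ htr ht0 ht1 i
    have hpos : (0 : ℂ) ≤ ((((Rep.dimI i : ℕ) : ℝ) ^ t : ℝ) : ℂ) := by
      exact_mod_cast (Real.rpow_pos_of_pos hd t).le
    have h4 := smul_le_smul_of_nonneg_left h3 hpos
    rw [smul_smul, ← Complex.ofReal_mul, ← Real.rpow_add hd, add_neg_cancel, Real.rpow_zero,
      Complex.ofReal_one, one_smul] at h4
    rw [mul_smul_comm]
    exact h4
  have hT0 : 0 ≤ compT κ t R ρ :=
    Commute.mul_nonneg (Matrix.nonneg_iff_posSemidef.2 (WQ_posDef t ht0 R (-1)).posSemidef) hY0 cW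
  have hT1 : compT κ t R ρ ≤ (c : ℂ) • 1 := by
    have h5 : 0 ≤ ((c : ℂ) • dimPow R t - WQ (io := io) (κ := κ) t R (-1)) * Y :=
      Commute.mul_nonneg (sub_nonneg.2 h1) hY0 ((cD.smul_left _).sub_left cW)
    rw [sub_mul, sub_nonneg, smul_mul_assoc] at h5
    refine h5.trans ?_
    have : (0 : ℂ) ≤ (c : ℂ) := by exact_mod_cast hc0
    exact smul_le_smul_of_nonneg_left h2 this
  exact opNorm_le_of_posSemidef hc0 (Matrix.nonneg_iff_posSemidef.1 hT0) (Matrix.le_iff.1 hT1)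

/-- `T_R` commutes with `W_E` when `R ⊆ E` or `R`, `E` are disjoint -/
theorem compensator_commute (t : ℝ) {R E : Finset s} (h : R ⊆ E ∨ Disjoint R E)
    (ρ : Matrix (CfgOn io R) (CfgOn io R) ℂ) (z : ℝ) :
    Commute (compT κ t R ρ) (WQ (io := io) t E z) := by
  unfold compT
  apply Commute.mul_left
  · exact cenQ_commute_cenQ _ _ (h.elim Or.inl fun h => Or.inr (Or.inr h))
  · exact (cenQ_commute_topow E _ h _).symm

/-- the marginal support projections fix `θ`: `ρ_R^{[t]} ρ̂_R^{-t} θ = θ` -/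
theorem spow_hpow_marginal (θ : Cfg io → ℂ) (R : Finset s) (t : ℝ) :
    (emb R (spow (ptr R (pureOp θ)) (t : ℂ)) * emb R (hpow (ptr R (pureOp θ)) (-(t : ℂ)))) *ᵥ θ
      = θ := by
  have hH : (ptr R (pureOp θ)).IsHermitian := by
    rw [ptr_eq_ptrE]; exact ptrE_isHermitian _ (pureOp_posSemidef θ).1
  rw [← emb_mul, spow_eq_supp_mul_hpow, Matrix.mul_assoc, hpow_mul_neg hH, Matrix.mul_one,
    emb_supp_mulVec]

theorem pin_emb_commute {A B : Finset s} (h : Disjoint A B)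
    (K : Matrix (CfgOn io A) (CfgOn io A) ℂ) (L : Matrix (CfgOn io B) (CfgOn io B) ℂ) :
    Commute (emb A K) (emb B L) :=
  SuppIn.commute h ⟨K, rfl⟩ ⟨L, rfl⟩

/-- insertion of the two compensators -/
theorem insert_compensators (t : ℝ) {P Y₀ : Finset s} (h : Disjoint P Y₀) (θ : Cfg io → ℂ) :
    (WQ t P (-1) * WQ t Y₀ (-1)) *ᵥ tpow κ θ
      = (compT κ t P (ptr P (pureOp θ)) * compT κ t Y₀ (ptr Y₀ (pureOp θ))) *ᵥ
          tpow κ ((emb P (hpow (ptr P (pureOp θ)) (-(t : ℂ))) *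
            emb Y₀ (hpow (ptr Y₀ (pureOp θ)) (-(t : ℂ)))) *ᵥ θ) := by
  set sp := emb P (spow (ptr P (pureOp θ)) (t : ℂ)) with hsp
  set sy := emb Y₀ (spow (ptr Y₀ (pureOp θ)) (t : ℂ)) with hsy
  set hp := emb P (hpow (ptr P (pureOp θ)) (-(t : ℂ))) with hhp
  set hy := emb Y₀ (hpow (ptr Y₀ (pureOp θ)) (-(t : ℂ))) with hhy
  have e1 : (sp * sy * (hp * hy)) *ᵥ θ = θ := by
    have c : Commute sy hp := (pin_emb_commute h _ _).symm
    have : sp * sy * (hp * hy) = (sp * hp) * (sy * hy) := by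
      simp only [Matrix.mul_assoc]
      rw [c.left_comm]
    rw [this, ← mulVec_mulVec, spow_hpow_marginal, spow_hpow_marginal]
  have c2 : Commute (topow κ sp) (WQ (io := io) (κ := κ) t Y₀ (-1)) :=
    (cenQ_commute_topow Y₀ _ (Or.inr h) _).symm
  unfold compT
  rw [← hsp, ← hsy, ← topow_mulVec_tpow, mulVec_mulVec]
  have : WQ t P (-1) * topow κ sp * (WQ t Y₀ (-1) * topow κ sy) * topow κ (hp * hy)
      = WQ t P (-1) * WQ t Y₀ (-1) * topow κ (sp * sy * (hp * hy)) := by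
    rw [topow_mul (sp * sy), topow_mul sp sy]
    simp only [Matrix.mul_assoc]
    rw [c2.left_comm]
  rw [this, ← mulVec_mulVec _ _ (topow κ (sp * sy * (hp * hy))), topow_mulVec_tpow, e1]

/-- reordering of the one-copy word (`P` is disjoint from `x ∪ Y₀`) -/
theorem one_copy_word {P x Y₀ F : Finset s} (h : cd_Four P x Y₀ F) (θ : Cfg io → ℂ) (t : ℝ)
    (σ : Matrix (CfgOn io (x ∪ P)) (CfgOn io (x ∪ P)) ℂ)
    (τ : Matrix (CfgOn io (x ∪ Y₀)) (CfgOn io (x ∪ Y₀)) ℂ) :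
    emb (x ∪ P) (spow σ (t : ℂ)) * emb (x ∪ Y₀) (spow τ (t : ℂ)) *
        (emb P (hpow (ptr P (pureOp θ)) (-(t : ℂ))) * emb Y₀ (hpow (ptr Y₀ (pureOp θ)) (-(t : ℂ))))
      = emb (x ∪ P) (spow σ (t : ℂ)) * emb P (hpow (ptr P (pureOp θ)) (-(t : ℂ))) *
          emb (x ∪ Y₀) (spow τ (t : ℂ)) * emb Y₀ (hpow (ptr Y₀ (pureOp θ)) (-(t : ℂ))) := by
  have c : Commute (emb (x ∪ Y₀) (spow τ (t : ℂ))) (emb P (hpow (ptr P (pureOp θ)) (-(t : ℂ)))) :=
    pin_emb_commute (Finset.disjoint_union_left.2 ⟨h.dPx.symm, h.dPU.symm⟩) _ _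
  simp only [Matrix.mul_assoc]
  rw [c.left_comm]

theorem pin_ptr_pureOp (θ : Cfg io → ℂ) (hθ : star θ ⬝ᵥ θ = 1) (R : Finset s) :
    (ptr R (pureOp θ)).PosSemidef ∧ (ptr R (pureOp θ)).trace.re ≤ 1 := by
  rw [ptr_eq_ptrE]
  refine ⟨ptrE_posSemidef _ (pureOp_posSemidef θ), ?_⟩
  rw [trace_ptrE, pp_trace_pureOp, hθ]
  simp

/-- the inverse quadratic form is bounded by the `k`-th power of the one-copy supremum -/
theorem relM_inv_le (io : s → Type) [∀ x, Fintype (io x)] [∀ x, DecidableEq (io x)]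
    [∀ x, Nonempty (io x)] (t : ℝ) (ht0 : 0 < t) (ht1 : t ≤ 1) :
    ∃ (C : ℝ) (m : ℕ), 1 ≤ C ∧ ∀ (κ : Type) [Fintype κ] [DecidableEq κ] (P x Y₀ F : Finset s),
      cd_Four P x Y₀ F → ∀ (θ : Cfg io → ℂ) (b : ℝ), star θ ⬝ᵥ θ = 1 → 0 ≤ b →
      (∀ (σ : Matrix (CfgOn io (x ∪ P)) (CfgOn io (x ∪ P)) ℂ)
        (τ : Matrix (CfgOn io (x ∪ Y₀)) (CfgOn io (x ∪ Y₀)) ℂ),
        σ.PosSemidef → σ.trace.re ≤ 1 → τ.PosSemidef → τ.trace.re ≤ 1 →
        l2n ((emb (x ∪ P) (spow σ (t : ℂ)) * emb P (hpow (ptr P (pureOp θ)) (-(t : ℂ))) *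
          emb (x ∪ Y₀) (spow τ (t : ℂ)) * emb Y₀ (hpow (ptr Y₀ (pureOp θ)) (-(t : ℂ)))) *ᵥ θ) ≤ b) →
      (star (cohV κ θ) ⬝ᵥ ((relM (io := io) κ t P x Y₀ F)⁻¹ *ᵥ cohV κ θ)).re
        ≤ C * ((Fintype.card κ : ℝ) + 1) ^ m * b ^ (2 * Fintype.card κ) := by
  obtain ⟨C1, m1, hC1, hT⟩ := norm_compensator_le io t ht0 ht1
  refine ⟨C1 ^ 4, 4 * m1, one_le_pow₀ hC1, fun κ _ _ P x Y₀ F h θ b hθ hb hword => ?_⟩
  set k := Fintype.card κ with hk
  set c : ℝ := C1 * ((k : ℝ) + 1) ^ m1 with hc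
  have hc0 : 0 ≤ c := by positivity
  set TP := compT κ t P (ptr P (pureOp θ)) with hTP
  set TY := compT κ t Y₀ (ptr Y₀ (pureOp θ)) with hTY
  set φ := (emb P (hpow (ptr P (pureOp θ)) (-(t : ℂ))) *
      emb Y₀ (hpow (ptr Y₀ (pureOp θ)) (-(t : ℂ)))) *ᵥ θ with hφ
  have nP : ‖TP‖ ≤ c := hT κ P _ (pin_ptr_pureOp θ hθ P).1 (pin_ptr_pureOp θ hθ P).2
  have nY : ‖TY‖ ≤ c := hT κ Y₀ _ (pin_ptr_pureOp θ hθ Y₀).1 (pin_ptr_pureOp θ hθ Y₀).2
  -- the numerators applied to the product vector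
  have hnum : l2n ((WQ t (x ∪ P) 1 * WQ t (x ∪ Y₀) 1) *ᵥ tpow κ φ) ≤ b ^ k := by
    refine WQ_WQ_nsq_le t ht0 ht1 _ _ _ _ (pow_nonneg hb _) fun σ τ hσ hσ1 hτ hτ1 => ?_
    rw [← topow_mul, topow_mulVec_tpow, l2n_tpow, hφ, mulVec_mulVec, one_copy_word h]
    exact pow_le_pow_left₀ (l2n_nonneg _) (hword σ τ hσ hσ1 hτ hτ1) _
  -- commutations
  have c1 : Commute TP (WQ (io := io) (κ := κ) t (x ∪ P) 1) :=
    compensator_commute t (Or.inl Finset.subset_union_right) _ _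
  have c2 : Commute TP (WQ (io := io) (κ := κ) t (x ∪ Y₀) 1) :=
    compensator_commute t (Or.inr (Finset.disjoint_union_right.2 ⟨h.dPx, h.dPU⟩)) _ _
  have c3 : Commute TY (WQ (io := io) (κ := κ) t (x ∪ P) 1) :=
    compensator_commute t (Or.inr (Finset.disjoint_union_right.2 ⟨h.dxU.symm, h.dPU.symm⟩)) _ _
  have c4 : Commute TY (WQ (io := io) (κ := κ) t (x ∪ Y₀) 1) :=
    compensator_commute t (Or.inl Finset.subset_union_right) _ _
  have c5 : Commute (TP * TY) (WQ (io := io) (κ := κ) t (x ∪ P) 1 * WQ t (x ∪ Y₀) 1) :=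
    (c1.mul_right c2).mul_left (c3.mul_right c4)
  have hv : (WQ t (x ∪ P) 1 * WQ t (x ∪ Y₀) 1 *
      (WQ (io := io) (κ := κ) t P (-1) * WQ t Y₀ (-1))) *ᵥ tpow κ θ
      = (TP * TY) *ᵥ ((WQ t (x ∪ P) 1 * WQ t (x ∪ Y₀) 1) *ᵥ tpow κ φ) := by
    rw [← mulVec_mulVec, insert_compensators t h.dPU θ, mulVec_mulVec, mulVec_mulVec, c5.eq]
  have hl : l2n ((WQ t (x ∪ P) 1 * WQ t (x ∪ Y₀) 1 *
      (WQ (io := io) (κ := κ) t P (-1) * WQ t Y₀ (-1))) *ᵥ tpow κ θ) ≤ c * c * b ^ k := by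
    rw [hv]
    calc _ ≤ ‖TP * TY‖ * l2n ((WQ t (x ∪ P) 1 * WQ t (x ∪ Y₀) 1) *ᵥ tpow κ φ) :=
          l2n_mulVec_le _ _
      _ ≤ (c * c) * b ^ k := by
          refine mul_le_mul ?_ hnum (l2n_nonneg _) (by positivity)
          exact (norm_mul_le _ _).trans (mul_le_mul nP nY (norm_nonneg _) hc0)
  unfold cohV
  rw [relM_inv_quadratic t ht0 h _ (tpow_isSymVec θ)]
  calc _ ≤ (c * c * b ^ k) ^ 2 := pow_le_pow_left₀ (l2n_nonneg _) hl 2
    _ = C1 ^ 4 * ((k : ℝ) + 1) ^ (4 * m1) * b ^ (2 * k) := by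
        rw [hc]; ring

/-- **Lemma `lem:relative-pin`**, move of `x` to `P`.  `c`, `C` are universal. -/
theorem relative_pin :
    ∃ c C : ℝ, 0 < c ∧ 0 < C ∧
      ∀ (s : Type) [DecidableEq s] [Fintype s] (io : s → Type)
        [∀ y, Fintype (io y)] [∀ y, DecidableEq (io y)] [∀ y, Nonempty (io y)]
        (t : ℝ), 0 < t → t < 1 / 4 →
        ∃ (Cp : ℝ) (m : ℕ), 1 ≤ Cp ∧
          ∀ (κ : Type) [Fintype κ] [DecidableEq κ] (P x Y₀ F : Finset s), cd_Four P x Y₀ F →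
            2 * t * cd_ell io x ≤ c →
            ∀ θ : Cfg io → ℂ, star θ ⬝ᵥ θ = 1 →
              (((Cp * ((Fintype.card κ : ℝ) + 1) ^ m)⁻¹ *
                Real.exp (Fintype.card κ * (2 * t) * (etaMove θ x P Y₀ -
                  C * (2 * t) ^ (1 / 4 : ℝ) * (cd_ell io x) ^ 2)) : ℝ) : ℂ) • cohP κ θ
                ≤ relM κ t P x Y₀ F := by
  obtain ⟨c0, C0, hc0, hC0, hmove⟩ := cd_movement
  refine ⟨c0, 2 * C0, hc0, by positivity, fun s _ _ io _ _ _ t ht0 ht1 => ?_⟩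
  obtain ⟨Cp, m, hCp, hinv⟩ := relM_inv_le io t ht0 (by linarith)
  refine ⟨Cp, m, hCp, fun κ _ _ P x Y₀ F h hsmall θ hθ => ?_⟩
  set k := Fintype.card κ with hk
  set η := etaMove θ x P Y₀ with hη
  set ℓ := cd_ell io x with hℓ
  set b : ℝ := Real.exp (-(2 * t / 2 * η) + C0 * (2 * t) ^ (5 / 4 : ℝ) * ℓ ^ 2) with hb
  have h2t : (0 : ℝ) < 2 * t := by positivity
  have hword := hmove s io θ P x Y₀ F hθ h (2 * t) h2t hsmall
  have e2 : ((2 * t / 2 : ℝ)) = t := by ring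
  have hq := hinv κ P x Y₀ F h θ b hθ (Real.exp_pos _).le (fun σ τ hσ hσ1 hτ hτ1 => by
    have := hword σ τ hσ hσ1 hτ hτ1
    rw [e2] at this
    rw [hb, e2]
    exact this)
  have hpoly : 0 < Cp * ((k : ℝ) + 1) ^ m := by positivity
  have hB : 0 < Cp * ((k : ℝ) + 1) ^ m * b ^ (2 * k) := by positivity
  have hpin := pin_rank_one (relM_posDef t ht0 h) (cohV κ θ) hB hq
  have e54 : (2 * t) ^ (5 / 4 : ℝ) = (2 * t) * (2 * t) ^ (1 / 4 : ℝ) := by
    nth_rewrite 2 [← Real.rpow_one (2 * t)]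
    rw [← Real.rpow_add h2t]; norm_num
  have eB : (Cp * ((k : ℝ) + 1) ^ m * b ^ (2 * k))⁻¹ = (Cp * ((k : ℝ) + 1) ^ m)⁻¹ *
      Real.exp (k * (2 * t) * (η - 2 * C0 * (2 * t) ^ (1 / 4 : ℝ) * ℓ ^ 2)) := by
    rw [mul_inv, hb, ← Real.exp_nat_mul, ← Real.exp_neg, e54]
    congr 2
    push_cast
    ring
  rw [eB] at hpin
  exact hpin

theorem relM'_eq_relM_swap (t : ℝ) (ht : 0 < t) {P x Y₀ F : Finset s} (h : cd_Four P x Y₀ F) :
    relM' (io := io) κ t P x Y₀ F = relM κ t F x Y₀ P := by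
  unfold relM' relM bandM
  rw [bandMz_swap t ht P (x ∪ Y₀) F h.pin_partA, bandMz_swap t ht (x ∪ F) Y₀ P h.pin_swap.pin_partB]

/-- **Lemma `lem:relative-pin`**, move of `x` to `F`. -/
theorem relative_pin' :
    ∃ c C : ℝ, 0 < c ∧ 0 < C ∧
      ∀ (s : Type) [DecidableEq s] [Fintype s] (io : s → Type)
        [∀ y, Fintype (io y)] [∀ y, DecidableEq (io y)] [∀ y, Nonempty (io y)]
        (t : ℝ), 0 < t → t < 1 / 4 →
        ∃ (Cp : ℝ) (m : ℕ), 1 ≤ Cp ∧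
          ∀ (κ : Type) [Fintype κ] [DecidableEq κ] (P x Y₀ F : Finset s), cd_Four P x Y₀ F →
            2 * t * cd_ell io x ≤ c →
            ∀ θ : Cfg io → ℂ, star θ ⬝ᵥ θ = 1 →
              (((Cp * ((Fintype.card κ : ℝ) + 1) ^ m)⁻¹ *
                Real.exp (Fintype.card κ * (2 * t) * (etaMove θ x F Y₀ -
                  C * (2 * t) ^ (1 / 4 : ℝ) * (cd_ell io x) ^ 2)) : ℝ) : ℂ) • cohP κ θ
                ≤ relM' κ t P x Y₀ F := by
  obtain ⟨c, C, hc, hC, H⟩ := relative_pin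
  refine ⟨c, C, hc, hC, fun s _ _ io _ _ _ t ht0 ht1 => ?_⟩
  obtain ⟨Cp, m, hCp, H2⟩ := H s io t ht0 ht1
  refine ⟨Cp, m, hCp, fun κ _ _ P x Y₀ F h hsmall θ hθ => ?_⟩
  rw [relM'_eq_relM_swap t ht0 h]
  exact H2 κ F x Y₀ P h.pin_swap hsmall θ hθ

theorem pin_isDensity {θ : Cfg io → ℂ} (hθ : star θ ⬝ᵥ θ = 1) : IsDensity (pureOp θ) :=
  ⟨pureOp_posSemidef θ, by rw [pp_trace_pureOp, hθ]⟩

/-- purity: the two expressions of the gain, and its bounds -/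
theorem etaMove_eq_cminfo {P x Y₀ F : Finset s} (h : cd_Four P x Y₀ F) {θ : Cfg io → ℂ}
    (hθ : star θ ⬝ᵥ θ = 1) : etaMove θ x P Y₀ = cminfo (pureOp θ) x F Y₀ := by
  unfold etaMove cminfo centr
  have e1 : (x ∪ P)ᶜ = Y₀ ∪ F := by
    ext y
    have hc : y ∈ P ∪ x ∪ Y₀ ∪ F := by rw [h.cover]; exact Finset.mem_univ y
    have d1 : y ∈ _ → y ∉ _ := fun hy => Finset.disjoint_left.1 h.dPU hy
    have d2 : y ∈ _ → y ∉ _ := fun hy => Finset.disjoint_left.1 h.dPF hy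
    have d3 : y ∈ _ → y ∉ _ := fun hy => Finset.disjoint_left.1 h.dxU hy
    have d4 : y ∈ _ → y ∉ _ := fun hy => Finset.disjoint_left.1 h.dxF hy
    simp only [Finset.mem_union, Finset.mem_compl] at hc ⊢
    tauto
  have e2 : Pᶜ = x ∪ Y₀ ∪ F := by
    ext y
    have hc : y ∈ P ∪ x ∪ Y₀ ∪ F := by rw [h.cover]; exact Finset.mem_univ y
    have d1 : y ∈ _ → y ∉ _ := fun hy => Finset.disjoint_left.1 h.dPU hy
    have d2 : y ∈ _ → y ∉ _ := fun hy => Finset.disjoint_left.1 h.dPF hy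
    have d3 : y ∈ _ → y ∉ _ := fun hy => Finset.disjoint_left.1 h.dPx hy
    simp only [Finset.mem_union, Finset.mem_compl] at hc ⊢
    tauto
  rw [← e1, ← e2, ent_compl_pureOp, ent_compl_pureOp]
  ring

theorem etaMove_nonneg {P x Y₀ F : Finset s} (h : cd_Four P x Y₀ F) {θ : Cfg io → ℂ}
    (hθ : star θ ⬝ᵥ θ = 1) : 0 ≤ etaMove θ x P Y₀ := by
  rw [etaMove_eq_cminfo h hθ]
  refine cminfo_nonneg (pin_isDensity hθ) _ _ _ ?_
  rw [Finset.disjoint_iff_inter_eq_empty.1 h.dxF]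
  exact Finset.empty_subset _

theorem etaMove_le {P x Y₀ F : Finset s} (h : cd_Four P x Y₀ F) {θ : Cfg io → ℂ}
    (hθ : star θ ⬝ᵥ θ = 1) : etaMove θ x P Y₀ ≤ 2 * Real.log (cd_dim io x) := by
  have h1 := (le_abs_self _).trans (abs_centr_le (pin_isDensity hθ) x P)
  have h2 := (le_abs_self _).trans (abs_centr_le (pin_isDensity hθ) x Y₀)
  have e : Real.log (cd_dim io x) = ∑ y ∈ x, Real.log (Fintype.card (io y)) := by
    unfold cd_dim
    rw [Nat.cast_prod, Real.log_prod]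
    intro y _
    exact_mod_cast Fintype.card_ne_zero
  unfold etaMove
  rw [e]
  linarith

end Claimed.Agent.R296
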