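import Claimed.Agent.R296.Replica.Husimi

/-!
# Row 296, P1 Section 5, proof of `lem:symbol`: the calculus of scalar symbols

Architect: helper197.  Package RP-S (one owner, about 1200 lines).

A sequence `X k` of operators on `Sym^k 𝒱` *has the symbol* `f` (a function of the one-copy unit
vector) if it is bounded and, for every `ε > 0`, it is `ε`-close in operator norm, for large `k`, to
an injection average `𝒯_{k,m}(G)` of a FIXED operator `G` whose product-vector expectation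
`symb G θ` is uniformly `ε`-close to `f θ`.  (Approximately symmetric sequences of Raggio-Werner.)

The class is closed under sums, products (`norm_injAvg_mul_sub_le`, `symb_tens`), adjoints, norm
limits, polynomials and the square root (Weierstrass: `exists_polynomial_near_of_continuousOn`), and
expectations are computed by the coherent weights (`husimi_norm`).  This replaces the paragraphs
"Products after compression" and "taking absolute values" of the paper.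
-/

set_option autoImplicit false
set_option linter.unusedSectionVars false

namespace Claimed.Agent.R296

open Matrix
open scoped ComplexOrder MatrixOrder Matrix.Norms.L2Operator

/-! ### auxiliary lemmas (prefix `hsy_`) -/

section Aux

variable {n : Type} [Fintype n] [DecidableEq n]

theorem hsy_norm_one_le : ‖(1 : Matrix n n ℂ)‖ ≤ 1 := by
  rw [← diagonal_one, l2_opNorm_diagonal]
  exact (pi_norm_le_iff_of_nonneg zero_le_one).2 fun i => by simp

theorem hsy_norm_expect_le {x : n → ℂ} (hx : star x ⬝ᵥ x = 1) (T : Matrix n n ℂ) :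
    ‖star x ⬝ᵥ (T *ᵥ x)‖ ≤ ‖T‖ := by
  have h1 : star x ⬝ᵥ (T *ᵥ x)
      = inner ℂ (WithLp.toLp 2 x : EuclideanSpace ℂ n) (WithLp.toLp 2 (T *ᵥ x)) := by
    rw [EuclideanSpace.inner_eq_star_dotProduct, dotProduct_comm]
  have h2 : ‖(WithLp.toLp 2 x : EuclideanSpace ℂ n)‖ = 1 := by
    have h3 : ((‖(WithLp.toLp 2 x : EuclideanSpace ℂ n)‖ ^ 2 : ℝ) : ℂ) = 1 := by
      have := inner_self_eq_norm_sq_to_K (𝕜 := ℂ) (WithLp.toLp 2 x : EuclideanSpace ℂ n)
      rw [EuclideanSpace.inner_eq_star_dotProduct, dotProduct_comm] at this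
      rw [Complex.ofReal_pow]
      exact this.symm.trans hx
    have h4 : ‖(WithLp.toLp 2 x : EuclideanSpace ℂ n)‖ ^ 2 = 1 := by exact_mod_cast h3
    nlinarith [norm_nonneg (WithLp.toLp 2 x : EuclideanSpace ℂ n)]
  have h5 := Matrix.l2_opNorm_mulVec T (WithLp.toLp 2 x : EuclideanSpace ℂ n)
  rw [h2, mul_one] at h5
  rw [h1]
  refine (norm_inner_le_norm _ _).trans ?_
  rw [h2, one_mul]
  exact h5

theorem hsy_abs_eigenvalues_le {G : Matrix n n ℂ} (hG : G.IsHermitian) (i : n) :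
    |hG.eigenvalues i| ≤ ‖G‖ := by
  have h1 : hG.eigenvalues i ∈ spectrum ℝ G := hG.eigenvalues_mem_spectrum_real i
  have h2 : ((hG.eigenvalues i : ℝ) : ℂ) ∈ spectrum ℂ G :=
    (spectrum.algebraMap_mem_iff ℂ).2 h1
  have : Nonempty n := ⟨i⟩
  have h3 := spectrum.norm_le_norm_of_mem h2
  simpa using h3

theorem hsy_exists_nat (C ε : ℝ) (hε : 0 < ε) :
    ∃ k₀ : ℕ, 0 < k₀ ∧ ∀ k : ℕ, k₀ ≤ k → C / k ≤ ε := by
  obtain ⟨N, hN⟩ := exists_nat_ge (C / ε)
  refine ⟨N + 1, Nat.succ_pos N, fun k hk => ?_⟩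
  have hk0 : (0 : ℝ) < k := by
    have : 0 < k := lt_of_lt_of_le (Nat.succ_pos N) hk
    exact_mod_cast this
  have hNk : (N : ℝ) ≤ k := by
    have : N ≤ k := le_trans (Nat.le_succ N) hk
    exact_mod_cast this
  rw [div_le_iff₀ hk0]
  have := (div_le_iff₀ hε).1 (hN.trans hNk)
  linarith

theorem hsy_spowS_half {x : ℝ} (hx : 0 ≤ x) : spowS (1 / 2) x = ((Real.sqrt x : ℝ) : ℂ) := by
  rcases hx.eq_or_lt with rfl | hpos
  · rw [spowS_nonpos le_rfl, Real.sqrt_zero, Complex.ofReal_zero]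
  · have h := spowS_ofReal hpos (1 / 2)
    rw [← Real.sqrt_eq_rpow] at h
    rw [← h]
    congr 1
    push_cast
    rfl

theorem hsy_eval_map (p : Polynomial ℝ) (x : ℝ) :
    (p.map (algebraMap ℝ ℂ)).eval (x : ℂ) = ((p.eval x : ℝ) : ℂ) := by
  rw [Polynomial.eval_map]
  exact Polynomial.eval₂_at_apply (algebraMap ℝ ℂ) x

theorem hsy_aeval_ofReal (p : Polynomial ℝ) (x : ℝ) :
    Polynomial.aeval (x : ℂ) p = ((p.eval x : ℝ) : ℂ) := by
  rw [← hsy_eval_map, Polynomial.eval_map_algebraMap]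

theorem hsy_aeval_eq_mfun {A : Matrix n n ℂ} (hA : A.IsHermitian) (p : Polynomial ℝ) :
    Polynomial.aeval A p = mfun (fun x => ((p.eval x : ℝ) : ℂ)) A := by
  rw [mfun_eq_aeval hA _ (p.map (algebraMap ℝ ℂ)) fun i => hsy_eval_map p _,
    Polynomial.aeval_map_algebraMap]

/-- polynomial approximation of the square root of a positive matrix -/
theorem hsy_norm_sqrt_sub_aeval_le {A : Matrix n n ℂ} (hA : A.PosSemidef) {M ε : ℝ}
    (hM : ‖A‖ ≤ M) (hε : 0 ≤ ε) (p : Polynomial ℝ)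
    (hp : ∀ x ∈ Set.Icc (0 : ℝ) M, |p.eval x - Real.sqrt x| ≤ ε) :
    ‖spow A (1 / 2) - Polynomial.aeval A p‖ ≤ ε := by
  rw [hsy_aeval_eq_mfun hA.1, spow, ← mfun_sub]
  refine norm_mfun_le hA.1 _ hε fun i => ?_
  have h0 : 0 ≤ hA.1.eigenvalues i := hA.eigenvalues_nonneg i
  have h1 : hA.1.eigenvalues i ≤ M :=
    (le_abs_self _).trans ((hsy_abs_eigenvalues_le hA.1 i).trans hM)
  rw [hsy_spowS_half h0, ← Complex.ofReal_sub, Complex.norm_real, Real.norm_eq_abs, abs_sub_comm]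
  exact hp _ ⟨h0, h1⟩

theorem hsy_norm_sqrt_le {A : Matrix n n ℂ} (hA : A.PosSemidef) {M : ℝ} (hM : ‖A‖ ≤ M) :
    ‖spow A (1 / 2)‖ ≤ Real.sqrt M := by
  refine norm_mfun_le hA.1 _ (Real.sqrt_nonneg M) fun i => ?_
  have h0 : 0 ≤ hA.1.eigenvalues i := hA.eigenvalues_nonneg i
  have h1 : hA.1.eigenvalues i ≤ M :=
    (le_abs_self _).trans ((hsy_abs_eigenvalues_le hA.1 i).trans hM)
  rw [hsy_spowS_half h0, Complex.norm_real, Real.norm_eq_abs, abs_of_nonneg (Real.sqrt_nonneg _)]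
  exact Real.sqrt_le_sqrt h1

end Aux

variable {s : Type} [DecidableEq s] [Fintype s]

/-- sequences of operators on the symmetric powers -/
abbrev SymSeq (io : s → Type) [∀ x, Fintype (io x)] [∀ x, DecidableEq (io x)] : Type :=
  ∀ k : ℕ, Matrix (SymIx io (Fin k)) (SymIx io (Fin k)) ℂ

variable {io : s → Type} [∀ x, Fintype (io x)] [∀ x, DecidableEq (io x)]

/-- `X` has the scalar symbol `f` -/
def HasSymbol (X : SymSeq io) (f : (Cfg io → ℂ) → ℂ) : Prop :=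
  (∃ M : ℝ, ∀ k, ‖X k‖ ≤ M) ∧
  ∀ ε : ℝ, 0 < ε → ∃ (μ : Type) (_ : Fintype μ) (_ : DecidableEq μ)
    (G : Matrix (RCfg io μ) (RCfg io μ) ℂ),
    (∀ θ : Cfg io → ℂ, star θ ⬝ᵥ θ = 1 → ‖f θ - symb G θ‖ ≤ ε) ∧
    ∃ k₀ : ℕ, ∀ k, k₀ ≤ k → ‖X k - cmp (injAvg (Fin k) G)‖ ≤ ε

namespace HasSymbol

variable {X Y : SymSeq io} {f g : (Cfg io → ℂ) → ℂ}

theorem injAvg {μ : Type} [Fintype μ] [DecidableEq μ] (G : Matrix (RCfg io μ) (RCfg io μ) ℂ) :
    HasSymbol (fun k => cmp (Claimed.Agent.R296.injAvg (Fin k) G)) (symb G) := by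
  refine ⟨⟨‖G‖, fun k => (norm_cmp_le _).trans (norm_injAvg_le G)⟩, fun ε hε => ?_⟩
  refine ⟨μ, inferInstance, inferInstance, G, fun θ _ => ?_, 0, fun k _ => ?_⟩
  · rw [sub_self, norm_zero]; exact hε.le
  · rw [sub_self, norm_zero]; exact hε.le

theorem const (a : ℂ) : HasSymbol (io := io) (fun _ => a • 1) (fun _ => a) := by
  refine ⟨⟨‖a‖, fun k => ?_⟩, fun ε hε => ?_⟩
  · rw [norm_smul]
    exact mul_le_of_le_one_right (norm_nonneg a) hsy_norm_one_le
  refine ⟨Fin 0, inferInstance, inferInstance, a • 1, fun θ hθ => ?_, 0, fun k _ => ?_⟩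
  · have h1 : symb (a • (1 : Matrix (RCfg io (Fin 0)) (RCfg io (Fin 0)) ℂ)) θ = a := by
      rw [symb_smul, symb, one_mulVec, tpow_dotProduct, hθ, one_pow, mul_one]
    rw [h1, sub_self, norm_zero]; exact hε.le
  · rw [← cmp_place (Function.Embedding.ofIsEmpty : Fin 0 ↪ Fin k), place_smul, place_one,
      cmp_smul, cmp_one, sub_self, norm_zero]
    exact hε.le

/-- the symbol is bounded by the norms -/
theorem norm_le (h : HasSymbol X f) {M : ℝ} (hM : ∀ k, ‖X k‖ ≤ M) {θ : Cfg io → ℂ}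
    (hθ : star θ ⬝ᵥ θ = 1) : ‖f θ‖ ≤ M := by
  refine le_of_forall_pos_le_add fun ε hε => ?_
  obtain ⟨μ, _, _, G, hG, k₀, hk₀⟩ := h.2 (ε / 2) (half_pos hε)
  set k := max k₀ (Fintype.card μ) with hk
  have hc : Fintype.card μ ≤ Fintype.card (Fin k) := by
    rw [Fintype.card_fin]; exact le_max_right _ _
  have h1 : ‖symb G θ‖ ≤ ‖cmp (Claimed.Agent.R296.injAvg (Fin k) G)‖ := by
    rw [← symb_eq_injAvg (κ := Fin k) G hc hθ]
    refine hsy_norm_expect_le ?_ _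
    rw [cohV, cmpVec_dotProduct (tpow_isSymVec θ), tpow_dotProduct, hθ, one_pow]
  have h2 : ‖cmp (Claimed.Agent.R296.injAvg (Fin k) G)‖ ≤ M + ε / 2 := by
    have h3 := hk₀ k (le_max_left _ _)
    have h4 : ‖cmp (Claimed.Agent.R296.injAvg (Fin k) G)‖
        ≤ ‖X k‖ + ‖X k - cmp (Claimed.Agent.R296.injAvg (Fin k) G)‖ := by
      have := norm_sub_le (X k) (X k - cmp (Claimed.Agent.R296.injAvg (Fin k) G))
      rwa [sub_sub_cancel] at this
    linarith [hM k]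
  have h5 : ‖f θ‖ ≤ ‖f θ - symb G θ‖ + ‖symb G θ‖ := by
    have := norm_add_le (f θ - symb G θ) (symb G θ)
    rwa [sub_add_cancel] at this
  linarith [hG θ hθ]

/-- only large `k` and unit vectors matter -/
theorem congr (h : HasSymbol X f) (hb : ∃ M : ℝ, ∀ k, ‖Y k‖ ≤ M)
    (hXY : ∃ k₀ : ℕ, ∀ k, k₀ ≤ k → Y k = X k)
    (hfg : ∀ θ : Cfg io → ℂ, star θ ⬝ᵥ θ = 1 → g θ = f θ) : HasSymbol Y g := by
  refine ⟨hb, fun ε hε => ?_⟩
  obtain ⟨μ, _, _, G, hG, k₀, hk₀⟩ := h.2 ε hε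
  obtain ⟨k₁, hk₁⟩ := hXY
  refine ⟨μ, inferInstance, inferInstance, G, fun θ hθ => ?_, max k₀ k₁, fun k hk => ?_⟩
  · rw [hfg θ hθ]; exact hG θ hθ
  · rw [hk₁ k (le_trans (le_max_right _ _) hk)]
    exact hk₀ k (le_trans (le_max_left _ _) hk)

/-- the symbol may be replaced by an equal function -/
theorem congr_symb (h : HasSymbol X f) (hfg : ∀ θ, g θ = f θ) : HasSymbol X g := by
  have : g = f := funext hfg
  rw [this]; exact h

/-- the sequence may be replaced by an equal sequence -/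
theorem congr_seq (h : HasSymbol X f) (hXY : ∀ k, Y k = X k) : HasSymbol Y f := by
  have : Y = X := funext hXY
  rw [this]; exact h

theorem add (hX : HasSymbol X f) (hY : HasSymbol Y g) :
    HasSymbol (fun k => X k + Y k) (fun θ => f θ + g θ) := by
  obtain ⟨⟨MX, hMX⟩, hX2⟩ := hX
  obtain ⟨⟨MY, hMY⟩, hY2⟩ := hY
  refine ⟨⟨MX + MY, fun k => (norm_add_le _ _).trans (add_le_add (hMX k) (hMY k))⟩,
    fun ε hε => ?_⟩
  obtain ⟨μ, _, _, G, hG, k₀, hk₀⟩ := hX2 (ε / 2) (half_pos hε)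
  obtain ⟨ν, _, _, H, hH, k₁, hk₁⟩ := hY2 (ε / 2) (half_pos hε)
  refine ⟨μ ⊕ ν, inferInstance, inferInstance,
    place Function.Embedding.inl G + place Function.Embedding.inr H, fun θ hθ => ?_,
    max (max k₀ k₁) (Fintype.card (μ ⊕ ν)), fun k hk => ?_⟩
  · rw [symb_add, symb_place _ _ hθ, symb_place _ _ hθ]
    calc ‖f θ + g θ - (symb G θ + symb H θ)‖
        = ‖(f θ - symb G θ) + (g θ - symb H θ)‖ := by congr 1; ring
      _ ≤ ‖f θ - symb G θ‖ + ‖g θ - symb H θ‖ := norm_add_le _ _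
      _ ≤ ε / 2 + ε / 2 := add_le_add (hG θ hθ) (hH θ hθ)
      _ = ε := add_halves ε
  · have hc : Fintype.card (μ ⊕ ν) ≤ Fintype.card (Fin k) := by
      rw [Fintype.card_fin k]; exact le_trans (le_max_right _ _) hk
    have hk0 : k₀ ≤ k := le_trans (le_trans (le_max_left _ _) (le_max_left _ _)) hk
    have hk1 : k₁ ≤ k := le_trans (le_trans (le_max_right _ _) (le_max_left _ _)) hk
    rw [injAvg_add, injAvg_place _ _ hc, injAvg_place _ _ hc, cmp_add]
    calc ‖X k + Y k - (cmp (Claimed.Agent.R296.injAvg (Fin k) G)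
          + cmp (Claimed.Agent.R296.injAvg (Fin k) H))‖
        = ‖(X k - cmp (Claimed.Agent.R296.injAvg (Fin k) G))
          + (Y k - cmp (Claimed.Agent.R296.injAvg (Fin k) H))‖ := by congr 1; abel
      _ ≤ _ := norm_add_le _ _
      _ ≤ ε / 2 + ε / 2 := add_le_add (hk₀ k hk0) (hk₁ k hk1)
      _ = ε := add_halves ε

theorem smul (a : ℂ) (hX : HasSymbol X f) :
    HasSymbol (fun k => a • X k) (fun θ => a * f θ) := by
  obtain ⟨⟨MX, hMX⟩, hX2⟩ := hX
  refine ⟨⟨‖a‖ * MX, fun k => ?_⟩, fun ε hε => ?_⟩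
  · rw [norm_smul]
    exact mul_le_mul_of_nonneg_left (hMX k) (norm_nonneg a)
  have ha : 0 < ‖a‖ + 1 := by linarith [norm_nonneg a]
  have hle : ‖a‖ * (ε / (‖a‖ + 1)) ≤ ε := by
    rw [← mul_div_assoc, div_le_iff₀ ha]
    nlinarith [norm_nonneg a]
  obtain ⟨μ, _, _, G, hG, k₀, hk₀⟩ := hX2 (ε / (‖a‖ + 1)) (div_pos hε ha)
  refine ⟨μ, inferInstance, inferInstance, a • G, fun θ hθ => ?_, k₀, fun k hk => ?_⟩
  · rw [symb_smul, ← mul_sub, norm_mul]
    exact (mul_le_mul_of_nonneg_left (hG θ hθ) (norm_nonneg a)).trans hle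
  · rw [injAvg_smul, cmp_smul, ← smul_sub, norm_smul]
    exact (mul_le_mul_of_nonneg_left (hk₀ k hk) (norm_nonneg a)).trans hle

theorem sub (hX : HasSymbol X f) (hY : HasSymbol Y g) :
    HasSymbol (fun k => X k - Y k) (fun θ => f θ - g θ) := by
  refine ((hX.add (hY.smul (-1))).congr_symb (g := fun θ => f θ - g θ) fun θ => by ring).congr_seq
    fun k => ?_
  rw [neg_one_smul, sub_eq_add_neg]

theorem sum {ι : Type} (t : Finset ι) {X : ι → SymSeq io} {f : ι → (Cfg io → ℂ) → ℂ}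
    (h : ∀ i ∈ t, HasSymbol (X i) (f i)) :
    HasSymbol (fun k => ∑ i ∈ t, X i k) (fun θ => ∑ i ∈ t, f i θ) := by
  classical
  induction t using Finset.induction_on with
  | empty =>
    simp only [Finset.sum_empty]
    exact (const (io := io) 0).congr_seq fun k => (zero_smul ℂ _).symm
  | insert a t ha ih =>
    simp only [Finset.sum_insert ha]
    exact (h a (Finset.mem_insert_self a t)).add
      (ih fun i hi => h i (Finset.mem_insert_of_mem hi))

theorem conjTranspose (hX : HasSymbol X f) :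
    HasSymbol (fun k => (X k).conjTranspose) (fun θ => star (f θ)) := by
  obtain ⟨⟨MX, hMX⟩, hX2⟩ := hX
  refine ⟨⟨MX, fun k => ?_⟩, fun ε hε => ?_⟩
  · rw [l2_opNorm_conjTranspose]; exact hMX k
  obtain ⟨μ, _, _, G, hG, k₀, hk₀⟩ := hX2 ε hε
  refine ⟨μ, inferInstance, inferInstance, G.conjTranspose, fun θ hθ => ?_, k₀, fun k hk => ?_⟩
  · rw [symb_conjTranspose, ← star_sub, norm_star]
    exact hG θ hθ
  · rw [← injAvg_conjTranspose, ← cmp_conjTranspose, ← conjTranspose_sub, l2_opNorm_conjTranspose]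
    exact hk₀ k hk

/-- **symbols multiply** -/
theorem mul (hX : HasSymbol X f) (hY : HasSymbol Y g) :
    HasSymbol (fun k => X k * Y k) (fun θ => f θ * g θ) := by
  obtain ⟨MX, hMX⟩ := hX.1
  obtain ⟨MY, hMY⟩ := hY.1
  have hMX0 : 0 ≤ MX := (norm_nonneg _).trans (hMX 0)
  have hMY0 : 0 ≤ MY := (norm_nonneg _).trans (hMY 0)
  refine ⟨⟨MX * MY, fun k => (norm_mul_le _ _).trans
    (mul_le_mul (hMX k) (hMY k) (norm_nonneg _) hMX0)⟩, fun ε hε => ?_⟩
  -- the working precision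
  set D : ℝ := MX + MY + 2 with hD
  have hD0 : 0 < D := by linarith
  set δ : ℝ := min 1 (ε / D) with hδ
  have hδ0 : 0 < δ := lt_min one_pos (div_pos hε hD0)
  have hδ1 : δ ≤ 1 := min_le_left _ _
  have hδD : δ * D ≤ ε := by
    have : δ ≤ ε / D := min_le_right _ _
    exact (le_div_iff₀ hD0).1 this
  obtain ⟨μ, _, _, G, hG, k₀, hk₀⟩ := hX.2 δ hδ0
  obtain ⟨ν, _, _, H, hH, k₁, hk₁⟩ := hY.2 δ hδ0
  obtain ⟨k₂, hk₂0, hk₂⟩ := hsy_exists_nat
    (2 * (Fintype.card μ * Fintype.card ν : ℝ) * (‖G‖ * ‖H‖)) δ hδ0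
  refine ⟨μ ⊕ ν, inferInstance, inferInstance, tens G H, fun θ hθ => ?_,
    max (max k₀ k₁) (max k₂ (Fintype.card μ + Fintype.card ν)), fun k hk => ?_⟩
  · rw [symb_tens]
    have h1 := hG θ hθ
    have h2 := hH θ hθ
    have h3 : ‖g θ‖ ≤ MY := hY.norm_le hMY hθ
    have h4 : ‖f θ‖ ≤ MX := hX.norm_le hMX hθ
    have h5 : ‖symb G θ‖ ≤ MX + δ := by
      have := norm_sub_le (f θ) (f θ - symb G θ)
      rw [sub_sub_cancel] at this
      linarith
    calc ‖f θ * g θ - symb G θ * symb H θ‖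
        = ‖(f θ - symb G θ) * g θ + symb G θ * (g θ - symb H θ)‖ := by congr 1; ring
      _ ≤ ‖(f θ - symb G θ) * g θ‖ + ‖symb G θ * (g θ - symb H θ)‖ := norm_add_le _ _
      _ = ‖f θ - symb G θ‖ * ‖g θ‖ + ‖symb G θ‖ * ‖g θ - symb H θ‖ := by
          rw [norm_mul, norm_mul]
      _ ≤ δ * MY + (MX + δ) * δ := by
          refine add_le_add (mul_le_mul h1 h3 (norm_nonneg _) hδ0.le)
            (mul_le_mul h5 h2 (norm_nonneg _) (by linarith))
      _ ≤ δ * D := by rw [hD]; nlinarith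
      _ ≤ ε := hδD
  · have hk0 : k₀ ≤ k := le_trans (le_trans (le_max_left _ _) (le_max_left _ _)) hk
    have hk1 : k₁ ≤ k := le_trans (le_trans (le_max_right _ _) (le_max_left _ _)) hk
    have hk2 : k₂ ≤ k := le_trans (le_trans (le_max_left _ _) (le_max_right _ _)) hk
    have hk3 : Fintype.card μ + Fintype.card ν ≤ k :=
      le_trans (le_trans (le_max_right _ _) (le_max_right _ _)) hk
    have hkpos : 0 < k := lt_of_lt_of_le hk₂0 hk2
    set TG := cmp (Claimed.Agent.R296.injAvg (Fin k) G) with hTG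
    set TH := cmp (Claimed.Agent.R296.injAvg (Fin k) H) with hTH
    have h1 : ‖X k - TG‖ ≤ δ := hk₀ k hk0
    have h2 : ‖Y k - TH‖ ≤ δ := hk₁ k hk1
    have h5 : ‖TG‖ ≤ MX + δ := by
      have := norm_sub_le (X k) (X k - TG)
      rw [sub_sub_cancel] at this
      linarith [hMX k]
    have h6 : ‖TG * TH - cmp (Claimed.Agent.R296.injAvg (Fin k) (tens G H))‖ ≤ δ := by
      rw [hTG, hTH, ← cmp_mul (injAvg_commute_symProj G), ← cmp_sub]
      refine (norm_cmp_le _).trans ?_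
      refine (norm_injAvg_mul_sub_le G H (by rw [Fintype.card_fin]; exact hk3)
        (by rw [Fintype.card_fin]; exact hkpos)).trans ?_
      rw [Fintype.card_fin]
      have := hk₂ k hk2
      calc 2 * (Fintype.card μ * Fintype.card ν : ℝ) / k * (‖G‖ * ‖H‖)
          = 2 * (Fintype.card μ * Fintype.card ν : ℝ) * (‖G‖ * ‖H‖) / k := by ring
        _ ≤ δ := this
    calc ‖X k * Y k - cmp (Claimed.Agent.R296.injAvg (Fin k) (tens G H))‖
        = ‖(X k - TG) * Y k + TG * (Y k - TH)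
            + (TG * TH - cmp (Claimed.Agent.R296.injAvg (Fin k) (tens G H)))‖ := by
          congr 1; noncomm_ring
      _ ≤ ‖(X k - TG) * Y k‖ + ‖TG * (Y k - TH)‖
            + ‖TG * TH - cmp (Claimed.Agent.R296.injAvg (Fin k) (tens G H))‖ :=
          norm_add₃_le
      _ ≤ δ * MY + (MX + δ) * δ + δ := by
          refine add_le_add (add_le_add ?_ ?_) h6
          · exact (norm_mul_le _ _).trans (mul_le_mul h1 (hMY k) (norm_nonneg _) hδ0.le)
          · exact (norm_mul_le _ _).trans (mul_le_mul h5 h2 (norm_nonneg _) (by linarith))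
      _ ≤ δ * D := by rw [hD]; nlinarith
      _ ≤ ε := hδD

theorem pow (hX : HasSymbol X f) (n : ℕ) :
    HasSymbol (fun k => X k ^ n) (fun θ => f θ ^ n) := by
  induction n with
  | zero =>
    simp only [pow_zero]
    exact (const (io := io) 1).congr_seq fun k => (one_smul ℂ _).symm
  | succ n ih =>
    simp only [pow_succ]
    exact ih.mul hX

/-- closure under uniform limits -/
theorem of_approx (hb : ∃ M : ℝ, ∀ k, ‖X k‖ ≤ M)
    (h : ∀ ε : ℝ, 0 < ε → ∃ (Y : SymSeq io) (g : (Cfg io → ℂ) → ℂ), HasSymbol Y g ∧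
      (∀ θ : Cfg io → ℂ, star θ ⬝ᵥ θ = 1 → ‖f θ - g θ‖ ≤ ε) ∧
      ∃ k₀ : ℕ, ∀ k, k₀ ≤ k → ‖X k - Y k‖ ≤ ε) : HasSymbol X f := by
  refine ⟨hb, fun ε hε => ?_⟩
  obtain ⟨Y, g, hY, hfg, k₀, hk₀⟩ := h (ε / 2) (half_pos hε)
  obtain ⟨μ, _, _, G, hG, k₁, hk₁⟩ := hY.2 (ε / 2) (half_pos hε)
  refine ⟨μ, inferInstance, inferInstance, G, fun θ hθ => ?_, max k₀ k₁, fun k hk => ?_⟩
  · calc ‖f θ - symb G θ‖ = ‖(f θ - g θ) + (g θ - symb G θ)‖ := by congr 1; ring
      _ ≤ ‖f θ - g θ‖ + ‖g θ - symb G θ‖ := norm_add_le _ _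
      _ ≤ ε / 2 + ε / 2 := add_le_add (hfg θ hθ) (hG θ hθ)
      _ = ε := add_halves ε
  · calc ‖X k - cmp (Claimed.Agent.R296.injAvg (Fin k) G)‖
        = ‖(X k - Y k) + (Y k - cmp (Claimed.Agent.R296.injAvg (Fin k) G))‖ := by congr 1; abel
      _ ≤ _ := norm_add_le _ _
      _ ≤ ε / 2 + ε / 2 := add_le_add (hk₀ k (le_trans (le_max_left _ _) hk))
          (hk₁ k (le_trans (le_max_right _ _) hk))
      _ = ε := add_halves ε

theorem aeval (hX : HasSymbol X f) (p : Polynomial ℝ) :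
    HasSymbol (fun k => Polynomial.aeval (X k) p) (fun θ => Polynomial.aeval (f θ) p) := by
  have h := HasSymbol.sum (Finset.range (p.natDegree + 1))
    (X := fun i k => (p.coeff i : ℂ) • X k ^ i) (f := fun i θ => (p.coeff i : ℂ) * f θ ^ i)
    fun i _ => (hX.pow i).smul (p.coeff i : ℂ)
  refine (h.congr_symb fun θ => ?_).congr_seq fun k => ?_
  · rw [Polynomial.aeval_eq_sum_range]
    refine Finset.sum_congr rfl fun i _ => ?_
    rw [Complex.real_smul]
  · rw [Polynomial.aeval_eq_sum_range]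
    refine Finset.sum_congr rfl fun i _ => ?_
    rw [Complex.coe_smul]

/-- square roots: `X k ≥ 0` with the nonnegative symbol `r` -/
theorem sqrt {r : (Cfg io → ℂ) → ℝ} (hX : HasSymbol X fun θ => (r θ : ℂ))
    (hpos : ∀ k, (X k).PosSemidef) (hr : ∀ θ, 0 ≤ r θ) :
    HasSymbol (fun k => spow (X k) (1 / 2)) (fun θ => ((Real.sqrt (r θ) : ℝ) : ℂ)) := by
  obtain ⟨M, hM⟩ := hX.1
  refine of_approx ⟨Real.sqrt M, fun k => hsy_norm_sqrt_le (hpos k) (hM k)⟩ fun ε hε => ?_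
  obtain ⟨p, hp⟩ := exists_polynomial_near_of_continuousOn 0 M Real.sqrt
    Real.continuous_sqrt.continuousOn ε hε
  refine ⟨fun k => Polynomial.aeval (X k) p, fun θ => Polynomial.aeval ((r θ : ℝ) : ℂ) p,
    hX.aeval p, fun θ hθ => ?_, 0, fun k _ => ?_⟩
  · have h1 : ‖((r θ : ℝ) : ℂ)‖ ≤ M := hX.norm_le hM hθ
    rw [Complex.norm_real, Real.norm_eq_abs, abs_of_nonneg (hr θ)] at h1
    beta_reduce
    rw [hsy_aeval_ofReal, ← Complex.ofReal_sub, Complex.norm_real, Real.norm_eq_abs, abs_sub_comm]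
    exact (hp _ ⟨hr θ, h1⟩).le
  · exact hsy_norm_sqrt_sub_aeval_le (hpos k) (hM k) hε.le p fun x hx => (hp x hx).le

/-- absolute values: `|X|` has the symbol `|f|` (no normality is needed) -/
theorem mabs (hX : HasSymbol X f) :
    HasSymbol (fun k => Claimed.Agent.R296.mabs (X k)) (fun θ => ((‖f θ‖ : ℝ) : ℂ)) := by
  have h1 : HasSymbol (fun k => (X k).conjTranspose * X k)
      (fun θ => ((‖f θ‖ ^ 2 : ℝ) : ℂ)) :=
    (hX.conjTranspose.mul hX).congr_symb fun θ => by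
      rw [RCLike.star_def, Complex.conj_mul', Complex.ofReal_pow]
  have h2 := h1.sqrt (fun k => Matrix.posSemidef_conjTranspose_mul_self (X k))
    (fun θ => by positivity)
  exact h2.congr_symb fun θ => by rw [Real.sqrt_sq (norm_nonneg _)]

/-- `𝒟 = |X| + |X^*| - X - X^*` has the symbol `2 (|f| - Re f)` -/
theorem skewD (hX : HasSymbol X f) :
    HasSymbol (fun k => Claimed.Agent.R296.skewD (X k))
      (fun θ => ((2 * (‖f θ‖ - (f θ).re) : ℝ) : ℂ)) := by
  have h := ((hX.mabs.add hX.conjTranspose.mabs).sub hX).sub hX.conjTranspose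
  refine h.congr_symb fun θ => ?_
  have h1 : f θ + star (f θ) = ((2 * (f θ).re : ℝ) : ℂ) := by
    rw [RCLike.star_def, Complex.add_conj]
  rw [norm_star, sub_sub, h1]
  push_cast
  ring

/-- **expectations are computed by the coherent weights**, uniformly in the density matrix -/
theorem expect [∀ x, Nonempty (io x)] (hX : HasSymbol X f) (ε : ℝ) (hε : 0 < ε) :
    ∃ k₀ : ℕ, ∀ k, k₀ ≤ k → ∀ (K : ℕ) (𝒟 : CohDesign io K), 2 * k ≤ K →
      ∀ σ : Matrix (SymIx io (Fin k)) (SymIx io (Fin k)) ℂ, IsDensity σ →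
        ‖(σ * X k).trace - ∑ i, (𝒟.w k σ i : ℂ) * f (𝒟.θ i)‖ ≤ ε := by
  have hε3 : 0 < ε / 3 := by linarith
  obtain ⟨μ, _, _, G, hG, k₀, hk₀⟩ := hX.2 (ε / 3) hε3
  obtain ⟨k₁, hk₁0, hk₁⟩ := hsy_exists_nat
    (2 * ((Fintype.card μ * dV io + 2 * (Fintype.card μ : ℝ) ^ 2) *
      (1 + (dV io : ℝ) ^ Fintype.card μ) * ‖G‖)) (ε / 3) hε3
  refine ⟨max (max k₀ k₁) (Fintype.card μ), fun k hk K 𝒟 hK σ hσ => ?_⟩
  have hk0 : k₀ ≤ k := le_trans (le_trans (le_max_left _ _) (le_max_left _ _)) hk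
  have hk1 : k₁ ≤ k := le_trans (le_trans (le_max_right _ _) (le_max_left _ _)) hk
  have hk2 : Fintype.card μ ≤ k := le_trans (le_max_right _ _) hk
  have hkpos : 0 < k := lt_of_lt_of_le hk₁0 hk1
  have hkK : k ≤ K := by omega
  set TG := cmp (Claimed.Agent.R296.injAvg (Fin k) G) with hTG
  set Qc := 𝒟.Qc k fun i => symb G (𝒟.θ i) with hQc
  have h1 : ‖(σ * (X k - TG)).trace‖ ≤ ε / 3 :=
    (norm_trace_density_mul_le hσ _).trans (hk₀ k hk0)
  have h2 : ‖(σ * (TG - Qc)).trace‖ ≤ ε / 3 := by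
    refine (norm_trace_density_mul_le hσ _).trans ?_
    refine (husimi_norm 𝒟 (by omega) hkpos G).trans ?_
    have := hk₁ k hk1
    calc 2 * ((Fintype.card μ * dV io + 2 * (Fintype.card μ : ℝ) ^ 2) *
          (1 + (dV io : ℝ) ^ Fintype.card μ) * ‖G‖ / k)
        = 2 * ((Fintype.card μ * dV io + 2 * (Fintype.card μ : ℝ) ^ 2) *
          (1 + (dV io : ℝ) ^ Fintype.card μ) * ‖G‖) / k := by ring
      _ ≤ ε / 3 := this
  have h3 : ‖(σ * Qc).trace - ∑ i, (𝒟.w k σ i : ℂ) * f (𝒟.θ i)‖ ≤ ε / 3 := by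
    rw [hQc, trace_mul_Qc 𝒟 k σ hσ.1, ← Finset.sum_sub_distrib]
    refine (norm_sum_le _ _).trans ?_
    have hsum : ∑ i, 𝒟.w k σ i = 1 := by
      rw [𝒟.sum_w hkK σ, hσ.2, Complex.one_re]
    calc ∑ i, ‖(𝒟.w k σ i : ℂ) * symb G (𝒟.θ i) - (𝒟.w k σ i : ℂ) * f (𝒟.θ i)‖
        ≤ ∑ i, 𝒟.w k σ i * (ε / 3) := by
          refine Finset.sum_le_sum fun i _ => ?_
          rw [← mul_sub, norm_mul, Complex.norm_real, Real.norm_eq_abs,
            abs_of_nonneg (𝒟.w_nonneg k hσ.1 i), norm_sub_rev]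
          exact mul_le_mul_of_nonneg_left (hG _ (𝒟.unit i)) (𝒟.w_nonneg k hσ.1 i)
      _ = ε / 3 := by rw [← Finset.sum_mul, hsum, one_mul]
  calc ‖(σ * X k).trace - ∑ i, (𝒟.w k σ i : ℂ) * f (𝒟.θ i)‖
      = ‖(σ * (X k - TG)).trace + (σ * (TG - Qc)).trace
          + ((σ * Qc).trace - ∑ i, (𝒟.w k σ i : ℂ) * f (𝒟.θ i))‖ := by
        congr 1
        rw [Matrix.mul_sub, Matrix.mul_sub, Matrix.trace_sub, Matrix.trace_sub]
        ring
    _ ≤ _ := norm_add₃_le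
    _ ≤ ε / 3 + ε / 3 + ε / 3 := add_le_add (add_le_add h1 h2) h3
    _ = ε := by ring

end HasSymbol

end Claimed.Agent.R296
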