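import Claimed.Agent.R296.Replica.MarkedOne

/-!
# Row 296, P1 Section 5: Lemma `lem:symbol` (marked-copy scalar symbols), final assembly

Architect: helper197.  Package RP-SYM (short: about 300 lines).  Consumer: prop:transport, eq.
(transport:symbol-cost) (helper9).

* `hasSymbol_simO`     : `O_k = A^{-1/2} \bar h A^{1/2}` has the symbol `f_θ = cd_skewFun θ P Y D h t`
                         (this contains `sup_k ‖O_k‖ < ∞` and eq. replicas:polynomial-symbol, by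
                         `HasSymbol.mul/add/conjTranspose`);
* `symbol_skew_expect` : eq. (replicas:skew-symbol);
* `symbol_skew_bound`  : eq. (replicas:skew-bound), with `cd_skew`; `symbol_skew_bound'` = the two
                         outer parts exchanged.
All integrals `∫ · dμ_σ(θ)` are the finite sums `∑ i, 𝒟.w k σ i * ·(𝒟.θ i)` over a coherent design of
level `≥ 2k` (`Design.lean`).
-/

set_option autoImplicit false
set_option linter.unusedSectionVars false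

namespace Claimed.Agent.R296

open Matrix
open scoped ComplexOrder MatrixOrder Matrix.Norms.L2Operator

variable {s : Type} [DecidableEq s] [Fintype s] {io : s → Type}
  [∀ x, Fintype (io x)] [∀ x, DecidableEq (io x)] [∀ x, Nonempty (io x)]

/-- **the similarity transform has the scalar symbol `f_θ`** -/
theorem hasSymbol_simO (t : ℝ) (ht0 : 0 < t) (ht1 : t < 1 / 2) {P Y F D : Finset s}
    (h3 : IsPart3 P Y F) (hD : D ⊆ P ∪ Y) (K : Matrix (CfgOn io D) (CfgOn io D) ℂ) :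
    HasSymbol (fun k => simO (Fin k) t P Y F (emb D K))
      (fun θ => cd_skewFun θ P Y D K (t : ℂ)) := by
  obtain ⟨n, c, e, hK⟩ := exists_prod_decomp h3.dPY hD K
  refine HasSymbol.of_approx (simO_bounded t ht0 ht1 h3 hD K) fun ε hε => ?_
  obtain ⟨δ₁, hδ₁, H₁⟩ := simO_approx t ht0 ht1 h3 K c e hK ε hε
  obtain ⟨δ₂, hδ₂, H₂⟩ := skewFun_approx t ht0 ht1 h3.dPY K c e hK ε hε
  have hδ : 0 < min δ₁ δ₂ := lt_min hδ₁ hδ₂
  obtain ⟨η₁, hη₁, H₁'⟩ := H₁ (min δ₁ δ₂) hδ (min_le_left _ _)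
  obtain ⟨η₂, hη₂, H₂'⟩ := H₂ (min δ₁ δ₂) hδ (min_le_right _ _)
  have hη : 0 < min η₁ η₂ := lt_min hη₁ hη₂
  obtain ⟨p₁, hp₁⟩ := exists_apxFwd t (min η₁ η₂) ht0 hη
  obtain ⟨p₂, hp₂⟩ := exists_apxInv t (min δ₁ δ₂) (min η₁ η₂) hδ hη
  exact ⟨evSeq (apxW P Y p₁ p₂ c e), _, hasSymbol_evOp _,
    H₂' _ hη (min_le_right _ _) p₁ p₂ hp₁ hp₂, H₁' _ hη (min_le_left _ _) p₁ p₂ hp₁ hp₂⟩

/-- eq. (replicas:skew-symbol) -/
theorem symbol_skew_expect (t : ℝ) (ht0 : 0 < t) (ht1 : t < 1 / 2) {P Y F D : Finset s}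
    (h3 : IsPart3 P Y F) (hD : D ⊆ P ∪ Y) (K : Matrix (CfgOn io D) (CfgOn io D) ℂ)
    (ε : ℝ) (hε : 0 < ε) :
    ∃ k₀ : ℕ, ∀ k, k₀ ≤ k → ∀ (N : ℕ) (𝒟 : CohDesign io N), 2 * k ≤ N →
      ∀ σ : Matrix (SymIx io (Fin k)) (SymIx io (Fin k)) ℂ, IsDensity σ →
        |(σ * skewD (simO (Fin k) t P Y F (emb D K))).trace.re -
          ∑ i, 𝒟.w k σ i * (2 * (‖cd_skewFun (𝒟.θ i) P Y D K (t : ℂ)‖ -
            (cd_skewFun (𝒟.θ i) P Y D K (t : ℂ)).re))| ≤ ε := by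
  obtain ⟨k₀, hk₀⟩ := (hasSymbol_simO t ht0 ht1 h3 hD K).skewD.expect ε hε
  refine ⟨k₀, fun k hk N 𝒟 hN σ hσ => ?_⟩
  have h := hk₀ k hk N 𝒟 hN σ hσ
  refine le_trans ?_ h
  have h2 : ((σ * skewD (simO (Fin k) t P Y F (emb D K))).trace -
      ∑ i, (𝒟.w k σ i : ℂ) * ((2 * (‖cd_skewFun (𝒟.θ i) P Y D K (t : ℂ)‖ -
            (cd_skewFun (𝒟.θ i) P Y D K (t : ℂ)).re) : ℝ) : ℂ)).re
      = (σ * skewD (simO (Fin k) t P Y F (emb D K))).trace.re -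
          ∑ i, 𝒟.w k σ i * (2 * (‖cd_skewFun (𝒟.θ i) P Y D K (t : ℂ)‖ -
            (cd_skewFun (𝒟.θ i) P Y D K (t : ℂ)).re)) := by
    rw [Complex.sub_re, Complex.re_sum]
    congr 1
    refine Finset.sum_congr rfl fun i _ => ?_
    rw [← Complex.ofReal_mul, Complex.ofReal_re]
  rw [← h2]
  exact Complex.abs_re_le_norm _

theorem isPart3_of_four {P x Y₀ F : Finset s} (h : cd_Four P x Y₀ F) : IsPart3 P (x ∪ Y₀) F where
  dPY := Finset.disjoint_union_right.2 ⟨h.dPx, h.dPU⟩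
  dPF := h.dPF
  dYF := Finset.disjoint_union_left.2 ⟨h.dxF, h.dUF⟩
  cover := by rw [← Finset.union_assoc]; exact h.cover

theorem cd_Four.swap {P x Y₀ F : Finset s} (h : cd_Four P x Y₀ F) : cd_Four F x Y₀ P where
  dPx := h.dxF.symm
  dPU := h.dUF.symm
  dPF := h.dPF.symm
  dxU := h.dxU
  dxF := h.dPx.symm
  dUF := h.dPU.symm
  cover := by
    rw [← h.cover]
    ext y
    simp only [Finset.mem_union]
    tauto

/-- **Lemma `lem:symbol`, eq. (replicas:skew-bound)**.  `c`, `C` are universal. -/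
theorem symbol_skew_bound :
    ∃ c C : ℝ, 0 < c ∧ 0 < C ∧
      ∀ (s : Type) [DecidableEq s] [Fintype s] (io : s → Type)
        [∀ y, Fintype (io y)] [∀ y, DecidableEq (io y)] [∀ y, Nonempty (io y)]
        (t : ℝ), 0 < t → t < 1 / 4 →
        ∀ (P x Y₀ F P₀ : Finset s), cd_Four P x Y₀ F → P₀ ⊆ P →
        ∀ h : Matrix (CfgOn io (P₀ ∪ x)) (CfgOn io (P₀ ∪ x)) ℂ, 0 ≤ h → h ≤ 1 →
        2 * t * cd_ell io (P₀ ∪ x) ≤ c → ∀ ε : ℝ, 0 < ε →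
        ∃ k₀ : ℕ, ∀ k, k₀ ≤ k → ∀ (N : ℕ) (𝒟 : CohDesign io N), 2 * k ≤ N →
          ∀ σ : Matrix (SymIx io (Fin k)) (SymIx io (Fin k)) ℂ, IsDensity σ →
            (σ * skewD (simO (Fin k) t P (x ∪ Y₀) F (emb (P₀ ∪ x) h))).trace.re
              ≤ C * (2 * t) ^ 2 * (cd_ell io (P₀ ∪ x)) ^ 4 *
                  ∑ i, 𝒟.w k σ i * (cminfo (pureOp (𝒟.θ i)) x F Y₀) ^ (1 / 8 : ℝ) + ε := by
  obtain ⟨c, C, hc, hC, H⟩ := cd_skew
  refine ⟨c, 2 * C, hc, by positivity, ?_⟩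
  intro s _ _ io _ _ _ t ht0 ht1 P x Y₀ F P₀ h4 hP₀ h h0 h1 hsmall ε hε
  have hD : P₀ ∪ x ⊆ P ∪ (x ∪ Y₀) := by
    intro y hy
    rcases Finset.mem_union.1 hy with hy | hy
    · exact Finset.mem_union_left _ (hP₀ hy)
    · exact Finset.mem_union_right _ (Finset.mem_union_left _ hy)
  obtain ⟨k₀, hk₀⟩ := symbol_skew_expect t ht0 (by linarith) (isPart3_of_four h4) hD h ε hε
  refine ⟨k₀, fun k hk N 𝒟 hN σ hσ => ?_⟩
  have h5 := (abs_le.1 (hk₀ k hk N 𝒟 hN σ hσ)).2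
  have h6 : ∑ i, 𝒟.w k σ i * (2 * (‖cd_skewFun (𝒟.θ i) P (x ∪ Y₀) (P₀ ∪ x) h (t : ℂ)‖ -
            (cd_skewFun (𝒟.θ i) P (x ∪ Y₀) (P₀ ∪ x) h (t : ℂ)).re))
      ≤ 2 * C * (2 * t) ^ 2 * (cd_ell io (P₀ ∪ x)) ^ 4 *
                  ∑ i, 𝒟.w k σ i * (cminfo (pureOp (𝒟.θ i)) x F Y₀) ^ (1 / 8 : ℝ) := by
    rw [Finset.mul_sum]
    refine Finset.sum_le_sum fun i _ => ?_
    have hw := 𝒟.w_nonneg k hσ.1 i
    have h7 := H s io (𝒟.θ i) P x Y₀ F P₀ (𝒟.unit i) h4 hP₀ h h0 h1 (2 * t) (by positivity) hsmall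
    have h8 : ((2 * t / 2 : ℝ) : ℂ) = (t : ℂ) := by
      congr 1
      ring
    rw [h8] at h7
    calc 𝒟.w k σ i * (2 * (‖cd_skewFun (𝒟.θ i) P (x ∪ Y₀) (P₀ ∪ x) h (t : ℂ)‖ -
            (cd_skewFun (𝒟.θ i) P (x ∪ Y₀) (P₀ ∪ x) h (t : ℂ)).re))
        ≤ 𝒟.w k σ i * (2 * (C * (2 * t) ^ 2 * (cd_ell io (P₀ ∪ x)) ^ 4 *
              (cminfo (pureOp (𝒟.θ i)) x F Y₀) ^ (1 / 8 : ℝ))) := by gcongr
      _ = _ := by ring
  linarith

theorem simO_swap {κ : Type} [Fintype κ] [DecidableEq κ] (t : ℝ) (ht : 0 < t) {P Y F : Finset s}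
    (h : IsPart3 P Y F) (H : Matrix (Cfg io) (Cfg io) ℂ) :
    simO κ t P Y F H = simO κ t F Y P H := by
  unfold simO
  rw [bandMz_swap t ht P Y F h, bandMz_swap t ht P Y F h]

/-- the same with the two outer parts exchanged: the support meets `F` -/
theorem symbol_skew_bound' :
    ∃ c C : ℝ, 0 < c ∧ 0 < C ∧
      ∀ (s : Type) [DecidableEq s] [Fintype s] (io : s → Type)
        [∀ y, Fintype (io y)] [∀ y, DecidableEq (io y)] [∀ y, Nonempty (io y)]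
        (t : ℝ), 0 < t → t < 1 / 4 →
        ∀ (P x Y₀ F F₀ : Finset s), cd_Four P x Y₀ F → F₀ ⊆ F →
        ∀ h : Matrix (CfgOn io (F₀ ∪ x)) (CfgOn io (F₀ ∪ x)) ℂ, 0 ≤ h → h ≤ 1 →
        2 * t * cd_ell io (F₀ ∪ x) ≤ c → ∀ ε : ℝ, 0 < ε →
        ∃ k₀ : ℕ, ∀ k, k₀ ≤ k → ∀ (N : ℕ) (𝒟 : CohDesign io N), 2 * k ≤ N →
          ∀ σ : Matrix (SymIx io (Fin k)) (SymIx io (Fin k)) ℂ, IsDensity σ →
            (σ * skewD (simO (Fin k) t P (x ∪ Y₀) F (emb (F₀ ∪ x) h))).trace.re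
              ≤ C * (2 * t) ^ 2 * (cd_ell io (F₀ ∪ x)) ^ 4 *
                  ∑ i, 𝒟.w k σ i * (cminfo (pureOp (𝒟.θ i)) x P Y₀) ^ (1 / 8 : ℝ) + ε := by
  obtain ⟨c, C, hc, hC, H⟩ := symbol_skew_bound
  refine ⟨c, C, hc, hC, ?_⟩
  intro s _ _ io _ _ _ t ht0 ht1 P x Y₀ F F₀ h4 hF₀ h h0 h1 hsmall ε hε
  obtain ⟨k₀, hk₀⟩ := H s io t ht0 ht1 F x Y₀ P F₀ h4.swap hF₀ h h0 h1 hsmall ε hε
  refine ⟨k₀, fun k hk N 𝒟 hN σ hσ => ?_⟩
  rw [simO_swap t ht0 (isPart3_of_four h4)]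
  exact hk₀ k hk N 𝒟 hN σ hσ

theorem barOp_eq_injAvg {κ : Type} [Fintype κ] [DecidableEq κ] [Nonempty κ]
    (h : Matrix (Cfg io) (Cfg io) ℂ) :
    barOp κ h = cmp (injAvg κ (copyOp (0 : Fin 1) h)) := by
  have h1 : ∀ j : κ, cmp (copyOp j h) = cmp (injAvg κ (copyOp (0 : Fin 1) h)) := fun j => by
    rw [← cmp_place (Function.Embedding.mk (fun _ : Fin 1 => j) fun a b _ => Subsingleton.elim a b),
      place_copyOp]
    rfl
  rw [barOp, copyAvg, cmp_smul, cmp_sum, Finset.sum_congr rfl fun j _ => h1 j, Finset.sum_const,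
    Finset.card_univ, ← Nat.cast_smul_eq_nsmul ℂ, smul_smul,
    inv_mul_cancel₀ (Nat.cast_ne_zero.2 Fintype.card_ne_zero), one_smul]

/-- `\bar h` has the symbol `⟨θ, h θ⟩` -/
theorem hasSymbol_barOp (h : Matrix (Cfg io) (Cfg io) ℂ) :
    HasSymbol (fun k => barOp (Fin k) h) (fun θ => star θ ⬝ᵥ (h *ᵥ θ)) := by
  refine (HasSymbol.injAvg (copyOp (0 : Fin 1) h)).congr ⟨‖copyAvg (κ := Fin 0) h‖ +
    ‖copyOp (0 : Fin 1) h‖, fun k => ?_⟩ ⟨1, fun k hk => ?_⟩ fun θ hθ => ?_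
  · rcases Nat.eq_zero_or_pos k with rfl | hk
    · exact (norm_cmp_le _).trans (le_add_of_nonneg_right (norm_nonneg _))
    · have : Nonempty (Fin k) := ⟨⟨0, hk⟩⟩
      rw [barOp_eq_injAvg]
      exact ((norm_cmp_le _).trans (norm_injAvg_le _)).trans
        (le_add_of_nonneg_left (norm_nonneg _))
  · have : Nonempty (Fin k) := ⟨⟨0, hk⟩⟩
    exact barOp_eq_injAvg h
  · exact (copyOp_mulVec_tpow_dot (0 : Fin 1) h θ hθ).symm

/-- the case `m = 1` of the symbol calculus: the energy of the coherent weights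
(used in Section 8 to compare `⟨v, \bar H v⟩` with the one-copy energies) -/
theorem barOp_expect (h : Matrix (Cfg io) (Cfg io) ℂ) (ε : ℝ) (hε : 0 < ε) :
    ∃ k₀ : ℕ, ∀ k, k₀ ≤ k → ∀ (N : ℕ) (𝒟 : CohDesign io N), 2 * k ≤ N →
      ∀ σ : Matrix (SymIx io (Fin k)) (SymIx io (Fin k)) ℂ, IsDensity σ →
        ‖(σ * barOp (Fin k) h).trace -
          ∑ i, (𝒟.w k σ i : ℂ) * (star (𝒟.θ i) ⬝ᵥ (h *ᵥ 𝒟.θ i))‖ ≤ ε :=
  (hasSymbol_barOp h).expect ε hε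

end Claimed.Agent.R296
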