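import Claimed.Agent.R296.Replica.Symb
import Claimed.Agent.R296.LocCexp

/-!
# Row 296, P1 Section 5, proof of `lem:symbol`: star words have scalar symbols

Architect: helper197.  Package RP-M1 (one owner, about 1300 lines).  FINAL: `hasSymbol_evOp`.

A *marked word* is a word in the letters `inl a` (a one-copy operator `a` on the marked copy) and
`inr Q` (the star operator `J_Q` centred at the marked copy).  `WAlg io` is the free algebra on
these letters, realised as `MonoidAlgebra ℂ (FreeMonoid _)`, so that every element is a finite linear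
combination of words.
* `evOp j₀`  : evaluation on the replicas (`inl a ↦ copyOp j₀ a`, `inr Q ↦ JQ Q j₀`);
* `evOne θ`  : one-copy evaluation (`inl a ↦ a`, `inr Q ↦ emb Q (ptr Q (pureOp θ))`).
THEOREM: `k ↦ cmp (evOp last x)` has the symbol `θ ↦ ⟨θ, evOne θ x θ⟩`.

Proof for one word `w` with `r` stars (then linearity, `HasSymbol.sum`, `HasSymbol.smul`):
(a) expand every star: `wordOp j₀ w = k^{-r} ∑_{d : Fin r → κ, d i ≠ j₀} wordAt j₀ d 0 w`; for an injective
    `d` the summand is `place ι (wordBlk w)`, `ι 0 = j₀`, `ι (i+1) = d i`, whose compression is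
    `cmp (injAvg κ (wordBlk w))` by `cmp_place`; the other summands have norm `≤ wordNorm w` and
    relative weight `≤ r²/k`  (`norm_cmp_wordOp_sub_le`);
(b) donor contraction (`symb_wordBlk`): every donor occurs in exactly one partial swap and
    `(⟨θ|_donor ⊗ 1) U_Q(donor centre) (|θ⟩_donor ⊗ 1) = (ρ_Q)_centre`.
-/

set_option autoImplicit false
set_option linter.unusedSectionVars false

namespace Claimed.Agent.R296

open Matrix
open scoped ComplexOrder MatrixOrder Matrix.Norms.L2Operator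

variable {s : Type} [DecidableEq s] [Fintype s]

/-- letters of a marked word -/
abbrev Letter (io : s → Type) : Type := Matrix (Cfg io) (Cfg io) ℂ ⊕ Finset s

/-- the free algebra on the letters -/
abbrev WAlg (io : s → Type) : Type := MonoidAlgebra ℂ (FreeMonoid (Letter io))

variable {io : s → Type} [∀ x, Fintype (io x)] [∀ x, DecidableEq (io x)]
  {κ : Type} [Fintype κ] [DecidableEq κ]

/-- the letter `a` (operator on the marked copy) -/
noncomputable def lOp (a : Matrix (Cfg io) (Cfg io) ℂ) : WAlg io :=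
  MonoidAlgebra.of ℂ _ (FreeMonoid.of (Sum.inl a))

/-- the letter `J_Q` -/
noncomputable def lSt (Q : Finset s) : WAlg io :=
  MonoidAlgebra.of ℂ _ (FreeMonoid.of (Sum.inr Q))

/-- a word on the replicas -/
noncomputable def wordOp (j₀ : κ) : FreeMonoid (Letter io) →* Matrix (RCfg io κ) (RCfg io κ) ℂ :=
  FreeMonoid.lift fun l => Sum.elim (fun a => copyOp j₀ a) (fun Q => JQ Q j₀) l

/-- a word on one copy: the stars are replaced by the marginals of `θ` -/
noncomputable def wordOne (θ : Cfg io → ℂ) :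
    FreeMonoid (Letter io) →* Matrix (Cfg io) (Cfg io) ℂ :=
  FreeMonoid.lift fun l => Sum.elim (fun a => a) (fun Q => emb Q (ptr Q (pureOp θ))) l

/-- evaluation on the replicas -/
noncomputable def evOp (j₀ : κ) : WAlg io →ₐ[ℂ] Matrix (RCfg io κ) (RCfg io κ) ℂ :=
  MonoidAlgebra.lift ℂ _ _ (wordOp j₀)

/-- evaluation on one copy -/
noncomputable def evOne (θ : Cfg io → ℂ) : WAlg io →ₐ[ℂ] Matrix (Cfg io) (Cfg io) ℂ :=
  MonoidAlgebra.lift ℂ _ _ (wordOne θ)

theorem evOp_lOp (j₀ : κ) (a : Matrix (Cfg io) (Cfg io) ℂ) : evOp j₀ (lOp a) = copyOp j₀ a := by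
  unfold evOp lOp wordOp
  rw [MonoidAlgebra.lift_of, FreeMonoid.lift_eval_of]
  rfl

theorem evOp_lSt (j₀ : κ) (Q : Finset s) : evOp (io := io) j₀ (lSt Q) = JQ Q j₀ := by
  unfold evOp lSt wordOp
  rw [MonoidAlgebra.lift_of, FreeMonoid.lift_eval_of]
  rfl

theorem evOne_lOp (θ : Cfg io → ℂ) (a : Matrix (Cfg io) (Cfg io) ℂ) : evOne θ (lOp a) = a := by
  unfold evOne lOp wordOne
  rw [MonoidAlgebra.lift_of, FreeMonoid.lift_eval_of]
  rfl

theorem evOne_lSt (θ : Cfg io → ℂ) (Q : Finset s) :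
    evOne θ (lSt Q) = emb Q (ptr Q (pureOp θ)) := by
  unfold evOne lSt wordOne
  rw [MonoidAlgebra.lift_of, FreeMonoid.lift_eval_of]
  rfl

theorem evOp_aeval_lSt (j₀ : κ) (Q : Finset s) (p : Polynomial ℝ) :
    evOp (io := io) j₀ (Polynomial.aeval (lSt Q) p) = Polynomial.aeval (JQ (io := io) Q j₀) p := by
  rw [← evOp_lSt]
  exact (Polynomial.aeval_algHom_apply ((evOp (io := io) j₀).restrictScalars ℝ) (lSt Q) p).symm

theorem evOne_aeval_lSt (θ : Cfg io → ℂ) (Q : Finset s) (p : Polynomial ℝ) :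
    evOne θ (Polynomial.aeval (lSt Q) p) = Polynomial.aeval (emb Q (ptr Q (pureOp θ))) p := by
  rw [← evOne_lSt]
  exact (Polynomial.aeval_algHom_apply ((evOne θ).restrictScalars ℝ) (lSt Q) p).symm

/-- number of stars of a word -/
def nStars (w : FreeMonoid (Letter io)) : ℕ := (FreeMonoid.toList w).countP Sum.isRight

/-- product of the norms of the operator letters -/
noncomputable def wordNorm (w : FreeMonoid (Letter io)) : ℝ :=
  ((FreeMonoid.toList w).map fun l => Sum.elim (fun a : Matrix (Cfg io) (Cfg io) ℂ => ‖a‖)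
    (fun _ => (1 : ℝ)) l).prod

/-- a word with prescribed donors: the `i`-th star (counted from `i₀`) is the partial swap of the
centre `j₀` with the donor `d i` -/
noncomputable def wordAt (j₀ : κ) (d : ℕ → κ) :
    ℕ → List (Letter io) → Matrix (RCfg io κ) (RCfg io κ) ℂ
  | _, [] => 1
  | i, Sum.inl a :: w => copyOp j₀ a * wordAt j₀ d i w
  | i, Sum.inr Q :: w => UQ Q (Equiv.swap (d i) j₀) * wordAt j₀ d (i + 1) w

/-- the fixed block operator of a word: centre `0`, donors `1, …, r` -/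
noncomputable def wordBlk (w : FreeMonoid (Letter io)) :
    Matrix (RCfg io (Fin (nStars w + 1))) (RCfg io (Fin (nStars w + 1))) ℂ :=
  wordAt 0 (fun i => Fin.ofNat (nStars w + 1) (i + 1)) 0 (FreeMonoid.toList w)

/-! ### norms -/

theorem wd_norm_one_le {n : Type*} [Fintype n] [DecidableEq n] : ‖(1 : Matrix n n ℂ)‖ ≤ 1 := by
  rcases isEmpty_or_nonempty n with h | h
  · have : (1 : Matrix n n ℂ) = 0 := Subsingleton.elim _ _
    rw [this, norm_zero]
    exact zero_le_one
  · exact (CStarRing.norm_one (E := Matrix n n ℂ)).le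

theorem wd_norm_UQ_le (Q : Finset s) (π : Equiv.Perm κ) : ‖UQ (io := io) Q π‖ ≤ 1 := by
  have h1 : ‖UQ (io := io) Q π‖ * ‖UQ (io := io) Q π‖ ≤ 1 := by
    rw [← Matrix.l2_opNorm_conjTranspose_mul_self, UQ_conjTranspose, UQ_inv_mul]
    exact wd_norm_one_le
  nlinarith [norm_nonneg (UQ (io := io) Q π)]

theorem wd_copyOp_add (j : κ) (g h : Matrix (Cfg io) (Cfg io) ℂ) :
    copyOp j (g + h) = copyOp j g + copyOp j h := by
  ext c c'
  simp only [copyOp, Matrix.of_apply, Matrix.add_apply]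
  split_ifs <;> simp

theorem wd_copyOp_smul (j : κ) (a : ℂ) (h : Matrix (Cfg io) (Cfg io) ℂ) :
    copyOp j (a • h) = a • copyOp j h := by
  ext c c'
  simp only [copyOp, Matrix.of_apply, Matrix.smul_apply]
  split_ifs <;> simp

theorem wd_copyOp_zero (j : κ) : copyOp j (0 : Matrix (Cfg io) (Cfg io) ℂ) = 0 := by
  ext c c'
  simp [copyOp]

/-- `copyOp j` as a unital star-algebra homomorphism -/
noncomputable def wd_copyHom (j : κ) :
    Matrix (Cfg io) (Cfg io) ℂ →⋆ₐ[ℂ] Matrix (RCfg io κ) (RCfg io κ) ℂ where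
  toFun := copyOp j
  map_one' := copyOp_one j
  map_mul' := copyOp_mul j
  map_zero' := wd_copyOp_zero j
  map_add' := wd_copyOp_add j
  commutes' c := by
    rw [Algebra.algebraMap_eq_smul_one, Algebra.algebraMap_eq_smul_one, wd_copyOp_smul, copyOp_one]
  map_star' K := by
    rw [star_eq_conjTranspose, star_eq_conjTranspose, copyOp_conjTranspose]

theorem wd_norm_copyOp_le (j : κ) (h : Matrix (Cfg io) (Cfg io) ℂ) : ‖copyOp j h‖ ≤ ‖h‖ :=
  NonUnitalStarAlgHom.norm_apply_le (wd_copyHom j) h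

/-- the norm bound of a list of letters -/
noncomputable def wd_normL (w : List (Letter io)) : ℝ :=
  (w.map fun l => Sum.elim (fun a : Matrix (Cfg io) (Cfg io) ℂ => ‖a‖) (fun _ => (1 : ℝ)) l).prod

theorem wd_normL_nonneg (w : List (Letter io)) : 0 ≤ wd_normL w := by
  induction w with
  | nil => simp [wd_normL]
  | cons l w ih =>
    unfold wd_normL at ih ⊢
    rw [List.map_cons, List.prod_cons]
    refine mul_nonneg ?_ ih
    rcases l with a | Q
    · exact norm_nonneg a
    · exact zero_le_one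

theorem wd_norm_wordAt_le (j₀ : κ) (d : ℕ → κ) (i : ℕ) (w : List (Letter io)) :
    ‖wordAt j₀ d i w‖ ≤ wd_normL w := by
  induction w generalizing i with
  | nil => simpa [wordAt, wd_normL] using wd_norm_one_le
  | cons l w ih =>
    have h0 := wd_normL_nonneg w
    rcases l with a | Q
    · calc ‖wordAt j₀ d i (Sum.inl a :: w)‖ = ‖copyOp j₀ a * wordAt j₀ d i w‖ := rfl
        _ ≤ ‖copyOp j₀ a‖ * ‖wordAt j₀ d i w‖ := norm_mul_le _ _
        _ ≤ ‖a‖ * wd_normL w := mul_le_mul (wd_norm_copyOp_le j₀ a) (ih i) (norm_nonneg _)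
            (norm_nonneg _)
        _ = wd_normL (Sum.inl a :: w) := by simp [wd_normL]
    · calc ‖wordAt j₀ d i (Sum.inr Q :: w)‖
          = ‖UQ Q (Equiv.swap (d i) j₀) * wordAt j₀ d (i + 1) w‖ := rfl
        _ ≤ ‖UQ (io := io) Q (Equiv.swap (d i) j₀)‖ * ‖wordAt j₀ d (i + 1) w‖ := norm_mul_le _ _
        _ ≤ 1 * wd_normL w := mul_le_mul (wd_norm_UQ_le Q _) (ih (i + 1)) (norm_nonneg _)
            zero_le_one
        _ = wd_normL (Sum.inr Q :: w) := by simp [wd_normL]

theorem norm_wordAt_le (j₀ : κ) (d : ℕ → κ) (i : ℕ) (w : FreeMonoid (Letter io)) :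
    ‖wordAt j₀ d i (FreeMonoid.toList w)‖ ≤ wordNorm w :=
  wd_norm_wordAt_le j₀ d i (FreeMonoid.toList w)

/-- the replica operator of a letter -/
noncomputable def wd_let (j₀ : κ) (l : Letter io) : Matrix (RCfg io κ) (RCfg io κ) ℂ :=
  Sum.elim (fun a => copyOp j₀ a) (fun Q => JQ Q j₀) l

theorem wd_wordOp_eq (j₀ : κ) (w : FreeMonoid (Letter io)) :
    wordOp j₀ w = ((FreeMonoid.toList w).map (wd_let j₀)).prod := by
  unfold wordOp
  rw [FreeMonoid.lift_apply]
  rfl

theorem wd_norm_prod_le (j₀ : κ) (w : List (Letter io)) :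
    ‖(w.map (wd_let j₀)).prod‖ ≤ wd_normL w := by
  induction w with
  | nil => simpa [wd_normL] using wd_norm_one_le
  | cons l w ih =>
    have h0 := wd_normL_nonneg w
    rw [List.map_cons, List.prod_cons]
    refine (norm_mul_le _ _).trans ?_
    rcases l with a | Q
    · calc ‖wd_let j₀ (Sum.inl a)‖ * ‖(w.map (wd_let j₀)).prod‖ ≤ ‖a‖ * wd_normL w :=
            mul_le_mul (wd_norm_copyOp_le j₀ a) ih (norm_nonneg _) (norm_nonneg _)
        _ = wd_normL (Sum.inl a :: w) := by simp [wd_normL]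
    · calc ‖wd_let (io := io) j₀ (Sum.inr Q)‖ * ‖(w.map (wd_let j₀)).prod‖ ≤ 1 * wd_normL w :=
            mul_le_mul (norm_JQ_le Q j₀) ih (norm_nonneg _) zero_le_one
        _ = wd_normL (Sum.inr Q :: w) := by simp [wd_normL]

theorem norm_wordOp_le (j₀ : κ) (w : FreeMonoid (Letter io)) : ‖wordOp j₀ w‖ ≤ wordNorm w := by
  rw [wd_wordOp_eq]
  exact wd_norm_prod_le j₀ (FreeMonoid.toList w)

/-! ### expansion of the stars -/

theorem wd_JQ_eq (Q : Finset s) (j₀ : κ) :
    JQ (io := io) Q j₀ = ((Fintype.card κ : ℂ))⁻¹ •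
      ∑ j : {j : κ // j ≠ j₀}, UQ Q (Equiv.swap (j : κ) j₀) := by
  unfold JQ Rep.Jel Rep.jm
  rw [map_smul, map_sum]
  congr 1
  have h1 : ∀ j : κ, repQ (io := io) Q
      (if j ≠ j₀ then MonoidAlgebra.of ℂ (Equiv.Perm κ) (Equiv.swap j j₀) else 0)
      = if j ≠ j₀ then UQ Q (Equiv.swap j j₀) else 0 := by
    intro j
    split_ifs
    · unfold repQ
      rw [MonoidAlgebra.lift_of]
      rfl
    · exact map_zero _
  simp only [h1]
  rw [← Finset.sum_filter]
  exact Finset.sum_subtype (Finset.univ.filter fun j => j ≠ j₀) (by simp)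
    (fun j => UQ (io := io) Q (Equiv.swap j j₀))

theorem wd_wordAt_shift (j₀ : κ) (d : ℕ → κ) (i : ℕ) (w : List (Letter io)) :
    wordAt j₀ d (i + 1) w = wordAt j₀ (fun n => d (n + 1)) i w := by
  induction w generalizing i with
  | nil => rfl
  | cons l w ih =>
    rcases l with a | Q
    · show copyOp j₀ a * wordAt j₀ d (i + 1) w = copyOp j₀ a * wordAt j₀ (fun n => d (n + 1)) i w
      rw [ih]
    · show UQ Q (Equiv.swap (d (i + 1)) j₀) * wordAt j₀ d (i + 1 + 1) w
        = UQ Q (Equiv.swap (d (i + 1)) j₀) * wordAt j₀ (fun n => d (n + 1)) (i + 1) w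
      rw [ih]

/-- donors as a function on `ℕ` -/
def wd_ext (j₀ : κ) {r : ℕ} (d : Fin r → {j : κ // j ≠ j₀}) : ℕ → κ :=
  fun i => if h : i < r then (d ⟨i, h⟩ : κ) else j₀

theorem wd_ext_cons (j₀ : κ) {r : ℕ} (j : {j : κ // j ≠ j₀}) (d : Fin r → {j : κ // j ≠ j₀}) :
    (fun n => wd_ext j₀ (Fin.cons j d : Fin (r + 1) → {j : κ // j ≠ j₀}) (n + 1)) = wd_ext j₀ d := by
  funext n
  unfold wd_ext
  by_cases h : n < r
  · rw [dif_pos h, dif_pos (Nat.succ_lt_succ h)]
    have : (⟨n + 1, Nat.succ_lt_succ h⟩ : Fin (r + 1)) = Fin.succ ⟨n, h⟩ := rfl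
    rw [this, Fin.cons_succ]
  · rw [dif_neg h, dif_neg (fun h' => h (Nat.lt_of_succ_lt_succ h'))]

theorem wd_prod_eq_sum (j₀ : κ) (w : List (Letter io)) (r : ℕ) (hr : r = w.countP Sum.isRight) :
    (w.map (wd_let j₀)).prod = ((Fintype.card κ : ℂ) ^ r)⁻¹ •
      ∑ d : Fin r → {j : κ // j ≠ j₀}, wordAt j₀ (wd_ext j₀ d) 0 w := by
  induction w generalizing r with
  | nil =>
    have : r = 0 := by simpa using hr
    subst this
    simp [wordAt]
  | cons l w ih =>
    rw [List.map_cons, List.prod_cons]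
    rcases l with a | Q
    · have hr' : r = w.countP Sum.isRight := by
        rw [hr, List.countP_cons_of_neg (by simp)]
      rw [ih r hr', Matrix.mul_smul, Matrix.mul_sum]
      rfl
    · have hr' : r = w.countP Sum.isRight + 1 := by
        rw [hr, List.countP_cons_of_pos (by rfl)]
      obtain ⟨r', rfl⟩ : ∃ r', r = r' + 1 := ⟨_, hr'⟩
      have hr'' : r' = w.countP Sum.isRight := by omega
      rw [ih r' hr'']
      have h1 : wd_let (io := io) j₀ (Sum.inr Q) = JQ Q j₀ := rfl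
      rw [h1, wd_JQ_eq, Matrix.smul_mul, Matrix.mul_smul, smul_smul, Matrix.sum_mul]
      congr 1
      · rw [pow_succ, mul_inv, mul_comm]
      · rw [← (Fin.consEquiv fun _ : Fin (r' + 1) => {j : κ // j ≠ j₀}).sum_comp,
          Fintype.sum_prod_type]
        refine Finset.sum_congr rfl fun j _ => ?_
        rw [Matrix.mul_sum]
        refine Finset.sum_congr rfl fun d _ => ?_
        show _ = UQ Q (Equiv.swap (wd_ext j₀ (Fin.cons j d : Fin (r' + 1) → _) 0) j₀) *
          wordAt j₀ (wd_ext j₀ (Fin.cons j d : Fin (r' + 1) → _)) (0 + 1) w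
        rw [wd_wordAt_shift, wd_ext_cons]
        congr 2

/-- expansion of the stars into donors -/
theorem wordOp_eq_sum (j₀ : κ) (w : FreeMonoid (Letter io)) :
    wordOp j₀ w = ((Fintype.card κ : ℂ) ^ nStars w)⁻¹ •
      ∑ d : Fin (nStars w) → {j : κ // j ≠ j₀},
        wordAt j₀ (fun i => if h : i < nStars w then (d ⟨i, h⟩ : κ) else j₀) 0
          (FreeMonoid.toList w) := by
  rw [wd_wordOp_eq]
  exact wd_prod_eq_sum j₀ (FreeMonoid.toList w) (nStars w) rfl

/-! ### placements -/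

theorem wd_place_wordAt {μ : Type} [Fintype μ] [DecidableEq μ] (ι : μ ↪ κ) (j : μ) (d : ℕ → μ)
    (i : ℕ) (w : List (Letter io)) :
    place ι (wordAt j d i w) = wordAt (ι j) (fun n => ι (d n)) i w := by
  induction w generalizing i with
  | nil => exact place_one ι
  | cons l w ih =>
    rcases l with a | Q
    · show place ι (copyOp j a * wordAt j d i w) = copyOp (ι j) a * wordAt (ι j) _ i w
      rw [place_mul, place_copyOp, ih]
    · show place ι (UQ Q (Equiv.swap (d i) j) * wordAt j d (i + 1) w)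
        = UQ Q (Equiv.swap (ι (d i)) (ι j)) * wordAt (ι j) _ (i + 1) w
      rw [place_mul, place_UQ_swap, ih]

/-- distinct donors: the summand is a placement of the fixed block -/
theorem wordAt_eq_place (j₀ : κ) (w : FreeMonoid (Letter io)) (ι : Fin (nStars w + 1) ↪ κ)
    (h0 : ι 0 = j₀) :
    wordAt j₀ (fun i => ι (Fin.ofNat (nStars w + 1) (i + 1))) 0 (FreeMonoid.toList w)
      = place ι (wordBlk w) := by
  unfold wordBlk
  rw [wd_place_wordAt, h0]

theorem wd_wordAt_congr (j₀ : κ) (d d' : ℕ → κ) (i : ℕ) (w : List (Letter io))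
    (h : ∀ n, i ≤ n → n < i + w.countP Sum.isRight → d n = d' n) :
    wordAt j₀ d i w = wordAt j₀ d' i w := by
  induction w generalizing i with
  | nil => rfl
  | cons l w ih =>
    rcases l with a | Q
    · show copyOp j₀ a * wordAt j₀ d i w = copyOp j₀ a * wordAt j₀ d' i w
      rw [ih i fun n h1 h2 => h n h1 (by rwa [List.countP_cons_of_neg (by simp)])]
    · show UQ Q (Equiv.swap (d i) j₀) * wordAt j₀ d (i + 1) w
        = UQ Q (Equiv.swap (d' i) j₀) * wordAt j₀ d' (i + 1) w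
      have hc : (Sum.inr Q :: w : List (Letter io)).countP Sum.isRight
          = w.countP Sum.isRight + 1 := List.countP_cons_of_pos (by rfl)
      rw [ih (i + 1) fun n h1 h2 => h n (by omega) (by rw [hc]; omega),
        h i le_rfl (by rw [hc]; omega)]

theorem wd_ofNat_succ {r n : ℕ} (h : n < r) : Fin.ofNat (r + 1) (n + 1) = Fin.succ ⟨n, h⟩ := by
  apply Fin.ext
  simp [Fin.ofNat, Nat.mod_eq_of_lt (Nat.succ_lt_succ h)]

/-- an injective choice of donors gives the injection average after compression -/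
theorem wd_cmp_wordAt_inj (j₀ : κ) (w : FreeMonoid (Letter io))
    (d : Fin (nStars w) → {j : κ // j ≠ j₀}) (hd : Function.Injective d) :
    cmp (wordAt j₀ (wd_ext j₀ d) 0 (FreeMonoid.toList w)) = cmp (injAvg κ (wordBlk w)) := by
  have hinj : Function.Injective
      (Fin.cons j₀ (fun i => (d i : κ)) : Fin (nStars w + 1) → κ) := by
    rw [Fin.cons_injective_iff]
    refine ⟨?_, fun a b hab => hd (Subtype.ext hab)⟩
    rintro ⟨a, ha⟩
    exact (d a).2 ha
  set ι : Fin (nStars w + 1) ↪ κ := ⟨_, hinj⟩ with hι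
  have h1 : wordAt j₀ (wd_ext j₀ d) 0 (FreeMonoid.toList w)
      = wordAt j₀ (fun i => ι (Fin.ofNat (nStars w + 1) (i + 1))) 0 (FreeMonoid.toList w) := by
    apply wd_wordAt_congr
    intro n _ hn
    have hn' : n < nStars w := by simpa [nStars] using hn
    rw [wd_ofNat_succ hn']
    have e : ι (Fin.succ ⟨n, hn'⟩)
        = (Fin.cons j₀ (fun i => (d i : κ)) : Fin (nStars w + 1) → κ) (Fin.succ ⟨n, hn'⟩) := rfl
    rw [e, Fin.cons_succ]
    unfold wd_ext
    rw [dif_pos hn']
  rw [h1, wordAt_eq_place j₀ w ι rfl, cmp_place]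

theorem wd_count_bound (k r I : ℕ) (hk : 0 < k) (hI : (k - r) ^ r ≤ I) :
    1 - (I : ℝ) / (k : ℝ) ^ r ≤ ((r : ℝ) + 1) ^ 2 / k := by
  have hk' : (0 : ℝ) < k := by exact_mod_cast hk
  have hr0 : (0 : ℝ) ≤ r := Nat.cast_nonneg r
  rcases le_or_gt k r with h | h
  · have h1 : (0 : ℝ) ≤ (I : ℝ) / (k : ℝ) ^ r := by positivity
    have h2 : (1 : ℝ) ≤ ((r : ℝ) + 1) ^ 2 / k := by
      rw [le_div_iff₀ hk']
      have : (k : ℝ) ≤ r := by exact_mod_cast h
      nlinarith
    linarith
  · have h1 : ((k : ℝ) - r) ^ r ≤ I := by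
      have : (((k - r) ^ r : ℕ) : ℝ) ≤ I := by exact_mod_cast hI
      rwa [Nat.cast_pow, Nat.cast_sub h.le] at this
    have h2 : (1 + -((r : ℝ) / k)) ^ r ≤ (I : ℝ) / (k : ℝ) ^ r := by
      rw [le_div_iff₀ (by positivity), ← mul_pow]
      have : (1 + -((r : ℝ) / k)) * k = (k : ℝ) - r := by field_simp; ring
      rwa [this]
    have h3 : -2 ≤ -((r : ℝ) / k) := by
      have : (r : ℝ) / k ≤ 1 := by
        rw [div_le_one hk']
        exact_mod_cast h.le
      linarith
    have h4 := one_add_mul_le_pow h3 r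
    have h5 : (r : ℝ) * ((r : ℝ) / k) ≤ ((r : ℝ) + 1) ^ 2 / k := by
      rw [← mul_div_assoc]
      apply div_le_div_of_nonneg_right _ hk'.le
      nlinarith
    linarith

theorem wd_card_inj (j₀ : κ) (r : ℕ) :
    (Fintype.card κ - r) ^ r ≤
      (Finset.univ.filter fun d : Fin r → {j : κ // j ≠ j₀} => Function.Injective d).card := by
  classical
  have h1 : (Finset.univ.filter fun d : Fin r → {j : κ // j ≠ j₀} => Function.Injective d).card
      = Fintype.card (Fin r ↪ {j : κ // j ≠ j₀}) := by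
    rw [← Fintype.card_subtype]
    exact Fintype.card_congr (Equiv.subtypeInjectiveEquivEmbedding _ _)
  have h2 : Fintype.card {j : κ // j ≠ j₀} = Fintype.card κ - 1 := by
    rw [Fintype.card_subtype_compl, Fintype.card_subtype_eq]
  rw [h1, Fintype.card_embedding_eq, h2, Fintype.card_fin]
  have hk : 0 < Fintype.card κ := Fintype.card_pos_iff.2 ⟨j₀⟩
  have h3 := Nat.pow_sub_le_descFactorial (Fintype.card κ - 1) r
  have h4 : Fintype.card κ - 1 + 1 - r = Fintype.card κ - r := by omega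
  rwa [h4] at h3

/-- (a): a compressed star word is an injection average up to `O(1/k)` -/
theorem norm_cmp_wordOp_sub_le (j₀ : κ) (w : FreeMonoid (Letter io)) :
    ‖cmp (wordOp j₀ w) - cmp (injAvg κ (wordBlk w))‖
      ≤ 2 * ((nStars w + 1 : ℝ) ^ 2 / Fintype.card κ) * wordNorm w := by
  classical
  set r := nStars w with hr
  set k := Fintype.card κ with hk
  have hk0 : 0 < k := Fintype.card_pos_iff.2 ⟨j₀⟩
  have hkR : (0 : ℝ) < (k : ℝ) := by exact_mod_cast hk0
  set A := cmp (injAvg κ (wordBlk w)) with hA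
  set N := wordNorm w with hN
  have hN0 : 0 ≤ N := wd_normL_nonneg _
  have hAN : ‖A‖ ≤ N :=
    (norm_cmp_le _).trans ((norm_injAvg_le _).trans (norm_wordAt_le _ _ _ w))
  set F : (Fin r → {j : κ // j ≠ j₀}) → Matrix (SymIx io κ) (SymIx io κ) ℂ :=
    fun d => cmp (wordAt j₀ (wd_ext j₀ d) 0 (FreeMonoid.toList w)) with hF
  have hFN : ∀ d, ‖F d‖ ≤ N := fun d => (norm_cmp_le _).trans (norm_wordAt_le _ _ _ w)
  set Sinj := Finset.univ.filter fun d : Fin r → {j : κ // j ≠ j₀} => Function.Injective d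
    with hSinj
  set Snon := Finset.univ.filter fun d : Fin r → {j : κ // j ≠ j₀} => ¬ Function.Injective d
    with hSnon
  set I := Sinj.card with hI
  have hcard : Sinj.card + Snon.card = Fintype.card (Fin r → {j : κ // j ≠ j₀}) := by
    rw [hSinj, hSnon, Finset.card_filter_add_card_filter_not, Finset.card_univ]
  have hT : Fintype.card (Fin r → {j : κ // j ≠ j₀}) ≤ k ^ r := by
    rw [Fintype.card_fun, Fintype.card_fin]
    exact Nat.pow_le_pow_left (Fintype.card_subtype_le _) r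
  have h1 : cmp (wordOp j₀ w) = ((k : ℂ) ^ r)⁻¹ • ((I : ℂ) • A + ∑ d ∈ Snon, F d) := by
    have h0 : cmp (wordOp j₀ w) = ((k : ℂ) ^ r)⁻¹ • ∑ d, F d := by
      rw [wordOp_eq_sum, cmp_smul, cmp_sum]
      rfl
    rw [h0]
    congr 1
    rw [← Finset.sum_filter_add_sum_filter_not Finset.univ
      (fun d : Fin r → {j : κ // j ≠ j₀} => Function.Injective d)]
    congr 1
    have h00 : ∀ d ∈ Sinj, F d = A := fun d hd =>
      wd_cmp_wordAt_inj j₀ w d (Finset.mem_filter.1 hd).2
    rw [Finset.sum_congr rfl h00, Finset.sum_const, ← Nat.cast_smul_eq_nsmul ℂ]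
  set x : ℝ := (I : ℝ) / (k : ℝ) ^ r with hx
  have hkr : (0 : ℝ) < (k : ℝ) ^ r := by positivity
  have hx0 : 0 ≤ x := by positivity
  have hIle : (I : ℝ) + Snon.card ≤ (k : ℝ) ^ r := by
    have : I + Snon.card ≤ k ^ r := hcard ▸ hT
    exact_mod_cast this
  have hx1 : x ≤ 1 := by
    rw [hx, div_le_one hkr]
    have : (0 : ℝ) ≤ Snon.card := Nat.cast_nonneg _
    linarith
  have h2 : cmp (wordOp j₀ w) - A
      = (((x - 1 : ℝ)) : ℂ) • A + ((((k : ℝ) ^ r)⁻¹ : ℝ) : ℂ) • ∑ d ∈ Snon, F d := by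
    rw [h1, smul_add, smul_smul]
    have e1 : ((k : ℂ) ^ r)⁻¹ * (I : ℂ) = ((x : ℝ) : ℂ) := by
      rw [hx]; push_cast; rw [div_eq_inv_mul]
    have e2 : ((k : ℂ) ^ r)⁻¹ = ((((k : ℝ) ^ r)⁻¹ : ℝ) : ℂ) := by push_cast; rfl
    rw [e1, e2]
    push_cast
    rw [sub_smul, one_smul]
    abel
  have h3 : ‖∑ d ∈ Snon, F d‖ ≤ Snon.card * N := by
    refine (norm_sum_le _ _).trans ?_
    have := Finset.sum_le_card_nsmul Snon (fun d => ‖F d‖) N fun d _ => hFN d
    rwa [nsmul_eq_mul] at this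
  have h4 : ((k : ℝ) ^ r)⁻¹ * (Snon.card * N) ≤ (1 - x) * N := by
    rw [← mul_assoc]
    apply mul_le_mul_of_nonneg_right _ hN0
    rw [hx, inv_mul_eq_div, div_le_iff₀ hkr, sub_mul, div_mul_cancel₀ _ hkr.ne']
    linarith
  have h5 : 1 - x ≤ ((r : ℝ) + 1) ^ 2 / k := wd_count_bound k r I hk0 (wd_card_inj j₀ r)
  calc ‖cmp (wordOp j₀ w) - A‖
      ≤ ‖(((x - 1 : ℝ)) : ℂ) • A‖ + ‖((((k : ℝ) ^ r)⁻¹ : ℝ) : ℂ) • ∑ d ∈ Snon, F d‖ := by
        rw [h2]; exact norm_add_le _ _
    _ ≤ (1 - x) * N + ((k : ℝ) ^ r)⁻¹ * (Snon.card * N) := by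
        apply add_le_add
        · refine (norm_smul_le _ _).trans ?_
          rw [Complex.norm_real, Real.norm_eq_abs, abs_sub_comm, abs_of_nonneg (by linarith)]
          exact mul_le_mul_of_nonneg_left hAN (by linarith)
        · refine (norm_smul_le _ _).trans ?_
          rw [Complex.norm_real, Real.norm_of_nonneg (by positivity)]
          exact mul_le_mul_of_nonneg_left h3 (by positivity)
    _ ≤ 2 * (1 - x) * N := by linarith
    _ ≤ 2 * (((r : ℝ) + 1) ^ 2 / k) * N := by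
        apply mul_le_mul_of_nonneg_right _ hN0
        linarith

/-! ### donor contraction -/

theorem wd_eq_cmix_cglue_iff (Q : Finset s) (σ τ : Cfg io) (a : CfgOn io Q) (b : CfgOff io Q) :
    σ = cmix Q (cglue Q a b) τ ↔ (a = crOn Q σ ∧ crOff Q σ = crOff Q τ) := by
  constructor
  · intro h
    constructor
    · funext x
      have := congrFun h x.1
      simp only [cmix, cglue, x.2, if_true, dif_pos] at this
      exact this.symm
    · funext x
      have := congrFun h x.1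
      simp only [cmix, x.2, if_false] at this
      exact this
  · rintro ⟨rfl, h⟩
    funext x
    by_cases hx : x ∈ Q
    · simp [cmix, cglue, crOn, hx]
    · simp only [cmix, hx, if_false]
      exact congrFun h ⟨x, hx⟩

theorem wd_core (Q : Finset s) (θ : Cfg io → ℂ) (σ τ : Cfg io) :
    ∑ y : Cfg io, (if σ = cmix Q y τ then θ y * star (θ (cmix Q τ y)) else 0)
      = emb Q (ptr Q (pureOp θ)) σ τ := by
  rw [sp_sum_cfg Q]
  simp only [cmix_cglue, wd_eq_cmix_cglue_iff, emb, ptr, pureOp, Matrix.of_apply, vecMulVec_apply,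
    Pi.star_apply]
  by_cases h : crOff Q σ = crOff Q τ
  · simp only [h, and_true, if_true]
    rw [Finset.sum_eq_single (crOn Q σ)]
    · simp
    · intro a _ ha
      simp [ha]
    · simp
  · simp [h]

/-- replace the copy `j` of a replica configuration -/
def wd_rset (c : RCfg io κ) (j : κ) (y : Cfg io) : RCfg io κ :=
  fun p => if p.1 = j then y p.2 else c p

theorem wd_rcopy_rset_self (c : RCfg io κ) (j : κ) (y : Cfg io) : rcopy (wd_rset c j y) j = y := by
  funext x
  simp [rcopy, wd_rset]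

theorem wd_rcopy_rset_of_ne (c : RCfg io κ) {i j : κ} (h : i ≠ j) (y : Cfg io) :
    rcopy (wd_rset c j y) i = rcopy c i := by
  funext x
  simp [rcopy, wd_rset, h]

theorem wd_mul_copyOp_apply (j : κ) (h : Matrix (Cfg io) (Cfg io) ℂ)
    (M : Matrix (RCfg io κ) (RCfg io κ) ℂ) (c c' : RCfg io κ) :
    (M * copyOp j h) c c' = ∑ y : Cfg io, M c (wd_rset c' j y) * h y (rcopy c' j) := by
  rw [Matrix.mul_apply]
  have h1 : ∀ e : RCfg io κ, M c e * copyOp j h e c'
      = ∑ y : Cfg io, if y = rcopy e j then M c e * copyOp j h e c' else 0 := by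
    intro e
    rw [Finset.sum_ite_eq' Finset.univ (rcopy e j)]
    simp
  rw [Finset.sum_congr rfl fun e _ => h1 e, Finset.sum_comm]
  refine Finset.sum_congr rfl fun y _ => ?_
  rw [Finset.sum_eq_single (wd_rset c' j y)]
  · rw [wd_rcopy_rset_self, if_pos rfl]
    congr 1
    simp only [copyOp, Matrix.of_apply]
    rw [if_pos (fun i hi => wd_rcopy_rset_of_ne c' hi y), wd_rcopy_rset_self]
  · intro e _ he
    by_cases hy : y = rcopy e j
    · rw [if_pos hy]
      simp only [copyOp, Matrix.of_apply]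
      rw [if_neg, mul_zero]
      intro hall
      apply he
      apply rcopy_ext
      intro i
      by_cases hi : i = j
      · subst hi; rw [wd_rcopy_rset_self, hy]
      · rw [wd_rcopy_rset_of_ne c' hi, hall i hi]
    · rw [if_neg hy]
  · simp

theorem wd_rcopy_rperm (Q : Finset s) (π : Equiv.Perm κ) (e : RCfg io κ) (i : κ) :
    rcopy (rperm Q π e) i = cmix Q (rcopy e (π⁻¹ i)) (rcopy e i) := by
  funext x
  simp only [rcopy, rperm_apply, cmix]

/-- **donor contraction**: `(⟨θ|_j ⊗ 1) U_Q(j j₀) (|θ⟩_j ⊗ 1) = (ρ_Q)_{j₀}` -/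
theorem wd_contract (Q : Finset s) (θ : Cfg io → ℂ) {j j₀ : κ} (hj : j ≠ j₀) :
    copyOp j (pureOp θ) * UQ Q (Equiv.swap j j₀) * copyOp j (pureOp θ)
      = copyOp j₀ (emb Q (ptr Q (pureOp θ))) * copyOp j (pureOp θ) := by
  ext c c'
  rw [wd_mul_copyOp_apply, wd_mul_copyOp_apply]
  simp only [UQ_eq_rpMat, mul_rpMat_apply]
  set σ := rcopy c j₀ with hσ
  set τ := rcopy c' j₀ with hτ
  have hP : ∀ a b : Cfg io, pureOp θ a b = θ a * star (θ b) := fun a b => by
    simp [pureOp, vecMulVec_apply]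
  have hL : ∀ y : Cfg io, (∀ i, i ≠ j → rcopy c i
        = rcopy (rperm Q (Equiv.swap j j₀) (wd_rset c' j y)) i)
      ↔ ((∀ i, i ≠ j → i ≠ j₀ → rcopy c i = rcopy c' i) ∧ σ = cmix Q y τ) := by
    intro y
    constructor
    · intro h
      refine ⟨fun i h1 h2 => ?_, ?_⟩
      · rw [h i h1, wd_rcopy_rperm, Equiv.swap_inv, Equiv.swap_apply_of_ne_of_ne h1 h2,
          wd_rcopy_rset_of_ne c' h1]
        funext x
        simp [cmix]
      · rw [hσ, h j₀ hj.symm, wd_rcopy_rperm, Equiv.swap_inv, Equiv.swap_apply_right,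
          wd_rcopy_rset_self, wd_rcopy_rset_of_ne c' hj.symm]
    · rintro ⟨h1, h2⟩ i hi
      by_cases hi0 : i = j₀
      · subst hi0
        rw [wd_rcopy_rperm, Equiv.swap_inv, Equiv.swap_apply_right,
          wd_rcopy_rset_self, wd_rcopy_rset_of_ne c' hi]
        exact h2
      · rw [wd_rcopy_rperm, Equiv.swap_inv, Equiv.swap_apply_of_ne_of_ne hi hi0,
          wd_rcopy_rset_of_ne c' hi, h1 i hi hi0]
        funext x
        simp [cmix]
  have hR : ∀ y : Cfg io, (∀ i, i ≠ j₀ → rcopy c i = rcopy (wd_rset c' j y) i)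
      ↔ ((∀ i, i ≠ j → i ≠ j₀ → rcopy c i = rcopy c' i) ∧ y = rcopy c j) := by
    intro y
    constructor
    · intro h
      refine ⟨fun i h1 h2 => ?_, ?_⟩
      · rw [h i h2, wd_rcopy_rset_of_ne c' h1]
      · rw [h j hj, wd_rcopy_rset_self]
    · rintro ⟨h1, h2⟩ i hi
      by_cases hij : i = j
      · subst hij
        rw [wd_rcopy_rset_self, h2]
      · rw [wd_rcopy_rset_of_ne c' hij, h1 i hij hi]
  have hj' : ∀ y : Cfg io, rcopy (rperm Q (Equiv.swap j j₀) (wd_rset c' j y)) j = cmix Q τ y := by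
    intro y
    rw [wd_rcopy_rperm, Equiv.swap_inv, Equiv.swap_apply_left, wd_rcopy_rset_self,
      wd_rcopy_rset_of_ne c' hj.symm]
  simp only [copyOp, Matrix.of_apply, hL, hR, hj', wd_rcopy_rset_of_ne c' hj.symm, hP]
  by_cases hG : ∀ i, i ≠ j → i ≠ j₀ → rcopy c i = rcopy c' i
  · simp only [and_iff_right hG]
    rw [← wd_core, Finset.sum_eq_single (rcopy c j) (s := Finset.univ)
      (f := fun y => (if y = rcopy c j then _ else 0) * (θ y * star (θ (rcopy c' j))))]
    · rw [if_pos rfl, Finset.sum_mul]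
      refine Finset.sum_congr rfl fun y _ => ?_
      split_ifs
      · ring
      · simp
    · intro y _ hy
      rw [if_neg hy, zero_mul]
    · simp
  · simp [hG]

theorem wd_cmix_self (Q : Finset s) (σ : Cfg io) : cmix Q σ σ = σ := by
  funext x
  simp [cmix]

/-- a partial permutation fixing the copy `j` commutes with the operators on the copy `j` -/
theorem wd_copyOp_commute_UQ (Q : Finset s) {π : Equiv.Perm κ} {j : κ} (hπ : π j = j)
    (Y : Matrix (Cfg io) (Cfg io) ℂ) : Commute (copyOp j Y) (UQ Q π) := by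
  rw [UQ_eq_rpMat]
  apply commute_rpMat_of_conj
  ext c c'
  rw [rpMat_conj_apply, ← map_inv]
  simp only [copyOp, Matrix.of_apply, wd_rcopy_rperm, inv_inv, hπ, wd_cmix_self]
  have hne : ∀ i, i ≠ j → π i ≠ j := fun i hi h => hi (π.injective (h.trans hπ.symm))
  have hne' : ∀ i, i ≠ j → π⁻¹ i ≠ j := fun i hi h => hi (by
    have := congrArg π h
    simpa [hπ] using this)
  have hiff : (∀ i, i ≠ j → cmix Q (rcopy c (π i)) (rcopy c i)
        = cmix Q (rcopy c' (π i)) (rcopy c' i)) ↔ (∀ i, i ≠ j → rcopy c i = rcopy c' i) := by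
    constructor
    · intro h i hi
      funext x
      by_cases hx : x ∈ Q
      · have := congrFun (h (π⁻¹ i) (hne' i hi)) x
        simpa [cmix, hx] using this
      · have := congrFun (h i hi) x
        simpa [cmix, hx] using this
    · intro h i hi
      rw [h i hi, h (π i) (hne i hi)]
  simp only [hiff]

/-- a word commutes with the operators on a copy which is neither the centre nor a donor -/
theorem wd_wordAt_commute (j₀ : κ) (d : ℕ → κ) (i : ℕ) (w : List (Letter io)) {j : κ}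
    (hj : j ≠ j₀) (hd : ∀ n, i ≤ n → n < i + w.countP Sum.isRight → d n ≠ j)
    (Y : Matrix (Cfg io) (Cfg io) ℂ) : Commute (copyOp j Y) (wordAt j₀ d i w) := by
  induction w generalizing i with
  | nil => exact Commute.one_right _
  | cons l w ih =>
    rcases l with a | Q
    · refine Commute.mul_right (copyOp_commute hj Y a) (ih i fun n h1 h2 => hd n h1 ?_)
      rwa [List.countP_cons_of_neg (by simp)]
    · have hc : (Sum.inr Q :: w : List (Letter io)).countP Sum.isRight
          = w.countP Sum.isRight + 1 := List.countP_cons_of_pos (by rfl)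
      refine Commute.mul_right (wd_copyOp_commute_UQ Q ?_ Y)
        (ih (i + 1) fun n h1 h2 => hd n (by omega) (by rw [hc]; omega))
      exact Equiv.swap_apply_of_ne_of_ne (hd i le_rfl (by rw [hc]; omega)).symm hj

/-- the projector onto `θ` on all copies but the centre -/
def wd_Pi (j₀ : κ) (θ : Cfg io → ℂ) : Matrix (RCfg io κ) (RCfg io κ) ℂ :=
  tpo fun i => if i = j₀ then 1 else pureOp θ

theorem wd_pureOp_sq {θ : Cfg io → ℂ} (hθ : star θ ⬝ᵥ θ = 1) : pureOp θ * pureOp θ = pureOp θ := by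
  unfold pureOp
  rw [vecMulVec_mul_vecMulVec, hθ, one_smul]

theorem wd_pureOp_mulVec {θ : Cfg io → ℂ} (hθ : star θ ⬝ᵥ θ = 1) : pureOp θ *ᵥ θ = θ := by
  unfold pureOp
  rw [vecMulVec_mulVec, hθ]
  ext i
  simp

theorem wd_Pi_mul_copyOp (j₀ : κ) {θ : Cfg io → ℂ} (hθ : star θ ⬝ᵥ θ = 1) {j : κ} (hj : j ≠ j₀) :
    wd_Pi j₀ θ * copyOp j (pureOp θ) = wd_Pi j₀ θ := by
  unfold wd_Pi
  rw [copyOp_eq_tpo, ← tpo_mul]
  congr 1
  funext i
  by_cases hi : i = j
  · subst hi
    simp [hj, wd_pureOp_sq hθ]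
  · simp [Function.update_of_ne hi]

theorem wd_copyOp_mul_Pi (j₀ : κ) {θ : Cfg io → ℂ} (hθ : star θ ⬝ᵥ θ = 1) {j : κ} (hj : j ≠ j₀) :
    copyOp j (pureOp θ) * wd_Pi j₀ θ = wd_Pi j₀ θ := by
  unfold wd_Pi
  rw [copyOp_eq_tpo, ← tpo_mul]
  congr 1
  funext i
  by_cases hi : i = j
  · subst hi
    simp [hj, wd_pureOp_sq hθ]
  · simp [Function.update_of_ne hi]

theorem wd_Pi_commute (j₀ : κ) (θ : Cfg io → ℂ) (Y : Matrix (Cfg io) (Cfg io) ℂ) :
    wd_Pi j₀ θ * copyOp j₀ Y = copyOp j₀ Y * wd_Pi j₀ θ := by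
  unfold wd_Pi
  rw [copyOp_eq_tpo, ← tpo_mul, ← tpo_mul]
  congr 1
  funext i
  by_cases hi : i = j₀
  · subst hi
    simp
  · simp [hi]

theorem wd_Pi_sq (j₀ : κ) {θ : Cfg io → ℂ} (hθ : star θ ⬝ᵥ θ = 1) :
    wd_Pi j₀ θ * wd_Pi j₀ θ = wd_Pi (κ := κ) j₀ θ := by
  unfold wd_Pi
  rw [← tpo_mul]
  congr 1
  funext i
  by_cases hi : i = j₀
  · simp [hi]
  · simp [hi, wd_pureOp_sq hθ]

theorem wd_Pi_conjTranspose (j₀ : κ) (θ : Cfg io → ℂ) :
    (wd_Pi j₀ θ).conjTranspose = wd_Pi (κ := κ) j₀ θ := by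
  unfold wd_Pi
  rw [tpo_conjTranspose]
  congr 1
  funext i
  by_cases hi : i = j₀
  · simp [hi]
  · simp only [hi, if_false]
    exact (pureOp_posSemidef θ).1

theorem wd_Pi_mulVec (j₀ : κ) {θ : Cfg io → ℂ} (hθ : star θ ⬝ᵥ θ = 1) :
    wd_Pi j₀ θ *ᵥ tpow κ θ = tpow κ θ := by
  unfold wd_Pi
  rw [tpow_eq_tpv, tpo_mulVec_tpv]
  congr 1
  funext i
  by_cases hi : i = j₀
  · simp [hi]
  · simp only [hi, if_false]
    exact wd_pureOp_mulVec hθ

/-- the one-copy operator of a letter -/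
noncomputable def wd_let1 (θ : Cfg io → ℂ) (l : Letter io) : Matrix (Cfg io) (Cfg io) ℂ :=
  Sum.elim (fun a => a) (fun Q => emb Q (ptr Q (pureOp θ))) l

theorem wd_wordOne_eq (θ : Cfg io → ℂ) (w : FreeMonoid (Letter io)) :
    wordOne θ w = ((FreeMonoid.toList w).map (wd_let1 θ)).prod := by
  unfold wordOne
  rw [FreeMonoid.lift_apply]
  rfl

/-- all donors are contracted -/
theorem wd_Pi_wordAt_Pi (j₀ : κ) {θ : Cfg io → ℂ} (hθ : star θ ⬝ᵥ θ = 1) (d : ℕ → κ) (i : ℕ)
    (w : List (Letter io))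
    (h0 : ∀ n, i ≤ n → n < i + w.countP Sum.isRight → d n ≠ j₀)
    (hinj : ∀ n m, i ≤ n → n < m → m < i + w.countP Sum.isRight → d m ≠ d n) :
    wd_Pi j₀ θ * wordAt j₀ d i w * wd_Pi j₀ θ
      = copyOp j₀ ((w.map (wd_let1 θ)).prod) * wd_Pi j₀ θ := by
  induction w generalizing i with
  | nil =>
    show wd_Pi j₀ θ * 1 * wd_Pi j₀ θ = copyOp j₀ 1 * wd_Pi j₀ θ
    rw [Matrix.mul_one, wd_Pi_sq j₀ hθ, copyOp_one, Matrix.one_mul]
  | cons l w ih =>
    rcases l with a | Q
    · have hc : (Sum.inl a :: w : List (Letter io)).countP Sum.isRight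
          = w.countP Sum.isRight := List.countP_cons_of_neg (by simp)
      rw [hc] at h0 hinj
      have IH := ih i h0 hinj
      rw [List.map_cons, List.prod_cons]
      show wd_Pi j₀ θ * (copyOp j₀ a * wordAt j₀ d i w) * wd_Pi j₀ θ = _
      calc wd_Pi j₀ θ * (copyOp j₀ a * wordAt j₀ d i w) * wd_Pi j₀ θ
          = (wd_Pi j₀ θ * copyOp j₀ a) * wordAt j₀ d i w * wd_Pi j₀ θ := by
            simp only [Matrix.mul_assoc]
        _ = copyOp j₀ a * (wd_Pi j₀ θ * wordAt j₀ d i w * wd_Pi j₀ θ) := by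
            rw [wd_Pi_commute]; simp only [Matrix.mul_assoc]
        _ = copyOp j₀ (wd_let1 θ (Sum.inl a) * (w.map (wd_let1 θ)).prod) * wd_Pi j₀ θ := by
            rw [IH, copyOp_mul, Matrix.mul_assoc]; rfl
    · have hc : (Sum.inr Q :: w : List (Letter io)).countP Sum.isRight
          = w.countP Sum.isRight + 1 := List.countP_cons_of_pos (by rfl)
      rw [hc] at h0 hinj
      have IH := ih (i + 1) (fun n h1 h2 => h0 n (by omega) (by omega))
        (fun n m h1 h2 h3 => hinj n m (by omega) h2 (by omega))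
      have hj : d i ≠ j₀ := h0 i le_rfl (by omega)
      set Pp := wd_Pi j₀ θ with hPp
      set P := copyOp (d i) (pureOp θ) with hP
      set U := UQ (io := io) Q (Equiv.swap (d i) j₀) with hU
      set X := wordAt j₀ d (i + 1) w with hX
      set Rr := copyOp j₀ (emb Q (ptr Q (pureOp θ))) with hRr
      have e1 : P * Pp = Pp := wd_copyOp_mul_Pi j₀ hθ hj
      have e2 : Pp * P = Pp := wd_Pi_mul_copyOp j₀ hθ hj
      have e3 : P * X = X * P :=
        (wd_wordAt_commute j₀ d (i + 1) w hj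
          (fun n h1 h2 => hinj i n le_rfl (by omega) (by omega)) (pureOp θ)).eq
      have e4 : P * U * P = Rr * P := wd_contract Q θ hj
      have e5 : Pp * Rr = Rr * Pp := wd_Pi_commute j₀ θ _
      rw [List.map_cons, List.prod_cons]
      show Pp * (U * X) * Pp = _
      calc Pp * (U * X) * Pp = Pp * (U * X) * (P * Pp) := by rw [e1]
        _ = Pp * U * (X * P) * Pp := by simp only [Matrix.mul_assoc]
        _ = (Pp * P) * U * (P * X) * Pp := by rw [e3, e2]
        _ = Pp * (P * U * P) * X * Pp := by simp only [Matrix.mul_assoc]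
        _ = (Pp * Rr) * P * X * Pp := by rw [e4]; simp only [Matrix.mul_assoc]
        _ = Rr * (Pp * P) * X * Pp := by rw [e5]; simp only [Matrix.mul_assoc]
        _ = Rr * (Pp * X * Pp) := by rw [e2]; simp only [Matrix.mul_assoc]
        _ = copyOp j₀ (wd_let1 θ (Sum.inr Q) * (w.map (wd_let1 θ)).prod) * Pp := by
            rw [IH, copyOp_mul, Matrix.mul_assoc]; rfl

/-- (b): donor contraction -/
theorem symb_wordBlk (w : FreeMonoid (Letter io)) {θ : Cfg io → ℂ} (hθ : star θ ⬝ᵥ θ = 1) :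
    symb (wordBlk w) θ = star θ ⬝ᵥ (wordOne θ w *ᵥ θ) := by
  set r := nStars w with hr
  have key := wd_Pi_wordAt_Pi (κ := Fin (r + 1)) 0 hθ (fun i => Fin.ofNat (r + 1) (i + 1)) 0
    (FreeMonoid.toList w)
    (fun n _ h2 => by
      have hn : n < r := by simpa [nStars, hr] using h2
      rw [wd_ofNat_succ hn]
      exact Fin.succ_ne_zero _)
    (fun n m _ h2 h3 => by
      have hm : m < r := by simpa [nStars, hr] using h3
      have hn : n < r := h2.trans hm
      rw [wd_ofNat_succ hn, wd_ofNat_succ hm]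
      intro h
      have := Fin.succ_injective _ h
      simp only [Fin.mk.injEq] at this
      omega)
  have hΘ := wd_Pi_mulVec (κ := Fin (r + 1)) 0 hθ
  unfold symb
  have h1 : star (tpow (Fin (r + 1)) θ) ⬝ᵥ (wordBlk w *ᵥ tpow (Fin (r + 1)) θ)
      = star (tpow (Fin (r + 1)) θ) ⬝ᵥ
        ((wd_Pi 0 θ * wordBlk w * wd_Pi 0 θ) *ᵥ tpow (Fin (r + 1)) θ) := by
    have h3 : star (tpow (Fin (r + 1)) θ) ᵥ* wd_Pi 0 θ = star (tpow (Fin (r + 1)) θ) := by
      have := Matrix.star_mulVec (wd_Pi 0 θ) (tpow (Fin (r + 1)) θ)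
      rw [hΘ, wd_Pi_conjTranspose] at this
      exact this.symm
    rw [← Matrix.mulVec_mulVec, hΘ, ← Matrix.mulVec_mulVec,
      Matrix.dotProduct_mulVec (star (tpow (Fin (r + 1)) θ)) (wd_Pi 0 θ), h3]
  rw [h1]
  have h2 : wd_Pi (0 : Fin (r + 1)) θ * wordBlk w * wd_Pi 0 θ
      = copyOp 0 (wordOne θ w) * wd_Pi 0 θ := by
    rw [wd_wordOne_eq]
    exact key
  rw [h2, ← Matrix.mulVec_mulVec, hΘ, copyOp_mulVec_tpow_dot _ _ _ hθ]

/-- the sequence attached to an element of the word algebra; the marked copy is the last one -/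
noncomputable def evSeq (x : WAlg io) : SymSeq io
  | 0 => 0
  | k + 1 => cmp (evOp (Fin.last k) x)

theorem hasSymbol_word (w : FreeMonoid (Letter io)) :
    HasSymbol (evSeq (MonoidAlgebra.of ℂ _ w)) (fun θ => star θ ⬝ᵥ (wordOne θ w *ᵥ θ)) := by
  have hev : ∀ k, evSeq (MonoidAlgebra.of ℂ _ w) (k + 1) = cmp (wordOp (Fin.last k) w) := by
    intro k
    show cmp (evOp _ _) = _
    unfold evOp
    rw [MonoidAlgebra.lift_of]
  have hN0 : 0 ≤ wordNorm w := wd_normL_nonneg _
  refine ⟨⟨wordNorm w, ?_⟩, ?_⟩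
  · intro k
    cases k with
    | zero =>
      show ‖(0 : Matrix (SymIx io (Fin 0)) (SymIx io (Fin 0)) ℂ)‖ ≤ _
      rw [norm_zero]
      exact hN0
    | succ k =>
      rw [hev]
      exact (norm_cmp_le _).trans (norm_wordOp_le _ _)
  · intro ε hε
    refine ⟨Fin (nStars w + 1), inferInstance, inferInstance, wordBlk w, ?_, ?_⟩
    · intro θ hθ
      rw [symb_wordBlk w hθ, sub_self, norm_zero]
      exact hε.le
    · obtain ⟨k₀, hk₀⟩ := exists_nat_gt (2 * ((nStars w : ℝ) + 1) ^ 2 * wordNorm w / ε)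
      refine ⟨k₀ + 1, ?_⟩
      intro k hk
      obtain ⟨k', rfl⟩ : ∃ k', k = k' + 1 := ⟨k - 1, by omega⟩
      rw [hev]
      refine (norm_cmp_wordOp_sub_le (Fin.last k') w).trans ?_
      rw [Fintype.card_fin]
      have hk' : (k₀ : ℝ) ≤ ((k' + 1 : ℕ) : ℝ) := by exact_mod_cast (by omega : k₀ ≤ k' + 1)
      have hpos : (0 : ℝ) < ((k' + 1 : ℕ) : ℝ) := by positivity
      have h1 : 2 * ((nStars w : ℝ) + 1) ^ 2 * wordNorm w / ε < ((k' + 1 : ℕ) : ℝ) :=
        hk₀.trans_le hk'
      rw [div_lt_iff₀ hε] at h1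
      calc 2 * (((nStars w : ℝ) + 1) ^ 2 / ((k' + 1 : ℕ) : ℝ)) * wordNorm w
          = (2 * ((nStars w : ℝ) + 1) ^ 2 * wordNorm w) / ((k' + 1 : ℕ) : ℝ) := by ring
        _ ≤ ε := by
            rw [div_le_iff₀ hpos]
            linarith

theorem wd_evSeq_add (x y : WAlg io) : evSeq (x + y) = fun k => evSeq x k + evSeq y k := by
  funext k
  cases k with
  | zero => simp [evSeq]
  | succ k => simp only [evSeq, map_add, cmp_add]

theorem wd_evSeq_smul (a : ℂ) (x : WAlg io) : evSeq (a • x) = fun k => a • evSeq x k := by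
  funext k
  cases k with
  | zero => simp [evSeq]
  | succ k => simp only [evSeq, map_smul, cmp_smul]

/-- **star words have scalar symbols** -/
theorem hasSymbol_evOp (x : WAlg io) :
    HasSymbol (evSeq x) (fun θ => star θ ⬝ᵥ (evOne θ x *ᵥ θ)) := by
  induction x using MonoidAlgebra.induction_on with
  | of w =>
    have : (fun θ : Cfg io → ℂ => star θ ⬝ᵥ (evOne θ (MonoidAlgebra.of ℂ _ w) *ᵥ θ))
        = fun θ => star θ ⬝ᵥ (wordOne θ w *ᵥ θ) := by
      funext θ
      unfold evOne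
      rw [MonoidAlgebra.lift_of]
    rw [this]
    exact hasSymbol_word w
  | add x y hx hy =>
    have : (fun θ : Cfg io → ℂ => star θ ⬝ᵥ (evOne θ (x + y) *ᵥ θ))
        = fun θ => star θ ⬝ᵥ (evOne θ x *ᵥ θ) + star θ ⬝ᵥ (evOne θ y *ᵥ θ) := by
      funext θ
      rw [map_add, Matrix.add_mulVec, dotProduct_add]
    rw [this, wd_evSeq_add]
    exact hx.add hy
  | smul a x hx =>
    have : (fun θ : Cfg io → ℂ => star θ ⬝ᵥ (evOne θ (a • x) *ᵥ θ))
        = fun θ => a * (star θ ⬝ᵥ (evOne θ x *ᵥ θ)) := by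
      funext θ
      rw [map_smul, Matrix.smul_mulVec, dotProduct_smul, smul_eq_mul]
    rw [this, wd_evSeq_smul]
    exact hx.smul a

end Claimed.Agent.R296
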